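import Vale.Agent.P195.Gamma.Complex

/-!
The transposed differentials as words in four pairs of actions. The derivative acts with the
opposite sign, so that the relations of the eight actions hold again.
-/

set_option linter.unusedSimpArgs false

namespace Vale.Agent.P195.Gamma.Acts

variable {W : Type*} [AddCommGroup W] [Module ℚ W] (R : Acts W)

/-- The pairing of the variables with the auxiliary ones. -/
def pi2 (w : W) : W := R.Z 0 (R.Y 0 w) + R.Z 1 (R.Y 1 w)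

/-- The transposed Koszul operator. -/
def dl (w : W) : W := R.Z 0 (R.P 1 w) - R.Z 1 (R.P 0 w)

/-- The dual differential from degree zero. -/
def e0 (j : ℕ) (f : W) : (Fin 2 → W) × (Fin 2 → W) :=
  (![-(cj j • R.A 1 (R.pi2 f)) - R.Y 1 f, cj j • R.A 0 (R.pi2 f) + R.Y 0 f],
    fun r => R.P r f + R.Z r (cj j • (R.A 0 (R.P 0 f) + R.A 1 (R.P 1 f))))

/-- The contribution of the pair entries to the dual differential from degree one. -/
def eD (j : ℕ) (l : Fin 2) (g : Fin 2 → W) (r : Fin 2) : W :=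
  -R.Y l (g r) + cj j • (-R.A l (R.pi2 (g r)) + R.A l (R.Z r (R.Y 0 (g 0) + R.Y 1 (g 1))))

/-- The dual differential from degree one. -/
def e1 (j : ℕ) (x : (Fin 2 → W) × (Fin 2 → W)) : Fin 2 → Fin 2 → W :=
  ![fun r => R.P r (x.1 0) + R.Z r (cj j • R.P 0 (R.A 0 (x.1 0) + R.A 1 (x.1 1))) -
      R.eD j 1 x.2 r,
    fun r => R.P r (x.1 1) + R.Z r (cj j • R.P 1 (R.A 0 (x.1 0) + R.A 1 (x.1 1))) +
      R.eD j 0 x.2 r]

/-- A summand of the dual differential from degree two. -/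
def e2s (j : ℕ) (l : Fin 2) (p : Fin 2 → W) : W :=
  cj j • (-R.A l (R.pi2 (R.P 1 (p 0) - R.P 0 (p 1))) -
      ((j : ℚ) + 2) • R.Y l (R.P 1 (p 0) - R.P 0 (p 1)) +
      R.dl (R.A l (R.Y 0 (p 0) + R.Y 1 (p 1))))

/-- The dual differential from degree two. -/
def e2 (j : ℕ) (p : Fin 2 → Fin 2 → W) : W := R.e2s j 0 (p 0) + R.e2s j 1 (p 1)

/-! ### Transposition -/

section Dual

variable {V E : Type*} [AddCommGroup V] [Module ℚ V] [AddCommGroup E] [Module ℚ E] (R' : Acts V)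

/-- A pairing under which the four transposed actions are the adjoints. -/
structure Dual (β : W →ₗ[ℚ] V →ₗ[ℚ] E) : Prop where
  Z : ∀ l w v, β (R.Z l w) v = β w (R'.Z l v)
  A : ∀ l w v, β (R.A l w) v = -β w (R'.A l v)
  Y : ∀ l w v, β (R.Y l w) v = β w (R'.P l v)
  P : ∀ l w v, β (R.P l w) v = β w (R'.Y l v)

variable {R R'} {β : W →ₗ[ℚ] V →ₗ[ℚ] E} (h : R.Dual R' β)

include h

theorem Dual.T (g : W) (v : V) : β (R.T g) v = β g (R'.pi2 v) := by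
  simp [Acts.T, pi2, h.Z, h.P, R'.YZ]

theorem Dual.d1 (j : ℕ) (hG : (Fin 2 → W) × (Fin 2 → W)) (f : V) :
    β (R.d1 j hG) f = β (hG.1 0) ((R'.e0 j f).1 0) + β (hG.1 1) ((R'.e0 j f).1 1) +
      (β (hG.2 0) ((R'.e0 j f).2 0) + β (hG.2 1) ((R'.e0 j f).2 1)) := by
  simp [Acts.d1, WH, Acts.zP, Acts.T, e0, pi2, h.Z, h.A, h.Y, h.P, R'.YZ, R'.PZ, R'.AY, R'.AP,
    A00Z, A11Z, A01Z, A10Z, P00Y, P11Y, P01Y, P10Y, Z10, A10, Y10, P10, smul_sub, smul_add]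
  module

theorem Dual.d2 (j : ℕ) (p : Fin 2 → Fin 2 → W) (x : (Fin 2 → V) × (Fin 2 → V)) :
    β ((R.d2 j p).1 0) (x.1 0) + β ((R.d2 j p).1 1) (x.1 1) +
        (β ((R.d2 j p).2 0) (x.2 0) + β ((R.d2 j p).2 1) (x.2 1)) =
      β (p 0 0) (R'.e1 j x 0 0) + β (p 0 1) (R'.e1 j x 0 1) +
        (β (p 1 0) (R'.e1 j x 1 0) + β (p 1 1) (R'.e1 j x 1 1)) := by
  simp [Acts.d2, Acts.dG, Acts.zP, fin2_one_sub_zero, fin2_one_sub_one, e1, eD, pi2,
    h.Z, h.A, h.Y, h.P, R'.YZ, R'.PZ, R'.AY, R'.AP,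
    A00Z, A11Z, A01Z, A10Z, P00Y, P11Y, P01Y, P10Y, Z10, A10, Y10, P10, smul_sub, smul_add]
  module

theorem Dual.d3 (j : ℕ) (g : W) (p : Fin 2 → Fin 2 → V) :
    β (R.d3 j g 0 0) (p 0 0) + β (R.d3 j g 0 1) (p 0 1) +
        (β (R.d3 j g 1 0) (p 1 0) + β (R.d3 j g 1 1) (p 1 1)) = β g (R'.e2 j p) := by
  simp [Acts.d3, WB, Acts.io, Acts.zP, Acts.T, e2, e2s, dl, pi2, h.Z, h.A, h.Y, h.P,
    R'.YZ, R'.PZ, R'.AY, R'.AP,
    A00Z, A11Z, A01Z, A10Z, P00Y, P11Y, P01Y, P10Y, Z10, A10, Y10, P10, smul_sub, smul_add]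
  module

end Dual

end Vale.Agent.P195.Gamma.Acts
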