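import Vale.Agent.P195.Gamma.ExactB.Bridge
import Vale.Agent.P195.Gamma.ExactB.CoActs

/-!
The dual differentials and the two links used on symbols are the transposes of the formulas on
families of operators.
-/

namespace Vale.Agent.P195.Gamma.ExactB

open MvPolynomial Model

theorem iz_ne_ip (a b : Fin 2) : iz a ≠ ip b := by
  fin_cases a <;> fin_cases b <;> decide

theorem ip_inj {a b : Fin 2} : ip a = ip b ↔ a = b := by
  fin_cases a <;> fin_cases b <;> decide

theorem iz_inj {a b : Fin 2} : iz a = iz b ↔ a = b := by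
  fin_cases a <;> fin_cases b <;> decide

theorem zv_eq (a : Fin 2) : zv a = X (iz a) := by
  fin_cases a <;> rfl

theorem pv_eq (a : Fin 2) : pv a = X (ip a) := by
  fin_cases a <;> rfl

/-- The momentum of an index. -/
def ixm (a : Fin 2) : Fin 6 := if a = 0 then 2 else 3

theorem Lv_apply (a : Fin 2) (F : S6) : Lv a F = X (ixm a) * F + pderiv (iz a) F := by
  fin_cases a <;> rfl

theorem ixm_ne_ip (a b : Fin 2) : ixm a ≠ ip b := by
  fin_cases a <;> fin_cases b <;> decide

theorem ixm_ne_iz (a b : Fin 2) : ixm a ≠ iz b := by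
  fin_cases a <;> fin_cases b <;> decide

/-- The actions on symbols whose transposes are the actions on families; the derivatives with the
opposite sign. -/
noncomputable def sAct : Acts S6 where
  Z a := LinearMap.mulLeft ℚ (zv a)
  A a := -Lv a
  Y a := LinearMap.mulLeft ℚ (pv a)
  P a := (pderiv (ip a)).toLinearMap
  ZZ a b w := mul_left_comm (zv a) (zv b) w
  AA a b w := by
    simp only [LinearMap.neg_apply, map_neg, Lv_apply, map_add, pderiv_mul,
      pderiv_X_of_ne (ixm_ne_iz _ _), zero_mul, zero_add, pd_comm (iz b) (iz a) w]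
    ring
  YY a b w := mul_left_comm (pv a) (pv b) w
  PP a b w := pd_comm (ip a) (ip b) w
  AZ a b w := by
    simp only [LinearMap.neg_apply, LinearMap.mulLeft_apply, Lv_apply, zv_eq, pderiv_mul]
    by_cases h : a = b
    · subst h
      rw [if_pos rfl, pderiv_X_self]
      ring
    · rw [if_neg h, pderiv_X_of_ne (fun e => h (iz_inj.1 e).symm)]
      ring
  PY a b w := by
    simp only [LinearMap.mulLeft_apply, Derivation.coeFn_coe, pv_eq, pderiv_mul]
    by_cases h : a = b
    · subst h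
      rw [if_pos rfl, pderiv_X_self]
      ring
    · rw [if_neg h, pderiv_X_of_ne (fun e => h (ip_inj.1 e).symm)]
      ring
  YZ a b w := mul_left_comm (pv a) (zv b) w
  PZ a b w := by
    simp only [LinearMap.mulLeft_apply, Derivation.coeFn_coe, zv_eq, pderiv_mul,
      pderiv_X_of_ne (iz_ne_ip b a)]
    ring
  AY a b w := by
    simp only [LinearMap.neg_apply, LinearMap.mulLeft_apply, Lv_apply, pv_eq, pderiv_mul,
      pderiv_X_of_ne (fun e => iz_ne_ip a b e.symm)]
    ring
  AP a b w := by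
    simp only [LinearMap.neg_apply, map_neg, Lv_apply, Derivation.coeFn_coe, map_add, pderiv_mul,
      pderiv_X_of_ne (ixm_ne_ip _ _), pd_comm (iz a) (ip b) w]
    ring

theorem sAct_Z (a : Fin 2) (F : S6) : sAct.Z a F = zv a * F := rfl
theorem sAct_A (a : Fin 2) (F : S6) : sAct.A a F = -Lv a F := rfl
theorem sAct_Y (a : Fin 2) (F : S6) : sAct.Y a F = pv a * F := rfl
theorem sAct_P (a : Fin 2) (F : S6) : sAct.P a F = pderiv (ip a) F := rfl

/-- The pairing as a bilinear map. -/
noncomputable def pairL : OpFam →ₗ[ℚ] S6 →ₗ[ℚ] D where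
  toFun := pair
  map_add' v w := LinearMap.ext fun F => pair_add v w F
  map_smul' c w := LinearMap.ext fun F => pair_smul c w F

theorem pairL_apply (w : OpFam) (F : S6) : pairL w F = pair w F := rfl

theorem dual_sAct : opActs.Dual sAct pairL where
  Z := pair_Z
  A a w F := by
    rw [pairL_apply, pairL_apply, pair_A, sAct_A, map_neg, neg_neg]
  Y := pair_Y
  P := pair_P

theorem cj_smul (j : ℕ) (F : S6) : Acts.cj j • F = cc j * F := smul_eq_C_mul _ _

theorem two_smul_eq (j : ℕ) (F : S6) : ((j : ℚ) + 2) • F = ((j : S6) + 2) * F := by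
  rw [smul_eq_C_mul]
  simp [map_ofNat]

theorem pi2_sAct (F : S6) : sAct.pi2 F = piv * F := by
  simp only [Acts.pi2, sAct_Z, sAct_Y, piv, zv, pv]
  simp
  ring

theorem dl_sAct (F : S6) : sAct.dl F = del F := by
  simp [Acts.dl, sAct_Z, sAct_P, del, zv, ip]

theorem ofCo1_d0 (j : ℕ) (f : S6) :
    ofCo1 (d0 j f) = Sum.elim (sAct.e0 j f).1 (sAct.e0 j f).2 := by
  funext c
  rcases c with l | l <;> fin_cases l <;>
    simp [ofCo1, d0, Acts.e0, pi2_sAct, sAct_A, sAct_P, sAct_Y, sAct_Z, Lv_zero, Lv_one, cj_smul,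
      zv, pv, ip] <;> ring

theorem ofCo2_d1 (j : ℕ) (x : Fin 2 ⊕ Fin 2 → S6) (l r : Fin 2) :
    ofCo2 (d1 j (toCo1 x)) (l, r) =
      sAct.e1 j (fun a => x (.inl a), fun a => x (.inr a)) l r := by
  fin_cases l <;> fin_cases r <;>
    simp [ofCo2, toCo1, d1, D0r, D1r, Acts.e1, Acts.eD, pi2_sAct, sAct_A, sAct_P, sAct_Y, sAct_Z,
      Lv_zero, Lv_one, cj_smul, zv, pv, ip] <;> ring

theorem d2_toCo2 (j : ℕ) (x : Fin 2 × Fin 2 → S6) :
    d2 j (toCo2 x) = sAct.e2 j (fun l r => x (l, r)) := by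
  have hd : ∀ F, del (-F) = -del F := fun F => by
    simp [del]; ring
  simp [toCo2, d2, Acts.e2, Acts.e2s, pi2_sAct, dl_sAct, sAct_A, sAct_P, sAct_Y,
    Lv_zero, Lv_one, cj_smul, two_smul_eq, pv, ip, hd]
  ring

theorem pairCo_eq {J k : ℕ} (y : Slot.C J k → OpFam) (F : Co J k) :
    pairCo y F = ∑ c, pairL (y c) (F c) := rfl

theorem pairCo_mid {j : ℕ} (y : Slot.C (j + 1) 2 → OpFam) (F : Co (j + 1) 2) :
    pairCo y F = pairL (y (.inl 0)) (F (.inl 0)) + pairL (y (.inl 1)) (F (.inl 1)) +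
      (pairL (y (.inr 0)) (F (.inr 0)) + pairL (y (.inr 1)) (F (.inr 1))) := by
  show (∑ c : Fin 2 ⊕ Fin 2, pairL (y c) (F c)) = _
  rw [Fintype.sum_sum_type, Fin.sum_univ_two, Fin.sum_univ_two]

theorem pairCo_pairs {j : ℕ} (y : Slot.C (j + 1) 3 → OpFam) (F : Co (j + 1) 3) :
    pairCo y F = pairL (y (0, 0)) (F (0, 0)) + pairL (y (0, 1)) (F (0, 1)) +
      (pairL (y (1, 0)) (F (1, 0)) + pairL (y (1, 1)) (F (1, 1))) := by
  show (∑ c : Fin 2 × Fin 2, pairL (y c) (F c)) = _
  rw [Fintype.sum_prod_type, Fin.sum_univ_two, Fin.sum_univ_two, Fin.sum_univ_two]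

theorem pairCo_unit (y : Unit → OpFam) (F : Unit → S6) :
    (∑ c : Unit, pairL (y c) (F c)) = pairL (y ()) (F ()) := Fintype.sum_unique _

theorem pairCo_two (y : Fin 2 → OpFam) (F : Fin 2 → S6) :
    (∑ c : Fin 2, pairL (y c) (F c)) = pairL (y 0) (F 0) + pairL (y 1) (F 1) :=
  Fin.sum_univ_two _

/-- The dual differentials are the transposes of the differentials. -/
theorem adj_dF : ∀ J k, Adj (Slot.dF J k) (delta J k)
  | 0, 0, y, F => by
    show (∑ c : Unit, pairL (Slot.zPL y) (F c)) = ∑ c : Fin 2, pairL (y c) (zS c * F ())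
    rw [Fintype.sum_unique, pairCo_two]
    simp [Slot.zPL, pairL_apply, pair_Z, zv, zS]
  | 0, 1, y, F => by
    show (∑ c : Fin 2, pairL ((Slot.kz ∘ₗ Slot.curl) y c) (F c)) =
      ∑ c : Fin 2, pairL (y c) (![L1 (z1 * F 0 - z0 * F 1), -L0 (z1 * F 0 - z0 * F 1)] c)
    rw [pairCo_two, pairCo_two]
    simp [Slot.kz, Slot.curl, pairL_apply, pair_Z, pair_A, zv, ← Lv_zero,
      ← Lv_one]
    abel
  | 0, 2, y, F => by
    show (∑ c : Fin 2, pairL (opActs.A c (y ())) (F c)) =
      ∑ c : Unit, pairL (y c) (L0 (F 0) + L1 (F 1))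
    rw [pairCo_two, Fintype.sum_unique]
    simp [pairL_apply, pair_A, Lv_zero, Lv_one]
  | 0, k + 3, y, F => by
    simp [pairCo_eq, Slot.dF, delta]
  | _ + 1, 0, y, F => by
    simp [pairCo_eq, Slot.dF, delta]
  | j + 1, 1, y, F => by
    rw [pairCo_mid]
    show (∑ c : Unit, pairL (opActs.d1 j (Slot.split y)) (F c)) = _
    rw [Fintype.sum_unique, dual_sAct.d1, show delta (j + 1) 1 F = _ from ofCo1_d0 j (F ())]
    rfl
  | j + 1, 2, y, F => by
    rw [pairCo_mid, pairCo_pairs]
    have h := dual_sAct.d2 j (fun l r => y (l, r)) (fun a => F (.inl a), fun a => F (.inr a))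
    simp only [← ofCo2_d1] at h
    exact h
  | j + 1, 3, y, F => by
    rw [pairCo_pairs]
    show _ = ∑ c : Unit, pairL (y c) (d2 j (toCo2 F))
    rw [Fintype.sum_unique, d2_toCo2]
    exact dual_sAct.d3 j (y ()) fun l r => F (l, r)
  | _ + 1, k + 4, y, F => by
    simp [pairCo_eq, Slot.dF, delta]

/-- The link in the last degree is multiplication by the pairing of the variables. -/
theorem adj_top (J : ℕ) : Adj (Slot.fF (J + 1) 4) fun F _ => piv * F () := by
  intro y F
  show (∑ c : Unit, pairL (((-1 : ℚ) ^ 4) • opActs.T (y ())) (F c)) =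
    ∑ c : Unit, pairL (y c) (piv * F ())
  rw [Fintype.sum_unique, Fintype.sum_unique, show ((-1 : ℚ) ^ 4) = 1 by norm_num, one_smul,
    dual_sAct.T, pi2_sAct]

/-- The link out of the last term of the head is multiplication by two variables. -/
theorem adj_head : Adj (Slot.fF 0 3) fun F p => zS p.2 * zS p.1 * F () := by
  intro y F
  rw [pairCo_pairs]
  show (∑ c : Unit, pairL (((-1 : ℚ) ^ 3) • -(opActs.Z 0 (Slot.zPL fun r => y (0, r)) +
    opActs.Z 1 (Slot.zPL fun r => y (1, r)))) (F c)) = _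
  rw [Fintype.sum_unique]
  simp [Slot.zPL, pow_succ, pairL_apply, pair_Z, zv, zS]
  simp only [mul_assoc]
  abel

end Vale.Agent.P195.Gamma.ExactB
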