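import Vale.Agent.P195.Gamma.ExactB.Reduce

/-!
The cohomology of the symbol complexes: degrees zero, one and two vanish with one exception, and the
linking map is bijective in degree three.
-/

namespace Vale.Agent.P195.Gamma.ExactB

open MvPolynomial

theorem piv_ne_zero : (piv : S6) ≠ 0 := fun h0 => by
  simpa [piv] using congrArg (eval (fun _ => (1 : ℚ))) h0

theorem Fil0_Lay {s q : ℤ} {F : S6} (hF : F ∈ Fil 0 s q) : F ∈ Lay 0 s q :=
  mem_Sup_iff.2 fun d hd => by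
    have h := mem_Sup_iff.1 hF d hd
    have : (0 : ℤ) ≤ dgx d := by simp only [dgx]; omega
    exact ⟨by omega, by omega, h.2.2⟩

theorem M1_base {s : ℤ} {j : ℕ} {x : Co1} (hx : M1 0 s j x) :
    ∃ Q ∈ Fil 0 (s - 1) (j - 1), x = ⟨0, 0, -(z0 * Q), -(z1 * Q)⟩ := by
  obtain ⟨h0, h1, P0, P1, Q, a0, a1, aQ, e0, e1⟩ := hx
  refine ⟨Q, aQ, ?_⟩
  ext1 <;> simp only [Fil_zero_of_neg h0 (Or.inl (by omega)), Fil_zero_of_neg h1 (Or.inl (by omega)),
    e0, e1, Fil_zero_of_neg a0 (Or.inl (by omega)), Fil_zero_of_neg a1 (Or.inl (by omega)), zero_sub]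

theorem M2_base {s : ℤ} {j : ℕ} {x : Co2} (hx : M2 0 s j x) :
    ∃ Q0 ∈ Fil 0 (s - 1) j, ∃ Q1 ∈ Fil 0 (s - 1) j,
      x = ⟨-(z0 * Q0), -(z1 * Q0), -(z0 * Q1), -(z1 * Q1)⟩ := by
  obtain ⟨⟨A0, A1, Q0, a0, a1, h0, e0, e1⟩, ⟨B0, B1, Q1, b0, b1, h1, e2, e3⟩⟩ := hx
  refine ⟨Q0, h0, Q1, h1, ?_⟩
  ext1 <;> simp only [e0, e1, e2, e3, Fil_zero_of_neg a0 (Or.inl (by omega)),
    Fil_zero_of_neg a1 (Or.inl (by omega)), Fil_zero_of_neg b0 (Or.inl (by omega)),
    Fil_zero_of_neg b1 (Or.inl (by omega)), zero_sub]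

theorem d1_base (j : ℕ) (Q : S6) :
    d1 j ⟨0, 0, -(z0 * Q), -(z1 * Q)⟩ =
      ⟨-(z0 * (p1 * Q)), -(z1 * (p1 * Q)), z0 * (p0 * Q), z1 * (p0 * Q)⟩ := by
  ext1 <;> simp only [d1, D0r, D1r] <;> ((simp only [del, eps, Om, L0, L1, piv, dz0, dz1, dx0, dx1, dp0, dp1,
                                            z0, z1, x0, x1, p0, p1, Derivation.map_add, Derivation.map_sub,
                                            Derivation.map_neg, Derivation.map_intCast, Derivation.map_natCast,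
                                            Derivation.map_one_eq_zero, map_zero, pderiv_mul, pderiv_C, pderiv_X_self, rules6]);
                                            try simp only [pderiv_cc, zero_mul, mul_zero, add_zero, zero_add, sub_zero, map_zero]) <;> ring

theorem d2_base (j : ℕ) {s : ℤ} {Q0 Q1 : S6} (h0 : Q0 ∈ Fil 0 s j) (h1 : Q1 ∈ Fil 0 s j) :
    d2 j ⟨-(z0 * Q0), -(z1 * Q0), -(z0 * Q1), -(z1 * Q1)⟩ = del (p0 * Q0 + p1 * Q1) := by
  have := d2_coord' (a := 0) (s := s) j (zero_mem _) (zero_mem _) (zero_mem _) (zero_mem _) h0 h1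
  simp only [zero_sub] at this
  rw [this]
  simp only [low2]
  (simp only [del, eps, Om, L0, L1, piv, dz0, dz1, dx0, dx1, dp0, dp1,
      z0, z1, x0, x1, p0, p1, Derivation.map_add, Derivation.map_sub,
      Derivation.map_neg, Derivation.map_intCast, Derivation.map_natCast,
      Derivation.map_one_eq_zero, map_zero, pderiv_mul, pderiv_C, pderiv_X_self, rules6])
  ring

/-- A symbol of order zero in the image of the differential. -/
theorem base_image {s : ℤ} (j : ℕ) {Λ : S6} (hΛ : Λ ∈ Fil 0 (s - 1) (j + 1)) :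
    ∃ x, M2 0 s j x ∧ d2 j x = del Λ := by
  have h0 : cc j * dp0 Λ ∈ Fil 0 (s - 1) j := cc_Fil j (Fil_cast (dp0_Fil hΛ) le_rfl rfl (by ring))
  have h1 : cc j * dp1 Λ ∈ Fil 0 (s - 1) j := cc_Fil j (Fil_cast (dp1_Fil hΛ) le_rfl rfl (by ring))
  refine ⟨⟨-(z0 * (cc j * dp0 Λ)), -(z1 * (cc j * dp0 Λ)), -(z0 * (cc j * dp1 Λ)),
    -(z1 * (cc j * dp1 Λ))⟩,
    ⟨⟨0, 0, _, zero_mem _, zero_mem _, h0, (zero_sub _).symm, (zero_sub _).symm⟩,
      ⟨0, 0, _, zero_mem _, zero_mem _, h1, (zero_sub _).symm, (zero_sub _).symm⟩⟩, ?_⟩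
  have e := Fil_euler hΛ
  push_cast at e
  rw [d2_base j h0 h1,
    show p0 * (cc j * dp0 Λ) + p1 * (cc j * dp1 Λ) = Λ by
      linear_combination cc j * e + Λ * cc_mul j]

/-- No cohomology in degree zero. -/
theorem exact_zero (j : ℕ) {s : ℤ} (n : ℕ) {f : S6} (hf : M0 n s j f) (h : d0 j f = 0) : f = 0 :=
  reduce_zero j n hf (by rw [h]; exact M1.zero)

/-- No cohomology in degree one. -/
theorem exact_one (j : ℕ) {s : ℤ} (hs : 0 ≤ s) (n : ℕ) {x : Co1} (hx : M1 n s j x)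
    (h : d1 j x = 0) : ∃ f, M0 n s j f ∧ d0 j f = x := by
  obtain ⟨f, hf, he⟩ := reduce_one j hs n hx (by rw [h]; exact M2.zero)
  refine ⟨f, hf, ?_⟩
  obtain ⟨Q, -, eQ⟩ := M1_base he
  have hd : d1 j (x - d0 j f) = 0 := by
    rw [d1_sub, d1_d0_mem hf, h]
    ext1 <;> simp
  rw [eQ, d1_base] at hd
  have hQ : Q = 0 := by simpa [X_ne_zero] using congrArg Co2.a0 hd
  rw [hQ] at eQ
  ext1
  · have := congrArg Co1.u0 eQ
    simp only [Co1.sub_u0] at this
    linear_combination -this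
  · have := congrArg Co1.u1 eQ
    simp only [Co1.sub_u1] at this
    linear_combination -this
  · have := congrArg Co1.g0 eQ
    simp only [Co1.sub_g0, mul_zero, neg_zero] at this
    linear_combination -this
  · have := congrArg Co1.g1 eQ
    simp only [Co1.sub_g1, mul_zero, neg_zero] at this
    linear_combination -this

/-- The single class of degree two. -/
noncomputable def kap : Co2 := ⟨-(z0 * z0), -(z1 * z0), -(z0 * z1), -(z1 * z1)⟩

/-- A multiple of the single class of degree two. -/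
noncomputable def kapS (r : ℚ) : Co2 :=
  ⟨C r * kap.a0, C r * kap.a1, C r * kap.b0, C r * kap.b1⟩

theorem Lay000 {F : S6} (hF : F ∈ Lay 0 0 0) : ∃ r : ℚ, F = C r := by
  refine Sup_induction (motive := fun G => ∃ r : ℚ, G = C r) hF ⟨0, (map_zero C).symm⟩
    (fun f g ⟨r, hr⟩ ⟨r', hr'⟩ => ⟨r + r', by rw [hr, hr', map_add]⟩) fun d a ⟨h1, h2, h3⟩ => ⟨a, ?_⟩
  have : d = 0 := by
    ext i
    simp only [dgx, dgz, dgp] at h1 h2 h3
    fin_cases i <;> simp <;> omega
  rw [this]; rfl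

/-- Cohomology in degree two: none, except a line when `j = 0` and the weight is two. -/
theorem exact_two (j : ℕ) {s : ℤ} (hs : 0 ≤ s) (hs2 : s ≤ 2) (n : ℕ) {x : Co2} (hx : M2 n s j x)
    (h : d2 j x = 0) : ∃ y r, M1 n s j y ∧ x - d1 j y = kapS r ∧
      ((1 ≤ j ∨ s ≤ 1) → r = 0) := by
  obtain ⟨y, hy, he⟩ := reduce_two j hs n hx (by rw [h]; exact zero_mem _)
  obtain ⟨Q0, h0, Q1, h1, eQ⟩ := M2_base he
  have hd : d2 j (x - d1 j y) = 0 := by rw [d2_sub, d2_d1_mem hy, h, sub_zero]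
  rw [eQ, d2_base j h0 h1] at hd
  set Λ := p0 * Q0 + p1 * Q1 with hΛ'
  have hΛ : Λ ∈ Lay 0 (s - 1) (j + 1) :=
    Fil0_Lay (add_mem (p0_Fil h0) (p1_Fil h1))
  set ω := dp0 Q1 - dp1 Q0 with hω'
  have hω : ω ∈ Fil 0 (s - 1) (j - 1) := sub_mem (dp0_Fil h1) (dp1_Fil h0)
  have f0 : dp0 Λ = ((j : S6) + 1) * Q0 + p1 * ω := by
    have := Fil_euler h0
    push_cast at this
    rw [hΛ', hω']
    revert this
    (simp only [del, eps, Om, L0, L1, piv, dz0, dz1, dx0, dx1, dp0, dp1,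
        z0, z1, x0, x1, p0, p1, Derivation.map_add, Derivation.map_sub,
        Derivation.map_neg, Derivation.map_intCast, Derivation.map_natCast,
        Derivation.map_one_eq_zero, map_zero, pderiv_mul, pderiv_C, pderiv_X_self, rules6])
    intro this
    linear_combination this
  have f1 : dp1 Λ = ((j : S6) + 1) * Q1 - p0 * ω := by
    have := Fil_euler h1
    push_cast at this
    rw [hΛ', hω']
    revert this
    (simp only [del, eps, Om, L0, L1, piv, dz0, dz1, dx0, dx1, dp0, dp1,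
        z0, z1, x0, x1, p0, p1, Derivation.map_add, Derivation.map_sub,
        Derivation.map_neg, Derivation.map_intCast, Derivation.map_natCast,
        Derivation.map_one_eq_zero, map_zero, pderiv_mul, pderiv_C, pderiv_X_self, rules6])
    intro this
    linear_combination this
  have key := eps_del_Lay hΛ
  rw [hd] at key
  have k' : piv * Om Λ = ((((j : ℤ) + 1) * s : ℤ) : S6) * Λ := by
    rw [show (((j : ℤ) + 1) * s : ℤ) = ((j : ℤ) + 1) * (s - 1 + 1) by ring, ← key]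
    simp [eps]
  by_cases hz : Λ = 0
  · -- the cochain is a coboundary
    set Q := -(cc j * ω) with hQ'
    have hQ : Q ∈ Fil 0 (s - 1) (j - 1) := neg_mem (cc_Fil j hω)
    have hcc := cc_mul j
    have e0 : Q0 = p1 * Q := by
      rw [hz] at f0
      simp only [dp0, map_zero] at f0
      rw [hQ']
      linear_combination -(cc j) * f0 - Q0 * hcc
    have e1 : Q1 = -(p0 * Q) := by
      rw [hz] at f1
      simp only [dp1, map_zero] at f1
      rw [hQ']
      linear_combination -(cc j) * f1 - Q1 * hcc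
    have hy' : M1 n s j ⟨0, 0, -(z0 * Q), -(z1 * Q)⟩ :=
      ⟨zero_mem _, zero_mem _, 0, 0, Q, zero_mem _, zero_mem _, Fil_cast hQ (by omega) rfl rfl,
        (zero_sub _).symm, (zero_sub _).symm⟩
    refine ⟨y - (0 - ⟨0, 0, -(z0 * Q), -(z1 * Q)⟩), 0, hy.sub (M1.zero.sub hy'), ?_, fun _ => rfl⟩
    rw [d1_sub, d1_sub, d1_zero, d1_base]
    have a0 := congrArg Co2.a0 eQ
    have a1 := congrArg Co2.a1 eQ
    have b0 := congrArg Co2.b0 eQ
    have b1 := congrArg Co2.b1 eQ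
    simp only [Co2.sub_a0, Co2.sub_a1, Co2.sub_b0, Co2.sub_b1, e0, e1] at a0 a1 b0 b1
    ext1 <;> simp only [kapS, map_zero, zero_mul, Co2.sub_a0, Co2.sub_a1, Co2.sub_b0, Co2.sub_b1,
      Co2.zero_a0, Co2.zero_a1, Co2.zero_b0, Co2.zero_b1]
    · linear_combination a0
    · linear_combination a1
    · linear_combination b0
    · linear_combination b1
  · have hs' : s = 2 := by
      by_contra hne
      refine hz ?_
      have hOm : Om Λ = 0 := Lay_zero_of_neg (Om_Lay hΛ) (Or.inr (Or.inl (by omega)))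
      rcases eq_or_ne s 0 with rfl | h0'
      · exact Lay_zero_of_neg hΛ (Or.inr (Or.inl (by omega)))
      · refine int_cancel (n := ((j : ℤ) + 1) * s) (mul_ne_zero (by omega) h0') ?_
        rw [← k', hOm]; ring
    subst hs'
    have hR := Om_Lay hΛ
    have hδ : del (Om Λ) = 0 := by
      refine mul_left_cancel₀ piv_ne_zero ?_
      rw [← del_mul_piv, k', del_int, hd]
      ring
    have kR := eps_del_Lay hR
    rw [hδ, show Om (Om Λ) = 0 from Lay_zero_of_neg (Om_Lay hR) (Or.inr (Or.inl (by omega))),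
      mul_zero, show eps 0 = 0 by simp [eps], add_zero] at kR
    have hj : j = 0 := by
      by_contra hj
      refine hz ?_
      have : Om Λ = 0 := by
        refine int_cancel (n := (((j : ℤ) + 1) - 1) * ((2 : ℤ) - 1 - 1 + 1)) ?_ ?_
        · simp; omega
        · rw [← kR]; ring
      refine int_cancel (n := ((j : ℤ) + 1) * 2) (by omega) ?_
      rw [← k', this]; ring
    subst hj
    obtain ⟨r, hr⟩ := Lay000 (Lay_cast hR rfl (by norm_num) (by norm_num))
    have hω0 : ω = 0 := Fil_zero_of_neg hω (Or.inr (by simp))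
    have eΛ : Λ = C (r / 2) * piv := by
      refine int_cancel (n := 2) (by norm_num) ?_
      have h2 : (((2 : ℤ) : S6)) * C (r / 2) = C r := by
        rw [show ((2 : ℤ) : S6) = C (2 : ℚ) by simp [map_ofNat], ← map_mul]
        congr 1; ring
      rw [← mul_assoc, h2, ← hr, mul_comm _ piv, k']
      simp
    refine ⟨y, r / 2, hy, ?_, fun hh => absurd hh (by omega)⟩
    rw [hω0, eΛ] at f0 f1
    revert f0 f1
    (simp only [del, eps, Om, L0, L1, piv, dz0, dz1, dx0, dx1, dp0, dp1,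
        z0, z1, x0, x1, p0, p1, Derivation.map_add, Derivation.map_sub,
        Derivation.map_neg, Derivation.map_intCast, Derivation.map_natCast,
        Derivation.map_one_eq_zero, map_zero, pderiv_mul, pderiv_C, pderiv_X_self, rules6])
    intro f1 f0
    rw [eQ]
    ext1 <;> simp only [kapS, kap]
    · simp only [Nat.cast_zero] at f0 ⊢
      linear_combination z0 * f0
    · simp only [Nat.cast_zero] at f0 ⊢
      linear_combination z1 * f0
    · simp only [Nat.cast_zero] at f1 ⊢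
      linear_combination z0 * f1
    · simp only [Nat.cast_zero] at f1 ⊢
      linear_combination z1 * f1

/-- The link on degree two cochains. -/
noncomputable def f2 (x : Co2) : Co2 := ⟨piv * x.a0, piv * x.a1, piv * x.b0, piv * x.b1⟩

theorem f2_mem {a s : ℤ} {j : ℕ} {x : Co2} (hx : M2 a s j x) : M2 a (s + 1) (j + 1) (f2 x) := by
  obtain ⟨⟨A0, A1, Q0, hA0, hA1, hQ0, e0, e1⟩, ⟨B0, B1, Q1, hB0, hB1, hQ1, e2, e3⟩⟩ := hx
  refine ⟨⟨piv * A0, piv * A1, piv * Q0, Fil_cast (piv_Fil hA0) le_rfl rfl (by push_cast; ring),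
    Fil_cast (piv_Fil hA1) le_rfl rfl (by push_cast; ring),
    Fil_cast (piv_Fil hQ0) le_rfl (by ring) (by push_cast; ring), ?_, ?_⟩,
    ⟨piv * B0, piv * B1, piv * Q1, Fil_cast (piv_Fil hB0) le_rfl rfl (by push_cast; ring),
    Fil_cast (piv_Fil hB1) le_rfl rfl (by push_cast; ring),
    Fil_cast (piv_Fil hQ1) le_rfl (by ring) (by push_cast; ring), ?_, ?_⟩⟩
  all_goals simp only [f2, e0, e1, e2, e3]; ring

/-- The lowering part of the differential, simplified. -/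
theorem low2_eq {a s : ℤ} (j : ℕ) {A0 A1 B0 B1 : S6} (hA0 : A0 ∈ Fil a s j) (hA1 : A1 ∈ Fil a s j)
    (hB0 : B0 ∈ Fil a s j) (hB1 : B1 ∈ Fil a s j) :
    low2 j A0 A1 B0 B1 = A1 + dz0 (z1 * A0 - z0 * A1) - p0 * (dp1 A0 - dp0 A1) +
      (-B0 + dz1 (z1 * B0 - z0 * B1) - p1 * (dp1 B0 - dp0 B1)) := by
  have c1 := cc_mul j
  have eA0 := Fil_euler hA0
  have eA1 := Fil_euler hA1
  have eB0 := Fil_euler hB0
  have eB1 := Fil_euler hB1
  have hA := congrArg dz0 (piv_chi eA0 eA1)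
  have hB := congrArg dz1 (piv_chi eB0 eB1)
  revert c1 eA0 eA1 eB0 eB1 hA hB
  simp only [low2]
  ((simp only [del, eps, Om, L0, L1, piv, dz0, dz1, dx0, dx1, dp0, dp1,
      z0, z1, x0, x1, p0, p1, Derivation.map_add, Derivation.map_sub,
      Derivation.map_neg, Derivation.map_intCast, Derivation.map_natCast,
      Derivation.map_one_eq_zero, map_zero, pderiv_mul, pderiv_C, pderiv_X_self, rules6]);
      try simp only [pderiv_cc, zero_mul, mul_zero, add_zero, zero_add, sub_zero, map_zero])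
  push_cast
  intro c1 eA0 eA1 eB0 eB1 hA hB
  linear_combination cc j * hA + cc j * hB + cc j * (eA1 - eB0) +
    (A1 + (X 1 * pderiv 0 A0 - (A1 + X 0 * pderiv 0 A1)) - X 4 * (pderiv 5 A0 - pderiv 4 A1) +
      (-B0 + (B0 + X 1 * pderiv 1 B0 - X 0 * pderiv 1 B1) - X 5 * (pderiv 5 B0 - pderiv 4 B1))) * c1

theorem d2_f2 {a s : ℤ} {j : ℕ} {x : Co2} (hx : M2 a s j x) :
    d2 (j + 1) (f2 x) = piv * d2 j x := by
  obtain ⟨g0, g1, h0, h1⟩ := x
  obtain ⟨⟨A0, A1, Q0, hA0, hA1, hQ0, rfl, rfl⟩, ⟨B0, B1, Q1, hB0, hB1, hQ1, rfl, rfl⟩⟩ := hx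
  have up : ∀ {a' s' : ℤ} {F : S6}, F ∈ Fil a' s' j → piv * F ∈ Fil a' (s' + 1) ((j + 1 : ℕ) : ℤ) :=
    fun h => Fil_cast (piv_Fil h) le_rfl rfl (by push_cast; ring)
  have e : f2 ⟨A0 - z0 * Q0, A1 - z1 * Q0, B0 - z0 * Q1, B1 - z1 * Q1⟩ =
      ⟨piv * A0 - z0 * (piv * Q0), piv * A1 - z1 * (piv * Q0),
        piv * B0 - z0 * (piv * Q1), piv * B1 - z1 * (piv * Q1)⟩ := by
    ext1 <;> simp only [f2] <;> ring
  rw [e, d2_coord' (j + 1) (up hA0) (up hA1) (up hB0) (up hB1) (up hQ0) (up hQ1),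
    d2_coord' j hA0 hA1 hB0 hB1 hQ0 hQ1]
  rw [low2_eq (j + 1) (up hA0) (up hA1) (up hB0) (up hB1), low2_eq j hA0 hA1 hB0 hB1]
  (simp only [del, eps, Om, L0, L1, piv, dz0, dz1, dx0, dx1, dp0, dp1,
      z0, z1, x0, x1, p0, p1, Derivation.map_add, Derivation.map_sub,
      Derivation.map_neg, Derivation.map_intCast, Derivation.map_natCast,
      Derivation.map_one_eq_zero, map_zero, pderiv_mul, pderiv_C, pderiv_X_self, rules6])
  ring

/-- The link is onto in degree three. -/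
theorem top_surj (j : ℕ) {s : ℤ} (hs : 0 ≤ s) (n : ℕ) {η : S6} (hη : η ∈ Fil n (s + 1) (j + 1)) :
    ∃ θ x, θ ∈ Fil n s j ∧ M2 n (s + 1) (j + 1) x ∧ η = piv * θ + d2 (j + 1) x := by
  obtain ⟨x, hx, he⟩ := reduce_three (j + 1) (by omega) n (Fil_cast hη le_rfl rfl (by push_cast; rfl))
  have hl := Fil0_Lay he
  push_cast at hl
  have key := del_eps_Lay hl
  have hN : (s + 1) * ((j : ℤ) + 1 + 1) ≠ 0 := mul_ne_zero (by omega) (by omega)
  obtain ⟨Λ, hΛ, eΛ⟩ := exists_int_div hN (eps_Lay hl)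
  obtain ⟨θ, hθ, eθ⟩ := exists_int_div hN (Om_Lay hl)
  have hsplit : η - d2 (j + 1) x = del Λ + piv * θ := by
    refine int_cancel hN ?_
    rw [← key, ← eΛ, ← eθ, del_int]
    ring
  obtain ⟨x', hx', ex'⟩ := base_image (s := s + 1) (j + 1)
    (Lay_le_Fil hΛ le_rfl (by ring) : Λ ∈ Fil 0 (s + 1 - 1) _)
  refine ⟨θ, x - ((0 : Co2) - x'), Lay_le_Fil (Lay_cast hθ rfl (by ring) (by ring) : θ ∈ Lay 0 s j)
    (by omega) (by ring), hx.sub (M2.zero.sub (hx'.mono (by omega))), ?_⟩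
  rw [d2_sub, d2_sub, show d2 (j + 1) 0 = 0 by simp [d2, del, L0, L1], ex']
  linear_combination hsplit

/-- The link is injective in degree three. -/
theorem top_inj (j : ℕ) {s : ℤ} (hs : 0 ≤ s) (n : ℕ) {θ : S6} (hθ : θ ∈ Fil n s j) {x : Co2}
    (hx : M2 n (s + 1) (j + 1) x) (h : piv * θ = d2 (j + 1) x) :
    ∃ x', M2 n s j x' ∧ d2 j x' = θ := by
  obtain ⟨w, hw, he⟩ := reduce_three j hs n hθ
  have hv : M2 n (s + 1) (j + 1) (x - f2 w) := hx.sub (f2_mem hw)
  have hdv : d2 (j + 1) (x - f2 w) = piv * (θ - d2 j w) := by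
    rw [d2_sub, d2_f2 hw, ← h]; ring
  obtain ⟨y, hy, hb⟩ := reduce_two (j + 1) (by omega) n hv (by
    rw [hdv]; exact Fil_cast (piv_Fil he) le_rfl rfl (by push_cast; ring))
  have hd' : d2 (j + 1) (x - f2 w - d1 (j + 1) y) = piv * (θ - d2 j w) := by
    rw [d2_sub, d2_d1_mem hy, sub_zero, hdv]
  obtain ⟨Q0, h0, Q1, h1, eQ⟩ := M2_base hb
  rw [eQ, d2_base (j + 1) h0 h1] at hd'
  set Λ := p0 * Q0 + p1 * Q1
  have hΛ : Λ ∈ Lay 0 (s + 1 - 1) ((j + 1 : ℕ) + 1) := Fil0_Lay (add_mem (p0_Fil h0) (p1_Fil h1))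
  have key := eps_del_Lay hΛ
  rw [hd', eps_piv, ← mul_add] at key
  have hl := Fil0_Lay he
  have hN : (((j + 1 : ℕ) : ℤ) + 1) * (s + 1 - 1 + 1) ≠ 0 := mul_ne_zero (by omega) (by omega)
  obtain ⟨R, hR, eR⟩ := exists_int_div hN
    (add_mem (Lay_cast (eps_Lay hl) rfl rfl rfl)
      (Lay_cast (Om_Lay hΛ) rfl (by ring) (by push_cast; ring)) :
      eps (θ - d2 j w) + Om Λ ∈ Lay 0 (s - 1) ((j : ℤ) + 1))
  have eΛ : Λ = piv * R := by
    refine int_cancel hN ?_
    rw [← key, ← eR]; ring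
  have eθ : θ - d2 j w = del R := by
    refine mul_left_cancel₀ piv_ne_zero ?_
    rw [← hd', eΛ, del_mul_piv]
  obtain ⟨x', hx', ex'⟩ := base_image j (Lay_le_Fil hR le_rfl (by ring) : R ∈ Fil 0 (s - 1) _)
  refine ⟨w - ((0 : Co2) - x'), hw.sub (M2.zero.sub (hx'.mono (by omega))), ?_⟩
  rw [d2_sub, d2_sub, show d2 j 0 = 0 by simp [d2, del, L0, L1], ex']
  linear_combination -eθ

end Vale.Agent.P195.Gamma.ExactB
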