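import Mathlib

/-!
Polynomial symbols for the complexes of maps out of the resolving complexes.

The variables are two coordinates `z`, two momenta `x` (the derivatives, written on the right) and
two variables `p` dual to the multiplicity variables.
-/

namespace Vale.Agent.P195.Gamma.ExactB

open MvPolynomial

/-- Symbols in the six variables. -/
abbrev S6 := MvPolynomial (Fin 6) ℚ

/-- The first coordinate. -/
noncomputable abbrev z0 : S6 := X 0
/-- The second coordinate. -/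
noncomputable abbrev z1 : S6 := X 1
/-- The first momentum. -/
noncomputable abbrev x0 : S6 := X 2
/-- The second momentum. -/
noncomputable abbrev x1 : S6 := X 3
/-- The first dual variable. -/
noncomputable abbrev p0 : S6 := X 4
/-- The second dual variable. -/
noncomputable abbrev p1 : S6 := X 5

/-- Derivative in the first coordinate. -/
noncomputable abbrev dz0 (F : S6) : S6 := pderiv 0 F
/-- Derivative in the second coordinate. -/
noncomputable abbrev dz1 (F : S6) : S6 := pderiv 1 F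
/-- Derivative in the first momentum. -/
noncomputable abbrev dx0 (F : S6) : S6 := pderiv 2 F
/-- Derivative in the second momentum. -/
noncomputable abbrev dx1 (F : S6) : S6 := pderiv 3 F
/-- Derivative in the first dual variable. -/
noncomputable abbrev dp0 (F : S6) : S6 := pderiv 4 F
/-- Derivative in the second dual variable. -/
noncomputable abbrev dp1 (F : S6) : S6 := pderiv 5 F

/-- The pairing `z · p`. -/
noncomputable abbrev piv : S6 := z0 * p0 + z1 * p1

/-- The transpose of the determinant `z ∧ y`. -/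
noncomputable def del (F : S6) : S6 := z0 * dp1 F - z1 * dp0 F

/-- The adjoint of `del`. -/
noncomputable def eps (F : S6) : S6 := p1 * dz0 F - p0 * dz1 F

/-- The contraction of `z` against `p`. -/
noncomputable def Om (F : S6) : S6 := dz0 (dp0 F) + dz1 (dp1 F)

/-- Left multiplication by the first derivative. -/
noncomputable def L0 (F : S6) : S6 := x0 * F + dz0 F

/-- Left multiplication by the second derivative. -/
noncomputable def L1 (F : S6) : S6 := x1 * F + dz1 F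

/-- Partial derivatives commute. -/
theorem pd_comm (i k : Fin 6) (F : S6) : pderiv i (pderiv k F) = pderiv k (pderiv i F) := by
  induction F using MvPolynomial.induction_on with
  | C a => simp
  | add f g hf hg => simp [hf, hg]
  | mul_X f n hf =>
    classical
    simp only [pderiv_mul, map_add, pderiv_X, hf]
    have hc : ∀ a b : Fin 6, pderiv a (Pi.single (M := fun _ => S6) b 1 n) = 0 := by
      intro a b
      by_cases h : n = b
      · subst h; simp
      · simp [h]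
    rw [hc, hc]
    ring

theorem dp1_dp0 (F : S6) : dp1 (dp0 F) = dp0 (dp1 F) := pd_comm _ _ F
theorem dz1_dz0 (F : S6) : dz1 (dz0 F) = dz0 (dz1 F) := pd_comm _ _ F
theorem dp0_dz0 (F : S6) : dp0 (dz0 F) = dz0 (dp0 F) := pd_comm _ _ F
theorem dp0_dz1 (F : S6) : dp0 (dz1 F) = dz1 (dp0 F) := pd_comm _ _ F
theorem dp1_dz0 (F : S6) : dp1 (dz0 F) = dz0 (dp1 F) := pd_comm _ _ F
theorem dp1_dz1 (F : S6) : dp1 (dz1 F) = dz1 (dp1 F) := pd_comm _ _ F
theorem dx1_dx0 (F : S6) : dx1 (dx0 F) = dx0 (dx1 F) := pd_comm _ _ F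

/-- The values of the derivatives on the variables and their normal order. -/
theorem rules6 :
    pderiv 0 (X 1 : S6) = 0 ∧ pderiv 0 (X 2 : S6) = 0 ∧ pderiv 0 (X 3 : S6) = 0 ∧
    pderiv 0 (X 4 : S6) = 0 ∧ pderiv 0 (X 5 : S6) = 0 ∧ pderiv 1 (X 0 : S6) = 0 ∧
    pderiv 1 (X 2 : S6) = 0 ∧ pderiv 1 (X 3 : S6) = 0 ∧ pderiv 1 (X 4 : S6) = 0 ∧
    pderiv 1 (X 5 : S6) = 0 ∧ pderiv 2 (X 0 : S6) = 0 ∧ pderiv 2 (X 1 : S6) = 0 ∧
    pderiv 2 (X 3 : S6) = 0 ∧ pderiv 2 (X 4 : S6) = 0 ∧ pderiv 2 (X 5 : S6) = 0 ∧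
    pderiv 3 (X 0 : S6) = 0 ∧ pderiv 3 (X 1 : S6) = 0 ∧ pderiv 3 (X 2 : S6) = 0 ∧
    pderiv 3 (X 4 : S6) = 0 ∧ pderiv 3 (X 5 : S6) = 0 ∧ pderiv 4 (X 0 : S6) = 0 ∧
    pderiv 4 (X 1 : S6) = 0 ∧ pderiv 4 (X 2 : S6) = 0 ∧ pderiv 4 (X 3 : S6) = 0 ∧
    pderiv 4 (X 5 : S6) = 0 ∧ pderiv 5 (X 0 : S6) = 0 ∧ pderiv 5 (X 1 : S6) = 0 ∧
    pderiv 5 (X 2 : S6) = 0 ∧ pderiv 5 (X 3 : S6) = 0 ∧ pderiv 5 (X 4 : S6) = 0 ∧
    (∀ F : S6, pderiv 5 (pderiv 4 F) = pderiv 4 (pderiv 5 F)) ∧
    (∀ F : S6, pderiv 1 (pderiv 0 F) = pderiv 0 (pderiv 1 F)) ∧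
    (∀ F : S6, pderiv 4 (pderiv 0 F) = pderiv 0 (pderiv 4 F)) ∧
    (∀ F : S6, pderiv 4 (pderiv 1 F) = pderiv 1 (pderiv 4 F)) ∧
    (∀ F : S6, pderiv 5 (pderiv 0 F) = pderiv 0 (pderiv 5 F)) ∧
    (∀ F : S6, pderiv 5 (pderiv 1 F) = pderiv 1 (pderiv 5 F)) ∧
    (∀ F : S6, pderiv 3 (pderiv 2 F) = pderiv 2 (pderiv 3 F)) :=
  ⟨pderiv_X_of_ne (by decide), pderiv_X_of_ne (by decide), pderiv_X_of_ne (by decide),
  pderiv_X_of_ne (by decide), pderiv_X_of_ne (by decide), pderiv_X_of_ne (by decide),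
  pderiv_X_of_ne (by decide), pderiv_X_of_ne (by decide), pderiv_X_of_ne (by decide),
  pderiv_X_of_ne (by decide), pderiv_X_of_ne (by decide), pderiv_X_of_ne (by decide),
  pderiv_X_of_ne (by decide), pderiv_X_of_ne (by decide), pderiv_X_of_ne (by decide),
  pderiv_X_of_ne (by decide), pderiv_X_of_ne (by decide), pderiv_X_of_ne (by decide),
  pderiv_X_of_ne (by decide), pderiv_X_of_ne (by decide), pderiv_X_of_ne (by decide),
  pderiv_X_of_ne (by decide), pderiv_X_of_ne (by decide), pderiv_X_of_ne (by decide),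
  pderiv_X_of_ne (by decide), pderiv_X_of_ne (by decide), pderiv_X_of_ne (by decide),
  pderiv_X_of_ne (by decide), pderiv_X_of_ne (by decide), pderiv_X_of_ne (by decide),
  pd_comm 5 4, pd_comm 1 0, pd_comm 4 0, pd_comm 4 1, pd_comm 5 0, pd_comm 5 1, pd_comm 3 2⟩

theorem del_mul_piv (F : S6) : del (piv * F) = piv * del F := by
  (simp only [del, eps, Om, L0, L1, piv, dz0, dz1, dx0, dx1, dp0, dp1,
      z0, z1, x0, x1, p0, p1, Derivation.map_add, Derivation.map_sub,
      Derivation.map_neg, Derivation.map_intCast, Derivation.map_natCast,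
      Derivation.map_one_eq_zero, map_zero, pderiv_mul, pderiv_C, pderiv_X_self, rules6]); ring

theorem eps_piv (F : S6) : eps (piv * F) = piv * eps F := by
  (simp only [del, eps, Om, L0, L1, piv, dz0, dz1, dx0, dx1, dp0, dp1,
      z0, z1, x0, x1, p0, p1, Derivation.map_add, Derivation.map_sub,
      Derivation.map_neg, Derivation.map_intCast, Derivation.map_natCast,
      Derivation.map_one_eq_zero, map_zero, pderiv_mul, pderiv_C, pderiv_X_self, rules6]); ring

theorem del_eps (F : S6) :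
    del (eps F) + piv * Om F =
      z0 * dz0 F + z1 * dz1 F + p0 * dp0 (z0 * dz0 F + z1 * dz1 F) +
        p1 * dp1 (z0 * dz0 F + z1 * dz1 F) := by
  (simp only [del, eps, Om, L0, L1, piv, dz0, dz1, dx0, dx1, dp0, dp1,
      z0, z1, x0, x1, p0, p1, Derivation.map_add, Derivation.map_sub,
      Derivation.map_neg, Derivation.map_intCast, Derivation.map_natCast,
      Derivation.map_one_eq_zero, map_zero, pderiv_mul, pderiv_C, pderiv_X_self, rules6]); ring

theorem eps_del (F : S6) :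
    eps (del F) + piv * Om F =
      p0 * dp0 F + p1 * dp1 F + p0 * dp0 (z0 * dz0 F + z1 * dz1 F) +
        p1 * dp1 (z0 * dz0 F + z1 * dz1 F) := by
  (simp only [del, eps, Om, L0, L1, piv, dz0, dz1, dx0, dx1, dp0, dp1,
      z0, z1, x0, x1, p0, p1, Derivation.map_add, Derivation.map_sub,
      Derivation.map_neg, Derivation.map_intCast, Derivation.map_natCast,
      Derivation.map_one_eq_zero, map_zero, pderiv_mul, pderiv_C, pderiv_X_self, rules6]); ring

/-! ### Supports -/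

/-- Momentum degree of an exponent. -/
def dgx (d : Fin 6 →₀ ℕ) : ℤ := (d 2 : ℤ) + d 3

/-- Coordinate degree of an exponent. -/
def dgz (d : Fin 6 →₀ ℕ) : ℤ := (d 0 : ℤ) + d 1

/-- Dual degree of an exponent. -/
def dgp (d : Fin 6 →₀ ℕ) : ℤ := (d 4 : ℤ) + d 5

/-- Symbols all of whose terms have degrees satisfying a condition. -/
noncomputable def Sup (C : ℤ → ℤ → ℤ → Prop) : Submodule ℚ S6 :=
  restrictSupport ℚ {d | C (dgx d) (dgz d) (dgp d)}

theorem monomial_mem_Sup {C : ℤ → ℤ → ℤ → Prop} {d : Fin 6 →₀ ℕ} (a : ℚ)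
    (h : C (dgx d) (dgz d) (dgp d)) : monomial d a ∈ Sup C := by
  unfold Sup
  rw [monomial_mem_restrictSupport]
  exact Or.inl h

theorem mem_Sup_iff {C : ℤ → ℤ → ℤ → Prop} {F : S6} :
    F ∈ Sup C ↔ ∀ d ∈ F.support, C (dgx d) (dgz d) (dgp d) :=
  Iff.rfl

theorem Sup_mono {C C' : ℤ → ℤ → ℤ → Prop} (h : ∀ e m q, C e m q → C' e m q) : Sup C ≤ Sup C' :=
  fun _ hF => mem_Sup_iff.2 fun d hd => h _ _ _ (mem_Sup_iff.1 hF d hd)

/-- To prove a linear property on `Sup C` it suffices to prove it on monomials. -/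
theorem Sup_induction {C : ℤ → ℤ → ℤ → Prop} {motive : S6 → Prop} {F : S6} (hF : F ∈ Sup C)
    (h0 : motive 0) (hadd : ∀ f g, motive f → motive g → motive (f + g))
    (hmon : ∀ d a, C (dgx d) (dgz d) (dgp d) → motive (monomial d a)) : motive F := by
  rw [F.as_sum]
  exact Finset.sum_induction _ motive hadd h0 fun d hd => hmon d _ (mem_Sup_iff.1 hF d hd)

/-- Shift of the momentum degree by a variable. -/
def wx (k : Fin 6) : ℤ := if k = 2 ∨ k = 3 then 1 else 0

/-- Shift of the coordinate degree by a variable. -/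
def wz (k : Fin 6) : ℤ := if k = 0 ∨ k = 1 then 1 else 0

/-- Shift of the dual degree by a variable. -/
def wp (k : Fin 6) : ℤ := if k = 4 ∨ k = 5 then 1 else 0

theorem dg_add_single (d : Fin 6 →₀ ℕ) (k : Fin 6) :
    dgx (Finsupp.single k 1 + d) = dgx d + wx k ∧ dgz (Finsupp.single k 1 + d) = dgz d + wz k ∧
      dgp (Finsupp.single k 1 + d) = dgp d + wp k := by
  fin_cases k <;> simp [dgx, dgz, dgp, wx, wz, wp] <;> ring

theorem X_mul_mem {C C' : ℤ → ℤ → ℤ → Prop} {F : S6} (k : Fin 6) (hF : F ∈ Sup C)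
    (h : ∀ e m q, C e m q → C' (e + wx k) (m + wz k) (q + wp k)) : X k * F ∈ Sup C' := by
  refine Sup_induction (motive := fun G => X k * G ∈ Sup C') hF (by simp)
    (fun f g hf hg => by rw [mul_add]; exact add_mem hf hg) fun d a hd => ?_
  rw [X, monomial_mul]
  refine monomial_mem_Sup _ ?_
  obtain ⟨h1, h2, h3⟩ := dg_add_single d k
  rw [h1, h2, h3]
  exact h _ _ _ hd

theorem pderiv_mem {C C' : ℤ → ℤ → ℤ → Prop} {F : S6} (k : Fin 6) (hF : F ∈ Sup C)
    (h : ∀ e m q, C e m q → C' (e - wx k) (m - wz k) (q - wp k)) : pderiv k F ∈ Sup C' := by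
  refine Sup_induction (motive := fun G => pderiv k G ∈ Sup C') hF (by simp)
    (fun f g hf hg => by rw [map_add]; exact add_mem hf hg) fun d a hd => ?_
  rw [pderiv_monomial]
  by_cases hk : d k = 0
  · simp [hk]
  · refine monomial_mem_Sup _ ?_
    have e : Finsupp.single k 1 + (d - Finsupp.single k 1) = d := by
      ext i
      by_cases hi : i = k
      · subst hi; simp; omega
      · simp [hi]
    obtain ⟨h1, h2, h3⟩ := dg_add_single (d - Finsupp.single k 1) k
    rw [e] at h1 h2 h3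
    have := h _ _ _ hd
    rw [h1, h2, h3] at this
    simpa using this

theorem C_mul_mem {C : ℤ → ℤ → ℤ → Prop} {F : S6} (a : ℚ) (hF : F ∈ Sup C) :
    MvPolynomial.C a * F ∈ Sup C := by
  rw [← smul_eq_C_mul]
  exact Submodule.smul_mem _ a hF

theorem int_mul_mem {C : ℤ → ℤ → ℤ → Prop} {F : S6} (n : ℤ) (hF : F ∈ Sup C) :
    (n : S6) * F ∈ Sup C := by
  rw [show (n : S6) = MvPolynomial.C (n : ℚ) from (map_intCast _ n).symm]
  exact C_mul_mem _ hF

/-- Euler's identity in each group of variables. -/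
theorem euler {C : ℤ → ℤ → ℤ → Prop} {F : S6} (hF : F ∈ Sup C) (e m q : ℤ)
    (h : ∀ e' m' q', C e' m' q' → e' = e ∧ m' = m ∧ q' = q) :
    z0 * dz0 F + z1 * dz1 F = (m : S6) * F ∧ x0 * dx0 F + x1 * dx1 F = (e : S6) * F ∧
      p0 * dp0 F + p1 * dp1 F = (q : S6) * F := by
  refine Sup_induction (motive := fun G => z0 * dz0 G + z1 * dz1 G = (m : S6) * G ∧
      x0 * dx0 G + x1 * dx1 G = (e : S6) * G ∧ p0 * dp0 G + p1 * dp1 G = (q : S6) * G)
    hF (by simp) (fun f g hf hg => ?_) fun d a hd => ?_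
  · obtain ⟨a1, a2, a3⟩ := hf
    obtain ⟨b1, b2, b3⟩ := hg
    simp only [dz0, dz1, dx0, dx1, dp0, dp1, map_add] at *
    refine ⟨?_, ?_, ?_⟩
    · linear_combination a1 + b1
    · linear_combination a2 + b2
    · linear_combination a3 + b3
  · obtain ⟨h1, h2, h3⟩ := h _ _ _ hd
    have key : ∀ k : Fin 6, X k * pderiv k (monomial d a) = (d k : S6) * monomial d a := by
      intro k
      rw [X_mul_pderiv_monomial, nsmul_eq_mul]
    simp only [dz0, dz1, dx0, dx1, dp0, dp1, z0, z1, x0, x1, p0, p1, key, ← add_mul]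
    subst h1 h2 h3
    simp [dgx, dgz, dgp]

/-- An element of two groups of terms with incompatible degrees vanishes. -/
theorem eq_zero_of_disjoint {C C' : ℤ → ℤ → ℤ → Prop} {F : S6} (h₁ : F ∈ Sup C) (h₂ : F ∈ Sup C')
    (h : ∀ e m q, C e m q → C' e m q → False) : F = 0 := by
  rw [← support_eq_empty, Finset.eq_empty_iff_forall_notMem]
  exact fun d hd => h _ _ _ (mem_Sup_iff.1 h₁ d hd) (mem_Sup_iff.1 h₂ d hd)

/-- Symbols homogeneous of the three given degrees. -/
noncomputable def Lay (e m q : ℤ) : Submodule ℚ S6 :=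
  Sup fun e' m' q' => e' = e ∧ m' = m ∧ q' = q

/-- Symbols of order at most `a`, weight `s` and dual degree `q`. -/
noncomputable def Fil (a s q : ℤ) : Submodule ℚ S6 :=
  Sup fun e' m' q' => e' ≤ a ∧ m' = e' + s ∧ q' = q

theorem Lay_euler {e m q : ℤ} {F : S6} (hF : F ∈ Lay e m q) :
    z0 * dz0 F + z1 * dz1 F = (m : S6) * F ∧ x0 * dx0 F + x1 * dx1 F = (e : S6) * F ∧
      p0 * dp0 F + p1 * dp1 F = (q : S6) * F :=
  euler hF e m q fun _ _ _ h => h

theorem Fil_euler {a s q : ℤ} {F : S6} (hF : F ∈ Fil a s q) :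
    p0 * dp0 F + p1 * dp1 F = (q : S6) * F := by
  refine Sup_induction (motive := fun G => p0 * dp0 G + p1 * dp1 G = (q : S6) * G) hF (by simp)
    (fun f g hf hg => ?_) fun d c hd => ?_
  · simp only [dp0, dp1, map_add] at *
    linear_combination hf + hg
  · exact (euler (monomial_mem_Sup (C := fun e m r => e = dgx d ∧ m = dgz d ∧ r = q) c
      ⟨rfl, rfl, hd.2.2⟩) _ _ _ fun _ _ _ h => h).2.2

theorem Lay_zero_of_neg {e m q : ℤ} {F : S6} (hF : F ∈ Lay e m q) (h : e < 0 ∨ m < 0 ∨ q < 0) :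
    F = 0 := by
  refine eq_zero_of_disjoint hF (mem_Sup_iff.2 fun d _ => ?_ : F ∈ Sup fun e m q =>
    0 ≤ e ∧ 0 ≤ m ∧ 0 ≤ q) ?_
  · simp only [dgx, dgz, dgp]; omega
  · rintro e' m' q' ⟨rfl, rfl, rfl⟩ ⟨a, b, c⟩; omega

theorem Fil_zero_of_neg {a s q : ℤ} {F : S6} (hF : F ∈ Fil a s q) (h : a < 0 ∨ q < 0) : F = 0 := by
  refine eq_zero_of_disjoint hF (mem_Sup_iff.2 fun d _ => ?_ : F ∈ Sup fun e _ q =>
    0 ≤ e ∧ 0 ≤ q) ?_
  · simp only [dgx, dgp]; omega
  · rintro e' m' q' ⟨h1, -, rfl⟩ ⟨a, c⟩; omega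

/-- Cancelling a nonzero integer. -/
theorem int_cancel {n : ℤ} (hn : n ≠ 0) {F G : S6} (h : (n : S6) * F = (n : S6) * G) : F = G :=
  mul_left_cancel₀ (Int.cast_ne_zero.2 hn) h

/-- Dividing by a nonzero integer. -/
theorem exists_int_div {C : ℤ → ℤ → ℤ → Prop} {F : S6} {n : ℤ} (hn : n ≠ 0) (hF : F ∈ Sup C) :
    ∃ G ∈ Sup C, (n : S6) * G = F := by
  refine ⟨MvPolynomial.C ((n : ℚ)⁻¹) * F, C_mul_mem _ hF, ?_⟩
  rw [← mul_assoc, show (n : S6) = MvPolynomial.C (n : ℚ) from (map_intCast _ n).symm, ← map_mul,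
    mul_inv_cancel₀ (Int.cast_ne_zero.2 hn), map_one, one_mul]

end Vale.Agent.P195.Gamma.ExactB
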