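import Vale.Agent.P195.Gamma.ExactB.Complex

/-!
The filtration by order of the complexes of symbols.
-/

namespace Vale.Agent.P195.Gamma.ExactB

open MvPolynomial

theorem Fil_cast {a s q a' s' q' : ℤ} {F : S6} (hF : F ∈ Fil a s q) (ha : a ≤ a') (hs : s = s')
    (hq : q = q') : F ∈ Fil a' s' q' := by
  subst hs hq
  exact Sup_mono (fun e m r ⟨h1, h2, h3⟩ => ⟨by omega, h2, h3⟩) hF

theorem Lay_le_Fil {e m q a s : ℤ} {F : S6} (hF : F ∈ Lay e m q) (he : e ≤ a) (hm : m = e + s) :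
    F ∈ Fil a s q :=
  Sup_mono (fun e' m' r ⟨h1, h2, h3⟩ => ⟨by omega, by omega, h3⟩) hF

theorem X_mul_Fil {a s q : ℤ} {F : S6} (k : Fin 6) (hF : F ∈ Fil a s q) :
    X k * F ∈ Fil (a + wx k) (s + wz k - wx k) (q + wp k) :=
  X_mul_mem k hF fun _ _ _ ⟨h1, h2, h3⟩ => ⟨by omega, by omega, by omega⟩

theorem pderiv_Fil {a s q : ℤ} {F : S6} (k : Fin 6) (hF : F ∈ Fil a s q) :
    pderiv k F ∈ Fil (a - wx k) (s - wz k + wx k) (q - wp k) :=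
  pderiv_mem k hF fun _ _ _ ⟨h1, h2, h3⟩ => ⟨by omega, by omega, by omega⟩

theorem z0_Fil {a s q : ℤ} {F : S6} (hF : F ∈ Fil a s q) : z0 * F ∈ Fil a (s + 1) q :=
  Fil_cast (X_mul_Fil 0 hF) (by simp [wx]) (by simp [wz, wx]) (by simp [wp])

theorem z1_Fil {a s q : ℤ} {F : S6} (hF : F ∈ Fil a s q) : z1 * F ∈ Fil a (s + 1) q :=
  Fil_cast (X_mul_Fil 1 hF) (by simp [wx]) (by simp [wz, wx]) (by simp [wp])

theorem p0_Fil {a s q : ℤ} {F : S6} (hF : F ∈ Fil a s q) : p0 * F ∈ Fil a s (q + 1) :=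
  Fil_cast (X_mul_Fil 4 hF) (by simp [wx]) (by simp [wz, wx]) (by simp [wp])

theorem p1_Fil {a s q : ℤ} {F : S6} (hF : F ∈ Fil a s q) : p1 * F ∈ Fil a s (q + 1) :=
  Fil_cast (X_mul_Fil 5 hF) (by simp [wx]) (by simp [wz, wx]) (by simp [wp])

theorem dp0_Fil {a s q : ℤ} {F : S6} (hF : F ∈ Fil a s q) : dp0 F ∈ Fil a s (q - 1) :=
  Fil_cast (pderiv_Fil 4 hF) (by simp [wx]) (by simp [wz, wx]) (by simp [wp])

theorem dp1_Fil {a s q : ℤ} {F : S6} (hF : F ∈ Fil a s q) : dp1 F ∈ Fil a s (q - 1) :=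
  Fil_cast (pderiv_Fil 5 hF) (by simp [wx]) (by simp [wz, wx]) (by simp [wp])

theorem dz0_Fil {a s q : ℤ} {F : S6} (hF : F ∈ Fil a s q) : dz0 F ∈ Fil a (s - 1) q :=
  Fil_cast (pderiv_Fil 0 hF) (by simp [wx]) (by simp [wz, wx]) (by simp [wp])

theorem dz1_Fil {a s q : ℤ} {F : S6} (hF : F ∈ Fil a s q) : dz1 F ∈ Fil a (s - 1) q :=
  Fil_cast (pderiv_Fil 1 hF) (by simp [wx]) (by simp [wz, wx]) (by simp [wp])

theorem L0_Fil {a s q : ℤ} {F : S6} (hF : F ∈ Fil a s q) : L0 F ∈ Fil (a + 1) (s - 1) q :=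
  add_mem (Fil_cast (X_mul_Fil 2 hF) (by simp [wx]) (by simp [wz, wx]) (by simp [wp]))
    (Fil_cast (dz0_Fil hF) (by omega) rfl rfl)

theorem L1_Fil {a s q : ℤ} {F : S6} (hF : F ∈ Fil a s q) : L1 F ∈ Fil (a + 1) (s - 1) q :=
  add_mem (Fil_cast (X_mul_Fil 3 hF) (by simp [wx]) (by simp [wz, wx]) (by simp [wp]))
    (Fil_cast (dz1_Fil hF) (by omega) rfl rfl)

theorem piv_Fil {a s q : ℤ} {F : S6} (hF : F ∈ Fil a s q) : piv * F ∈ Fil a (s + 1) (q + 1) := by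
  rw [show piv * F = z0 * (p0 * F) + z1 * (p1 * F) by simp only [piv]; ring]
  exact add_mem (z0_Fil (p0_Fil hF)) (z1_Fil (p1_Fil hF))

theorem del_Fil {a s q : ℤ} {F : S6} (hF : F ∈ Fil a s q) : del F ∈ Fil a (s + 1) (q - 1) :=
  sub_mem (z0_Fil (dp1_Fil hF)) (z1_Fil (dp0_Fil hF))

theorem cc_Fil {a s q : ℤ} {F : S6} (j : ℕ) (hF : F ∈ Fil a s q) : cc j * F ∈ Fil a s q :=
  cc_mul_mem j hF

theorem two_add_Fil {a s q : ℤ} {F : S6} (j : ℕ) (hF : F ∈ Fil a s q) :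
    ((j : S6) + 2) * F ∈ Fil a s q := by
  rw [show ((j : S6) + 2) = ((j + 2 : ℤ) : S6) by push_cast; ring]
  exact int_mul_mem _ hF

/-- Splitting off the top layer. -/
theorem Fil_split {a s q : ℤ} {F : S6} (hF : F ∈ Fil a s q) :
    ∃ T ∈ Lay a (a + s) q, ∃ F' ∈ Fil (a - 1) s q, F = T + F' := by
  refine Sup_induction
    (motive := fun G => ∃ T ∈ Lay a (a + s) q, ∃ F' ∈ Fil (a - 1) s q, G = T + F') hF
    ⟨0, zero_mem _, 0, zero_mem _, by simp⟩ ?_ ?_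
  · rintro f g ⟨T, hT, F', hF', rfl⟩ ⟨T₁, hT₁, F₁, hF₁, rfl⟩
    exact ⟨T + T₁, add_mem hT hT₁, F' + F₁, add_mem hF' hF₁, by ring⟩
  · rintro d c ⟨h1, h2, h3⟩
    by_cases he : dgx d = a
    · exact ⟨monomial d c, monomial_mem_Sup c ⟨he, by omega, h3⟩, 0, zero_mem _, by simp⟩
    · exact ⟨0, zero_mem _, monomial d c, monomial_mem_Sup c ⟨by omega, h2, h3⟩, by simp⟩

theorem Lay_Fil_disjoint {a m a' s q q' : ℤ} {F : S6} (h₁ : F ∈ Lay a m q) (h₂ : F ∈ Fil a' s q')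
    (h : a' < a) : F = 0 :=
  eq_zero_of_disjoint h₁ h₂ fun _ _ _ ⟨e1, _, _⟩ ⟨e2, _, _⟩ => by omega

/-- Pairs of symbols at a kernel object. -/
def GMem (n a s q : ℤ) (g0 g1 : S6) : Prop :=
  ∃ P0 P1 Q, P0 ∈ Fil (a - n) s q ∧ P1 ∈ Fil (a - n) s q ∧ Q ∈ Fil a (s - 1) q ∧
    g0 = P0 - z0 * Q ∧ g1 = P1 - z1 * Q

theorem GMem.zero {n a s q : ℤ} : GMem n a s q 0 0 :=
  ⟨0, 0, 0, zero_mem _, zero_mem _, zero_mem _, by simp, by simp⟩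

theorem GMem.sub {n a s q : ℤ} {g0 g1 h0 h1 : S6} (hg : GMem n a s q g0 g1)
    (hh : GMem n a s q h0 h1) : GMem n a s q (g0 - h0) (g1 - h1) := by
  obtain ⟨P0, P1, Q, a0, a1, aQ, rfl, rfl⟩ := hg
  obtain ⟨R0, R1, S, b0, b1, bS, rfl, rfl⟩ := hh
  exact ⟨P0 - R0, P1 - R1, Q - S, sub_mem a0 b0, sub_mem a1 b1, sub_mem aQ bS, by ring, by ring⟩

theorem GMem.mono {n a a' s q : ℤ} {g0 g1 : S6} (hg : GMem n a s q g0 g1) (h : a ≤ a') :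
    GMem n a' s q g0 g1 := by
  obtain ⟨P0, P1, Q, a0, a1, aQ, e0, e1⟩ := hg
  exact ⟨P0, P1, Q, Fil_cast a0 (by omega) rfl rfl, Fil_cast a1 (by omega) rfl rfl,
    Fil_cast aQ h rfl rfl, e0, e1⟩

/-- Cochains of degree zero. -/
def M0 (a s : ℤ) (j : ℕ) (f : S6) : Prop := f ∈ Fil (a - 2) s j

/-- Cochains of degree one. -/
def M1 (a s : ℤ) (j : ℕ) (x : Co1) : Prop :=
  x.u0 ∈ Fil (a - 1) s (j + 1) ∧ x.u1 ∈ Fil (a - 1) s (j + 1) ∧ GMem 2 a s (j - 1) x.g0 x.g1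

/-- Cochains of degree two. -/
def M2 (a s : ℤ) (j : ℕ) (x : Co2) : Prop :=
  GMem 1 a s j x.a0 x.a1 ∧ GMem 1 a s j x.b0 x.b1

theorem M1.zero {a s : ℤ} {j : ℕ} : M1 a s j 0 := ⟨zero_mem _, zero_mem _, GMem.zero⟩

theorem M2.zero {a s : ℤ} {j : ℕ} : M2 a s j 0 := ⟨GMem.zero, GMem.zero⟩

theorem M1.sub {a s : ℤ} {j : ℕ} {x y : Co1} (hx : M1 a s j x) (hy : M1 a s j y) :
    M1 a s j (x - y) :=
  ⟨sub_mem hx.1 hy.1, sub_mem hx.2.1 hy.2.1, hx.2.2.sub hy.2.2⟩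

theorem M2.sub {a s : ℤ} {j : ℕ} {x y : Co2} (hx : M2 a s j x) (hy : M2 a s j y) :
    M2 a s j (x - y) :=
  ⟨hx.1.sub hy.1, hx.2.sub hy.2⟩

theorem M1.mono {a a' s : ℤ} {j : ℕ} {x : Co1} (hx : M1 a s j x) (h : a ≤ a') : M1 a' s j x :=
  ⟨Fil_cast hx.1 (by omega) rfl rfl, Fil_cast hx.2.1 (by omega) rfl rfl, hx.2.2.mono h⟩

theorem M2.mono {a a' s : ℤ} {j : ℕ} {x : Co2} (hx : M2 a s j x) (h : a ≤ a') : M2 a' s j x :=
  ⟨hx.1.mono h, hx.2.mono h⟩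

theorem d0_mem {a s : ℤ} {j : ℕ} {f : S6} (hf : M0 a s j f) : M1 a s j (d0 j f) := by
  refine ⟨sub_mem (cc_Fil j (Fil_cast (L1_Fil (piv_Fil hf)) (by omega) (by omega) rfl))
      (Fil_cast (p1_Fil hf) (by omega) rfl rfl),
    neg_mem (sub_mem (cc_Fil j (Fil_cast (L0_Fil (piv_Fil hf)) (by omega) (by omega) rfl))
      (Fil_cast (p0_Fil hf) (by omega) rfl rfl)),
    dp0 f, dp1 f, cc j * (L0 (dp0 f) + L1 (dp1 f)), dp0_Fil hf, dp1_Fil hf,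
    cc_Fil j (add_mem (Fil_cast (L0_Fil (dp0_Fil hf)) (by omega) rfl rfl)
      (Fil_cast (L1_Fil (dp1_Fil hf)) (by omega) rfl rfl)), rfl, rfl⟩

theorem D0r_Fil {a s q : ℤ} {j : ℕ} {z G σ : S6} (hG : G ∈ Fil a s q)
    (hz : z * σ ∈ Fil a (s + 1) (q + 1)) : D0r j z G σ ∈ Fil (a + 1) s (q + 1) :=
  add_mem (neg_mem (Fil_cast (p0_Fil hG) (by omega) rfl rfl))
    (cc_Fil j (sub_mem (Fil_cast (L0_Fil (piv_Fil hG)) le_rfl (by ring) rfl)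
      (Fil_cast (L0_Fil hz) le_rfl (by ring) rfl)))

theorem D1r_Fil {a s q : ℤ} {j : ℕ} {z G σ : S6} (hG : G ∈ Fil a s q)
    (hz : z * σ ∈ Fil a (s + 1) (q + 1)) : D1r j z G σ ∈ Fil (a + 1) s (q + 1) :=
  add_mem (neg_mem (Fil_cast (p1_Fil hG) (by omega) rfl rfl))
    (cc_Fil j (sub_mem (Fil_cast (L1_Fil (piv_Fil hG)) le_rfl (by ring) rfl)
      (Fil_cast (L1_Fil hz) le_rfl (by ring) rfl)))

theorem d1_mem {a s : ℤ} {j : ℕ} {x : Co1} (hx : M1 a s j x) : M2 a s j (d1 j x) := by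
  obtain ⟨u0, u1, g0, g1⟩ := x
  obtain ⟨hu0, hu1, P0, P1, Q, h0, h1, hQ, rfl, rfl⟩ := hx
  rw [d1_coord]
  have hσ : p0 * P0 + p1 * P1 ∈ Fil (a - 2) s ((j : ℤ) - 1 + 1) := add_mem (p0_Fil h0) (p1_Fil h1)
  have hL : L0 u0 + L1 u1 ∈ Fil a (s - 1) (j + 1) :=
    add_mem (Fil_cast (L0_Fil hu0) (by omega) rfl rfl) (Fil_cast (L1_Fil hu1) (by omega) rfl rfl)
  refine ⟨⟨_, _, _, ?_, ?_, ?_, rfl, rfl⟩, ⟨_, _, _, ?_, ?_, ?_, rfl, rfl⟩⟩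
  · exact sub_mem (Fil_cast (dp0_Fil hu0) le_rfl rfl (by ring))
      (Fil_cast (D1r_Fil h0 (z0_Fil hσ)) (by omega) rfl (by ring))
  · exact sub_mem (Fil_cast (dp1_Fil hu0) le_rfl rfl (by ring))
      (Fil_cast (D1r_Fil h1 (z1_Fil hσ)) (by omega) rfl (by ring))
  · exact add_mem (cc_Fil j (Fil_cast (dp0_Fil hL) le_rfl rfl (by ring)))
      (Fil_cast (p1_Fil hQ) le_rfl rfl (by ring))
  · exact add_mem (Fil_cast (dp0_Fil hu1) le_rfl rfl (by ring))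
      (Fil_cast (D0r_Fil h0 (z0_Fil hσ)) (by omega) rfl (by ring))
  · exact add_mem (Fil_cast (dp1_Fil hu1) le_rfl rfl (by ring))
      (Fil_cast (D0r_Fil h1 (z1_Fil hσ)) (by omega) rfl (by ring))
  · exact sub_mem (cc_Fil j (Fil_cast (dp1_Fil hL) le_rfl rfl (by ring)))
      (Fil_cast (p0_Fil hQ) le_rfl rfl (by ring))

/-- The part of the differential from degree two lowering the order. -/
noncomputable def low2 (j : ℕ) (A0 A1 B0 B1 : S6) : S6 :=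
  cc j * (dz0 (piv * (dp1 A0 - dp0 A1)) - ((j : S6) + 2) * (p0 * (dp1 A0 - dp0 A1)) -
      del (dz0 (p0 * A0 + p1 * A1))) +
    cc j * (dz1 (piv * (dp1 B0 - dp0 B1)) - ((j : S6) + 2) * (p1 * (dp1 B0 - dp0 B1)) -
      del (dz1 (p0 * B0 + p1 * B1)))

theorem d2_coord' {a a' s s' : ℤ} (j : ℕ) {A0 A1 B0 B1 Q0 Q1 : S6} (hA0 : A0 ∈ Fil a s j)
    (hA1 : A1 ∈ Fil a s j) (hB0 : B0 ∈ Fil a s j) (hB1 : B1 ∈ Fil a s j) (hQ0 : Q0 ∈ Fil a' s' j)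
    (hQ1 : Q1 ∈ Fil a' s' j) :
    d2 j ⟨A0 - z0 * Q0, A1 - z1 * Q0, B0 - z0 * Q1, B1 - z1 * Q1⟩ =
      x0 * (z1 * A0 - z0 * A1) + x1 * (z1 * B0 - z0 * B1) + del (p0 * Q0 + p1 * Q1) +
        low2 j A0 A1 B0 B1 := by
  rw [d2_coord j (Fil_euler hA0) (Fil_euler hA1) (Fil_euler hB0) (Fil_euler hB1) (Fil_euler hQ0)
    (Fil_euler hQ1), low2]
  ring

theorem low2_mem {a s : ℤ} {j : ℕ} {A0 A1 B0 B1 : S6} (hA0 : A0 ∈ Fil a s j)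
    (hA1 : A1 ∈ Fil a s j) (hB0 : B0 ∈ Fil a s j) (hB1 : B1 ∈ Fil a s j) :
    low2 j A0 A1 B0 B1 ∈ Fil a s j := by
  have hA : dp1 A0 - dp0 A1 ∈ Fil a s (j - 1) := sub_mem (dp1_Fil hA0) (dp0_Fil hA1)
  have hB : dp1 B0 - dp0 B1 ∈ Fil a s (j - 1) := sub_mem (dp1_Fil hB0) (dp0_Fil hB1)
  refine add_mem (cc_Fil j (sub_mem (sub_mem ?_ ?_) ?_)) (cc_Fil j (sub_mem (sub_mem ?_ ?_) ?_))
  · exact Fil_cast (dz0_Fil (piv_Fil hA)) le_rfl (by ring) (by ring)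
  · exact two_add_Fil j (Fil_cast (p0_Fil hA) le_rfl rfl (by ring))
  · exact Fil_cast (del_Fil (dz0_Fil (add_mem (p0_Fil hA0) (p1_Fil hA1)))) le_rfl (by ring) (by ring)
  · exact Fil_cast (dz1_Fil (piv_Fil hB)) le_rfl (by ring) (by ring)
  · exact two_add_Fil j (Fil_cast (p1_Fil hB) le_rfl rfl (by ring))
  · exact Fil_cast (del_Fil (dz1_Fil (add_mem (p0_Fil hB0) (p1_Fil hB1)))) le_rfl (by ring) (by ring)

theorem d2_mem {a s : ℤ} {j : ℕ} {x : Co2} (hx : M2 a s j x) : d2 j x ∈ Fil a s j := by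
  obtain ⟨g0, g1, h0, h1⟩ := x
  obtain ⟨⟨A0, A1, Q0, hA0, hA1, hQ0, rfl, rfl⟩, ⟨B0, B1, Q1, hB0, hB1, hQ1, rfl, rfl⟩⟩ := hx
  rw [d2_coord' j hA0 hA1 hB0 hB1 hQ0 hQ1]
  refine add_mem (add_mem (add_mem ?_ ?_) ?_) (Fil_cast (low2_mem hA0 hA1 hB0 hB1) (by omega) rfl rfl)
  · exact Fil_cast (X_mul_Fil 2 (sub_mem (z1_Fil hA0) (z0_Fil hA1))) (by simp [wx])
      (by simp [wx, wz]) (by simp [wp])
  · exact Fil_cast (X_mul_Fil 3 (sub_mem (z1_Fil hB0) (z0_Fil hB1))) (by simp [wx])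
      (by simp [wx, wz]) (by simp [wp])
  · exact Fil_cast (del_Fil (add_mem (p0_Fil hQ0) (p1_Fil hQ1))) le_rfl (by ring) (by ring)

theorem M1.euler {a s : ℤ} {j : ℕ} {x : Co1} (hx : M1 a s j x) :
    p0 * dp0 x.u0 + p1 * dp1 x.u0 = ((j + 1 : ℤ) : S6) * x.u0 ∧
    p0 * dp0 x.u1 + p1 * dp1 x.u1 = ((j + 1 : ℤ) : S6) * x.u1 ∧
    p0 * dp0 x.g0 + p1 * dp1 x.g0 = ((j - 1 : ℤ) : S6) * x.g0 ∧
    p0 * dp0 x.g1 + p1 * dp1 x.g1 = ((j - 1 : ℤ) : S6) * x.g1 := by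
  obtain ⟨hu0, hu1, P0, P1, Q, h0, h1, hQ, e0, e1⟩ := hx
  refine ⟨Fil_euler hu0, Fil_euler hu1, ?_, ?_⟩
  · have e := Fil_euler h0
    have e' := Fil_euler hQ
    revert e e'
    rw [e0]
    (simp only [del, eps, Om, L0, L1, piv, dz0, dz1, dx0, dx1, dp0, dp1,
        z0, z1, x0, x1, p0, p1, Derivation.map_add, Derivation.map_sub,
        Derivation.map_neg, Derivation.map_intCast, Derivation.map_natCast,
        Derivation.map_one_eq_zero, map_zero, pderiv_mul, pderiv_C, pderiv_X_self, rules6])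
    intro e e'
    linear_combination e - z0 * e'
  · have e := Fil_euler h1
    have e' := Fil_euler hQ
    revert e e'
    rw [e1]
    (simp only [del, eps, Om, L0, L1, piv, dz0, dz1, dx0, dx1, dp0, dp1,
        z0, z1, x0, x1, p0, p1, Derivation.map_add, Derivation.map_sub,
        Derivation.map_neg, Derivation.map_intCast, Derivation.map_natCast,
        Derivation.map_one_eq_zero, map_zero, pderiv_mul, pderiv_C, pderiv_X_self, rules6])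
    intro e e'
    linear_combination e - z1 * e'

theorem d2_d1_mem {a s : ℤ} {j : ℕ} {x : Co1} (hx : M1 a s j x) : d2 j (d1 j x) = 0 :=
  d2_d1 j hx.euler.1 hx.euler.2.1 hx.euler.2.2.1 hx.euler.2.2.2

theorem d1_d0_mem {a s : ℤ} {j : ℕ} {f : S6} (hf : M0 a s j f) : d1 j (d0 j f) = 0 :=
  d1_d0 j (Fil_euler hf)

end Vale.Agent.P195.Gamma.ExactB
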