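import Vale.Agent.P195.Gamma.OpActs
import Vale.Agent.P195.Gamma.ExactB.Filt

/-!
The pairing of families of operators with symbols: a monomial `z^a x^b p^m` pairs a family with
`m!` times the operator `mlt (z^a) * dp b` at the index `m`. The eight actions on families become
the eight dual maps on symbols, and the order and weight conditions become the filtration.
-/

namespace Vale.Agent.P195.Gamma.ExactB

open MvPolynomial Model

/-- The exponent of the coordinates. -/
def ez (e : Fin 6 →₀ ℕ) : ℕ × ℕ := (e 0, e 1)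

/-- The exponent of the momenta. -/
def ex (e : Fin 6 →₀ ℕ) : ℕ × ℕ := (e 2, e 3)

/-- The exponent of the dual variables. -/
def ep (e : Fin 6 →₀ ℕ) : ℕ × ℕ := (e 4, e 5)

/-- The exponent with the given entries. -/
noncomputable def exp6 (a b m : ℕ × ℕ) : Fin 6 →₀ ℕ :=
  Finsupp.single 0 a.1 + Finsupp.single 1 a.2 + Finsupp.single 2 b.1 + Finsupp.single 3 b.2 +
    Finsupp.single 4 m.1 + Finsupp.single 5 m.2

theorem exp6_parts (a b m : ℕ × ℕ) :
    ez (exp6 a b m) = a ∧ ex (exp6 a b m) = b ∧ ep (exp6 a b m) = m := by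
  simp [ez, ex, ep, exp6]

theorem exp6_eta (e : Fin 6 →₀ ℕ) : exp6 (ez e) (ex e) (ep e) = e := by
  ext i
  fin_cases i <;> simp [ez, ex, ep, exp6]

theorem zexp_eta (e : Fin 2 →₀ ℕ) : Symb.zexp (e 0, e 1) = e := by
  ext i
  fin_cases i <;> simp [Symb.zexp]

/-- The weight of a dual exponent. -/
def wt (m : ℕ × ℕ) : ℚ := ((m.1.factorial * m.2.factorial : ℕ) : ℚ)

theorem wt_ne_zero (m : ℕ × ℕ) : wt m ≠ 0 := by
  simp [wt, Nat.factorial_ne_zero]

theorem wt_up (l : Fin 2) (m : ℕ × ℕ) :
    wt (OpFam.up l m) = ((OpFam.ent l m + 1 : ℕ) : ℚ) * wt m := by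
  fin_cases l <;> simp [wt, OpFam.up, OpFam.ent, Nat.factorial_succ] <;> ring

/-- The normal coefficients of a symbol. -/
noncomputable def sp : S6 →ₗ[ℚ] (ℕ × ℕ →₀ ℕ × ℕ →₀ Pol) :=
  (basisMonomials (Fin 6) ℚ).constr ℚ fun e =>
    Finsupp.single (ep e) (Finsupp.single (ex e) (wt (ep e) • Symb.zmon (ez e)))

/-- The operators of a symbol at each dual exponent. -/
noncomputable def ev : S6 →ₗ[ℚ] (ℕ × ℕ →₀ D) := Finsupp.mapRange.linearMap nrm ∘ₗ sp

theorem sp_monomial (e : Fin 6 →₀ ℕ) :
    sp (monomial e 1) =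
      Finsupp.single (ep e) (Finsupp.single (ex e) (wt (ep e) • Symb.zmon (ez e))) := by
  have := (basisMonomials (Fin 6) ℚ).constr_basis ℚ (fun e =>
    Finsupp.single (ep e) (Finsupp.single (ex e) (wt (ep e) • Symb.zmon (ez e)))) e
  rwa [coe_basisMonomials] at this

theorem ev_monomial (e : Fin 6 →₀ ℕ) :
    ev (monomial e 1) =
      Finsupp.single (ep e) (wt (ep e) • (mlt (Symb.zmon (ez e)) * dp (ex e))) := by
  rw [ev, LinearMap.comp_apply, sp_monomial, Finsupp.mapRange.linearMap_apply,
    Finsupp.mapRange_single, nrm_single, map_smul, smul_mul_assoc]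

theorem lext {M : Type*} [AddCommMonoid M] [Module ℚ M] {L L' : S6 →ₗ[ℚ] M}
    (h : ∀ e, L (monomial e 1) = L' (monomial e 1)) : L = L' :=
  (basisMonomials (Fin 6) ℚ).ext fun e => by simpa only [coe_basisMonomials] using h e

/-- The symbols of one normal coefficient. -/
noncomputable def put (m b : ℕ × ℕ) : Pol →ₗ[ℚ] S6 :=
  (basisMonomials (Fin 2) ℚ).constr ℚ fun a => monomial (exp6 (a 0, a 1) b m) (wt m)⁻¹

theorem put_monomial (m b : ℕ × ℕ) (a : Fin 2 →₀ ℕ) :
    put m b (monomial a 1) = monomial (exp6 (a 0, a 1) b m) (wt m)⁻¹ := by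
  have := (basisMonomials (Fin 2) ℚ).constr_basis ℚ
    (fun a => monomial (exp6 (a 0, a 1) b m) (wt m)⁻¹) a
  rwa [coe_basisMonomials] at this

/-- The symbol of given normal coefficients. -/
noncomputable def gather : (ℕ × ℕ →₀ ℕ × ℕ →₀ Pol) →ₗ[ℚ] S6 :=
  Finsupp.lsum ℚ fun m => Finsupp.lsum ℚ fun b => put m b

theorem gather_sp (F : S6) : gather (sp F) = F := by
  have key : gather ∘ₗ sp = LinearMap.id := lext fun e => by
    rw [LinearMap.comp_apply, sp_monomial, gather, Finsupp.lsum_single, Finsupp.lsum_single,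
      map_smul, Symb.zmon, put_monomial, smul_monomial, smul_eq_mul,
      mul_inv_cancel₀ (wt_ne_zero _), LinearMap.id_apply]
    congr 2
    have : ∀ i, Symb.zexp (ez e) i = if i = 0 then e 0 else e 1 := by
      intro i
      fin_cases i <;> simp [Symb.zexp, ez]
    rw [this, this]
    exact exp6_eta e
  exact LinearMap.congr_fun key F

theorem sp_put (m b : ℕ × ℕ) (p : Pol) :
    sp (put m b p) = Finsupp.single m (Finsupp.single b p) := by
  have key : sp ∘ₗ put m b = (Finsupp.lsingle m) ∘ₗ (Finsupp.lsingle b) :=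
    (basisMonomials (Fin 2) ℚ).ext fun a => by
      rw [coe_basisMonomials]
      show sp (put m b (monomial a 1)) = Finsupp.single m (Finsupp.single b (monomial a 1))
      have hm : monomial (exp6 (a 0, a 1) b m) (wt m)⁻¹ =
          (wt m)⁻¹ • (monomial (exp6 (a 0, a 1) b m) 1 : S6) := by
        rw [smul_monomial, smul_eq_mul, mul_one]
      obtain ⟨h1, h2, h3⟩ := exp6_parts (a 0, a 1) b m
      rw [put_monomial, hm, map_smul, sp_monomial, h1, h2, h3, Finsupp.smul_single,
        Finsupp.smul_single, smul_smul, inv_mul_cancel₀ (wt_ne_zero m), one_smul, Symb.zmon,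
        zexp_eta]
  exact LinearMap.congr_fun key p

theorem ev_injective : Function.Injective ev := fun F G h => by
  have : sp F = sp G := Finsupp.mapRange_injective _ (map_zero nrm) nrm_injective h
  rw [← gather_sp F, ← gather_sp G, this]

theorem sp_gather (f : ℕ × ℕ →₀ ℕ × ℕ →₀ Pol) : sp (gather f) = f := by
  induction f using Finsupp.induction_linear with
  | zero => simp
  | add a b ha hb => rw [map_add, map_add, ha, hb]
  | single m g =>
    rw [gather, Finsupp.lsum_single]
    induction g using Finsupp.induction_linear with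
    | zero => simp
    | add a b ha hb => rw [map_add, map_add, ha, hb, ← Finsupp.single_add]
    | single b p => rw [Finsupp.lsum_single, sp_put]

/-! ### The filtration -/

theorem ev_mem {a s q : ℤ} {F : S6} (hF : F ∈ Fil a s q) (m : ℕ × ℕ) :
    ev F m ∈ Ord a s ∧ (((m.1 + m.2 : ℕ) : ℤ) ≠ q → ev F m = 0) := by
  refine Sup_induction (motive := fun G => ev G m ∈ Ord a s ∧
      (((m.1 + m.2 : ℕ) : ℤ) ≠ q → ev G m = 0)) hF ⟨by simp, fun _ => by simp⟩
    (fun f g hf hg => ⟨by rw [map_add, Finsupp.add_apply]; exact add_mem hf.1 hg.1,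
      fun h => by rw [map_add, Finsupp.add_apply, hf.2 h, hg.2 h, add_zero]⟩)
    fun d c ⟨h1, h2, h3⟩ => ?_
  have hm : monomial d c = c • (monomial d 1 : S6) := by
    rw [smul_monomial, smul_eq_mul, mul_one]
  rw [hm, map_smul, Finsupp.smul_apply, ev_monomial]
  by_cases h : ep d = m
  · subst h
    rw [Finsupp.single_eq_same]
    refine ⟨Submodule.smul_mem _ _ (Submodule.smul_mem _ _ ?_), fun hne => absurd ?_ hne⟩
    · refine mem_Ord_gen ?_ (monomial_mem_H _ ?_)
      · simp only [sz, ex, dgx] at h1 ⊢; exact h1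
      · simp [sz, ex, ez, dgx, dgz, Symb.zexp] at h2 ⊢; omega
    · simp only [ep, dgp] at h3 ⊢
      push_cast
      exact h3
  · simp [Ne.symm h]

theorem put_mem {a s : ℤ} {m b : ℕ × ℕ} {p : Pol} (hb : sz b ≤ a) (hp : p ∈ H (sz b + s)) :
    put m b p ∈ Fil a s ((m.1 + m.2 : ℕ) : ℤ) := by
  have key : H (sz b + s) ≤ (Fil a s ((m.1 + m.2 : ℕ) : ℤ)).comap (put m b) := by
    rw [H_span, Submodule.span_le]
    rintro _ ⟨e, he, rfl⟩
    show put m b (monomial e 1) ∈ Fil a s ((m.1 + m.2 : ℕ) : ℤ)
    rw [put_monomial]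
    refine monomial_mem_Sup _ ?_
    simp only [degSet, Set.mem_ofPred_eq, sz] at he hb ⊢
    simp [dgx, dgz, dgp, exp6]
    omega
  exact key hp

/-- Symbols are in the filtration as soon as their operators are in the lattices. -/
theorem Fil_of_ev {a s q : ℤ} {F : S6} (h : ∀ m, ev F m ∈ Ord a s)
    (h' : ∀ m : ℕ × ℕ, ((m.1 + m.2 : ℕ) : ℤ) ≠ q → ev F m = 0) : F ∈ Fil a s q := by
  rw [← gather_sp F]
  have hev : ∀ m, ev F m = nrm (sp F m) := fun m =>
    Finsupp.mapRange_apply (hf := map_zero nrm)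
  rw [← (sp F).sum_single, Finsupp.sum, map_sum]
  refine Submodule.sum_mem _ fun m hm => ?_
  have hq : ((m.1 + m.2 : ℕ) : ℤ) = q := by
    by_contra hne
    refine Finsupp.mem_support_iff.1 hm (nrm_injective ?_)
    rw [← hev, h' m hne, map_zero]
  obtain ⟨f, hf, e⟩ : ev F m ∈ (Model.Sym a s).map nrm := by rw [map_nrm_Sym]; exact h m
  rw [hev] at e
  rw [← nrm_injective e, gather, Finsupp.lsum_single]
  refine Submodule.sum_mem _ fun b hb => ?_
  have := put_mem (a := a) (s := s) (m := m)
    (not_lt.1 fun hlt => Finsupp.mem_support_iff.1 hb ((hf b).2 hlt)) (hf b).1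
  rwa [hq] at this

/-- Every family of operators of one dual degree comes from symbols. -/
theorem exists_ev {a s : ℤ} {q : ℕ} (w : ℕ × ℕ → D) (hw : ∀ m, w m ∈ Ord a s) :
    ∃ F ∈ Fil a s q, ∀ m : ℕ × ℕ, m.1 + m.2 = q → ev F m = w m := by
  classical
  have hf : ∀ m, ∃ f ∈ Model.Sym a s, nrm f = w m := fun m => by
    have := hw m
    rw [← map_nrm_Sym] at this
    exact this
  choose f hf ef using hf
  let g : ℕ × ℕ →₀ ℕ × ℕ →₀ Pol :=
    ∑ k ∈ Finset.range (q + 1), Finsupp.single (k, q - k) (f (k, q - k))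
  have hg : ∀ m, g m = if m.1 + m.2 = q then f m else 0 := by
    intro ⟨x, y⟩
    simp only [g, Finsupp.finsetSum_apply, Finsupp.single_apply]
    by_cases h : x + y = q
    · rw [if_pos h, Finset.sum_eq_single x]
      · rw [show q - x = y by omega, if_pos rfl]
      · intro k _ hk
        rw [if_neg fun e => hk (congrArg Prod.fst e)]
      · intro hh; exact absurd (Finset.mem_range.2 (by omega)) hh
    · rw [if_neg h]
      refine Finset.sum_eq_zero fun k hk => if_neg fun e => h ?_
      have := Finset.mem_range.1 hk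
      simp only [Prod.mk.injEq] at e
      omega
  have hev : ∀ m, ev (gather g) m = if m.1 + m.2 = q then w m else 0 := fun m => by
    show Finsupp.mapRange.linearMap nrm (sp (gather g)) m = _
    rw [sp_gather, Finsupp.mapRange.linearMap_apply, Finsupp.mapRange_apply, hg]
    split_ifs
    · exact ef m
    · exact map_zero nrm
  refine ⟨gather g, Fil_of_ev (fun m => ?_) fun m hm => ?_, fun m hm => by rw [hev, if_pos hm]⟩
  · rw [hev]; split_ifs
    · exact hw m
    · exact zero_mem _
  · rw [hev, if_neg fun e => hm (by rw [e])]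

/-! ### The pairing -/

/-- The pairing of a family of operators with a symbol. -/
noncomputable def pair (w : OpFam) : S6 →ₗ[ℚ] D :=
  (Finsupp.lsum ℚ fun m => LinearMap.mulLeft ℚ (w m)) ∘ₗ ev

theorem pair_apply (w : OpFam) (F : S6) : pair w F = (ev F).sum fun m Y => w m * Y := rfl

theorem pair_monomial (w : OpFam) (e : Fin 6 →₀ ℕ) :
    pair w (monomial e 1) = w (ep e) * (wt (ep e) • (mlt (Symb.zmon (ez e)) * dp (ex e))) := by
  rw [pair, LinearMap.comp_apply, ev_monomial, Finsupp.lsum_single]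
  rfl

/-- The coordinate variables. -/
noncomputable def zv (l : Fin 2) : S6 := if l = 0 then z0 else z1

/-- The dual variables. -/
noncomputable def pv (l : Fin 2) : S6 := if l = 0 then p0 else p1

/-- The position of a coordinate variable. -/
def iz (l : Fin 2) : Fin 6 := if l = 0 then 0 else 1

/-- The position of a dual variable. -/
def ip (l : Fin 2) : Fin 6 := if l = 0 then 4 else 5

theorem zmon_X_mul (l : Fin 2) (e : Fin 6 →₀ ℕ) :
    Symb.zmon (ez (Finsupp.single (iz l) 1 + e)) = X l * Symb.zmon (ez e) := by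
  rw [Symb.zmon, Symb.zmon, X, monomial_mul, one_mul]
  congr 2
  ext i
  fin_cases l <;> fin_cases i <;> simp [Symb.zexp, ez, iz]

theorem zv_monomial (l : Fin 2) (e : Fin 6 →₀ ℕ) :
    zv l * monomial e 1 = monomial (Finsupp.single (iz l) 1 + e) 1 := by
  fin_cases l <;> simp [zv, iz, z0, z1, X, monomial_mul]

theorem ev_zv_mul (l : Fin 2) (F : S6) (m : ℕ × ℕ) :
    ev (zv l * F) m = mlt (X l) * ev F m := by
  have key : Finsupp.lapply m ∘ₗ ev ∘ₗ LinearMap.mulLeft ℚ (zv l) =
      LinearMap.mulLeft ℚ (mlt (X l)) ∘ₗ Finsupp.lapply m ∘ₗ ev := lext fun e => by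
    simp only [LinearMap.comp_apply, LinearMap.mulLeft_apply, Finsupp.lapply_apply]
    rw [zv_monomial, ev_monomial, ev_monomial, zmon_X_mul, map_mul]
    have h1 : ep (Finsupp.single (iz l) 1 + e) = ep e := by
      fin_cases l <;> simp [ep, iz]
    have h2 : ex (Finsupp.single (iz l) 1 + e) = ex e := by
      fin_cases l <;> simp [ex, iz]
    rw [h1, h2, Finsupp.single_apply, Finsupp.single_apply]
    split_ifs with h
    · rw [mul_smul_comm, mul_assoc]
    · rw [mul_zero]
  exact LinearMap.congr_fun key F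

/-- The variables act by left multiplication. -/
theorem pair_Z (l : Fin 2) (w : OpFam) (F : S6) : pair (opActs.Z l w) F = pair w (zv l * F) := by
  have key : pair (opActs.Z l w) = pair w ∘ₗ LinearMap.mulLeft ℚ (zv l) := lext fun e => by
    simp only [LinearMap.comp_apply, LinearMap.mulLeft_apply]
    rw [zv_monomial, pair_monomial, pair_monomial, zmon_X_mul, map_mul]
    have h1 : ep (Finsupp.single (iz l) 1 + e) = ep e := by
      fin_cases l <;> simp [ep, iz]
    have h2 : ex (Finsupp.single (iz l) 1 + e) = ex e := by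
      fin_cases l <;> simp [ex, iz]
    rw [h1, h2]
    show w (ep e) * mlt (X l) * _ = _
    rw [mul_assoc, mul_smul_comm, mul_assoc]
  exact LinearMap.congr_fun key F

/-- Left multiplication by a derivative, as a linear map. -/
noncomputable def Lv (l : Fin 2) : S6 →ₗ[ℚ] S6 :=
  LinearMap.mulLeft ℚ (if l = 0 then x0 else x1) + (pderiv (iz l)).toLinearMap

theorem Lv_zero (F : S6) : Lv 0 F = L0 F := rfl

theorem Lv_one (F : S6) : Lv 1 F = L1 F := rfl

theorem dd_mul_dp (l : Fin 2) (b : ℕ × ℕ) : dd l * dp b = dp (OpFam.up l b) := by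
  fin_cases l
  · exact dd0_mul_dp b
  · exact dd1_mul_dp b

theorem ev_Lv (l : Fin 2) (F : S6) (m : ℕ × ℕ) : ev (Lv l F) m = dd l * ev F m := by
  have key : Finsupp.lapply m ∘ₗ ev ∘ₗ Lv l =
      LinearMap.mulLeft ℚ (dd l) ∘ₗ Finsupp.lapply m ∘ₗ ev := lext fun e => by
    show ev (Lv l (monomial e 1)) m = dd l * ev (monomial e 1) m
    have hx : (if l = 0 then x0 else x1 : S6) * monomial e 1 =
        monomial (Finsupp.single (if l = 0 then 2 else 3) 1 + e) 1 := by
      fin_cases l <;> simp [x0, x1, X, monomial_mul]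
    have hd : pderiv (iz l) (monomial e (1 : ℚ)) =
        ((e (iz l) : ℕ) : ℚ) • monomial (e - Finsupp.single (iz l) 1) 1 := by
      rw [pderiv_monomial, smul_monomial, smul_eq_mul, mul_one, one_mul]
    rw [Lv, LinearMap.add_apply, LinearMap.mulLeft_apply, hx, map_add, Finsupp.add_apply]
    show ev (monomial _ 1) m + ev (pderiv (iz l) (monomial e 1)) m = _
    rw [hd, map_smul, Finsupp.smul_apply, ev_monomial, ev_monomial, ev_monomial]
    have a1 : ep (Finsupp.single (if l = 0 then 2 else 3 : Fin 6) 1 + e) = ep e ∧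
        ez (Finsupp.single (if l = 0 then 2 else 3 : Fin 6) 1 + e) = ez e ∧
        ex (Finsupp.single (if l = 0 then 2 else 3 : Fin 6) 1 + e) = OpFam.up l (ex e) := by
      fin_cases l <;> simp [ep, ez, ex, OpFam.up, add_comm]
    have a2 : ep (e - Finsupp.single (iz l) 1) = ep e ∧
        ex (e - Finsupp.single (iz l) 1) = ex e ∧
        pderiv l (Symb.zmon (ez e)) =
          ((e (iz l) : ℕ) : ℚ) • Symb.zmon (ez (e - Finsupp.single (iz l) 1)) := by
      refine ⟨by fin_cases l <;> simp [ep, iz], by fin_cases l <;> simp [ex, iz], ?_⟩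
      rw [Symb.zmon, Symb.zmon, pderiv_monomial, smul_monomial, smul_eq_mul, mul_one, one_mul]
      refine congrArg₂ (fun a b => monomial a b) ?_ ?_
      · ext i
        fin_cases l <;> fin_cases i <;> simp [Symb.zexp, ez, iz]
      · fin_cases l <;> simp [Symb.zexp, ez, iz]
    rw [a1.1, a1.2.1, a1.2.2, a2.1, a2.2.1, Finsupp.single_apply, Finsupp.single_apply,
      Finsupp.single_apply]
    split_ifs with h
    · rw [mul_smul_comm, ← mul_assoc, dd_mul_mlt, add_mul, mul_assoc, dd_mul_dp, a2.2.2,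
        map_smul, smul_mul_assoc, smul_add, smul_comm]
    · rw [smul_zero, add_zero, mul_zero]
  exact LinearMap.congr_fun key F

/-- The derivatives act by left multiplication. -/
theorem pair_A (l : Fin 2) (w : OpFam) (F : S6) : pair (opActs.A l w) F = pair w (Lv l F) := by
  have e : ev (Lv l F) = (ev F).mapRange (dd l * ·) (mul_zero _) :=
    Finsupp.ext fun m => (ev_Lv l F m).trans Finsupp.mapRange_apply.symm
  rw [pair_apply, pair_apply, e, Finsupp.sum_mapRange_index fun _ => mul_zero _]
  exact Finsupp.sum_congr fun m _ => mul_assoc _ _ _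

/-- Multiplication by an auxiliary variable is dual to the derivation. -/
theorem pair_Y (l : Fin 2) (w : OpFam) (F : S6) :
    pair (opActs.Y l w) F = pair w (pderiv (ip l) F) := by
  have key : pair (opActs.Y l w) = pair w ∘ₗ (pderiv (ip l)).toLinearMap := lext fun e => by
    show pair (opActs.Y l w) (monomial e 1) = pair w (pderiv (ip l) (monomial e 1))
    have hd : pderiv (ip l) (monomial e (1 : ℚ)) =
        ((e (ip l) : ℕ) : ℚ) • monomial (e - Finsupp.single (ip l) 1) 1 := by
      rw [pderiv_monomial, smul_monomial, smul_eq_mul, mul_one, one_mul]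
    have hent : OpFam.ent l (ep e) = e (ip l) := by fin_cases l <;> simp [OpFam.ent, ep, ip]
    rw [hd, map_smul, pair_monomial, pair_monomial]
    show OpFam.Y l w (ep e) * _ = _
    rw [OpFam.Y_apply, hent]
    split_ifs with h0
    · rw [h0, Nat.cast_zero, zero_smul, zero_mul]
    · have a1 : ep (e - Finsupp.single (ip l) 1) = OpFam.down l (ep e) ∧
          ez (e - Finsupp.single (ip l) 1) = ez e ∧ ex (e - Finsupp.single (ip l) 1) = ex e := by
        fin_cases l <;> simp [ep, ez, ex, ip, OpFam.down]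
      have hw : wt (ep e) = ((e (ip l) : ℕ) : ℚ) * wt (OpFam.down l (ep e)) := by
        have hu : OpFam.up l (OpFam.down l (ep e)) = ep e ∧
            OpFam.ent l (OpFam.down l (ep e)) + 1 = e (ip l) := by
          fin_cases l <;> simp [OpFam.up, OpFam.down, OpFam.ent, ep, ip] at h0 ⊢ <;> omega
        conv_lhs => rw [← hu.1, wt_up, hu.2]
      rw [a1.1, a1.2.1, a1.2.2, hw, mul_smul, mul_smul_comm]
  exact LinearMap.congr_fun key F

/-- The auxiliary derivation is dual to multiplication by a dual variable. -/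
theorem pair_P (l : Fin 2) (w : OpFam) (F : S6) :
    pair (opActs.P l w) F = pair w (pv l * F) := by
  have key : pair (opActs.P l w) = pair w ∘ₗ LinearMap.mulLeft ℚ (pv l) := lext fun e => by
    simp only [LinearMap.comp_apply, LinearMap.mulLeft_apply]
    have hp : pv l * monomial e 1 = monomial (Finsupp.single (ip l) 1 + e) 1 := by
      fin_cases l <;> simp [pv, ip, p0, p1, X, monomial_mul]
    have a1 : ep (Finsupp.single (ip l) 1 + e) = OpFam.up l (ep e) ∧
        ez (Finsupp.single (ip l) 1 + e) = ez e ∧ ex (Finsupp.single (ip l) 1 + e) = ex e := by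
      fin_cases l <;> simp [ep, ez, ex, ip, OpFam.up, add_comm]
    rw [hp, pair_monomial, pair_monomial, a1.1, a1.2.1, a1.2.2, wt_up]
    show OpFam.P l w (ep e) * _ = _
    rw [OpFam.P_apply, smul_mul_assoc, mul_smul, mul_smul_comm (((_ : ℕ) : ℚ))]
  exact LinearMap.congr_fun key F

theorem pair_add (w w' : OpFam) (F : S6) : pair (w + w') F = pair w F + pair w' F := by
  simp only [pair_apply, Pi.add_apply, add_mul]
  exact Finsupp.sum_add

theorem pair_smul (c : ℚ) (w : OpFam) (F : S6) : pair (c • w) F = c • pair w F := by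
  simp only [pair_apply, Pi.smul_apply, smul_mul_assoc, Finsupp.smul_sum]

theorem pair_neg (w : OpFam) (F : S6) : pair (-w) F = -pair w F := by
  simp only [pair_apply, Pi.neg_apply, dneg_mul, Finsupp.sum, Finset.sum_neg_distrib]

theorem pair_sub (w w' : OpFam) (F : S6) : pair (w - w') F = pair w F - pair w' F := by
  rw [sub_eq_add_neg, pair_add, pair_neg, sub_eq_add_neg]

theorem pair_zero (F : S6) : pair 0 F = 0 := by
  simp [pair_apply]

end Vale.Agent.P195.Gamma.ExactB
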