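import Vale.Agent.P195.Gamma.Slots
import Vale.Agent.P195.Gamma.ExactB.Base

/-!
Symbols of the maps out of the slots into an object: the spaces, the dual differentials, the two
links that matter, and the exactness statements used to assemble the cocones.
-/

namespace Vale.Agent.P195.Gamma.ExactB

open MvPolynomial

/-- The coordinates by index. -/
noncomputable def zS : Fin 2 → S6 := ![z0, z1]

/-- Left multiplication by the derivatives, by index. -/
noncomputable def LS : Fin 2 → S6 → S6 := ![L0, L1]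

/-- Right multiplication by a variable. -/
noncomputable def rz (l : Fin 2) (F : S6) : S6 := zS l * F + ![dx0 F, dx1 F] l

/-- The combination of the two columns at a kernel object by the variables. -/
noncomputable def comb {C : Type} (F : Fin 2 → C → S6) : C → S6 :=
  fun c => rz 0 (F 0 c) + rz 1 (F 1 c)

/-- A degree one cochain from its components. -/
def toCo1 (x : Fin 2 ⊕ Fin 2 → S6) : Co1 :=
  ⟨x (.inl 0), x (.inl 1), x (.inr 0), x (.inr 1)⟩

/-- A degree two cochain from its components. -/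
def toCo2 (x : Fin 2 × Fin 2 → S6) : Co2 := ⟨x (0, 0), x (0, 1), x (1, 0), x (1, 1)⟩

/-- The components of a degree one cochain. -/
def ofCo1 (x : Co1) : Fin 2 ⊕ Fin 2 → S6 :=
  fun c => c.elim ![x.u0, x.u1] ![x.g0, x.g1]

/-- The components of a degree two cochain. -/
def ofCo2 (x : Co2) : Fin 2 × Fin 2 → S6 := fun p => ![![x.a0, x.a1], ![x.b0, x.b1]] p.1 p.2

/-- The symbols of maps from a slot position into a line of order `a` and weight `s`. -/
def PosL : ∀ J k : ℕ, ℤ → ℤ → (Slot.C J k → S6) → Prop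
  | 0, 0, a, s, x => x () ∈ Fil a (s - 1) 0
  | 0, 1, a, s, x => GMem 2 a s 0 (x 0) (x 1)
  | 0, 2, a, s, x => ∀ l, x l ∈ Fil (a - 1) s 0
  | 0, 3, a, s, x => x () ∈ Fil a (s - 1) 0
  | 0, _ + 4, _, _, _ => True
  | _ + 1, 0, _, _, _ => True
  | j + 1, 1, a, s, x => M0 a s j (x ())
  | j + 1, 2, a, s, x => M1 a s j (toCo1 x)
  | j + 1, 3, a, s, x => M2 a s j (toCo2 x)
  | j + 1, 4, a, s, x => x () ∈ Fil a s j
  | _ + 1, _ + 5, _, _, _ => True

/-- The symbols of maps shifting the weight by `t` from a slot position into an object. -/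
def Pos : ∀ (w : Model.Ob) (_ : ℤ) (J k : ℕ), (Fin w.rk → Slot.C J k → S6) → Prop
  | .line a s, t, J, k, F => PosL J k a (t + s) (F (0 : Fin 1))
  | .pair c, t, J, k, F => (∀ i, PosL J k c t (F i)) ∧ PosL J k 0 (t + 1) (comb F)

/-- The dual differentials. -/
noncomputable def delta : ∀ J k : ℕ, (Slot.C J k → S6) → Slot.C J (k + 1) → S6
  | 0, 0, x => fun r => zS r * x ()
  | 0, 1, x => ![L1 (z1 * x 0 - z0 * x 1), -L0 (z1 * x 0 - z0 * x 1)]
  | 0, 2, x => fun _ => L0 (x 0) + L1 (x 1)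
  | 0, _ + 3, _ => 0
  | _ + 1, 0, _ => 0
  | j + 1, 1, x => ofCo1 (d0 j (x ()))
  | j + 1, 2, x => ofCo2 (d1 j (toCo1 x))
  | j + 1, 3, x => fun _ => d2 j (toCo2 x)
  | _ + 1, _ + 4, _ => 0

/-- The dual differentials on all columns. -/
noncomputable def dCol {n : ℕ} (J k : ℕ) (F : Fin n → Slot.C J k → S6) :
    Fin n → Slot.C J (k + 1) → S6 :=
  fun i => delta J k (F i)

/-- The link in the last degree. -/
noncomputable def topLink {n : ℕ} (J : ℕ) (F : Fin n → Slot.C (J + 1) 4 → S6) :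
    Fin n → Slot.C (J + 2) 4 → S6 :=
  fun i _ => piv * F i ()

/-- The link out of the last term of the head. -/
noncomputable def headLink {n : ℕ} (F : Fin n → Slot.C 0 3 → S6) : Fin n → Slot.C 1 3 → S6 :=
  fun i p => zS p.2 * zS p.1 * F i ()

/-- Exactness of the dual complexes into an object, at both levels. -/
structure SymExact (w : Model.Ob) : Prop where
  one : ∀ t : ℤ, (t = 0 ∨ t = 1) → ∀ J F, Pos w t (J + 1) 1 F → dCol (J + 1) 1 F = 0 → F = 0
  two : ∀ t : ℤ, (t = 0 ∨ t = 1) → ∀ J F, Pos w t (J + 1) 2 F → dCol (J + 1) 2 F = 0 →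
    ∃ G, Pos w t (J + 1) 1 G ∧ dCol (J + 1) 1 G = F
  three : ∀ t : ℤ, (t = 0 ∨ t = 1) → ∀ J, (1 ≤ J ∨ t = 0) → ∀ F, Pos w t (J + 1) 3 F →
    dCol (J + 1) 3 F = 0 → ∃ G, Pos w t (J + 1) 2 G ∧ dCol (J + 1) 2 G = F
  three_class : ∀ F, Pos w 1 1 3 F → dCol 1 3 F = 0 → ∃ G b, Pos w 1 1 2 G ∧ Pos w 0 0 3 b ∧
    dCol 1 2 G + headLink b = F ∧ ((∀ a, w ≠ .line a 1) → b = 0)
  onto : ∀ η, Pos w 1 1 4 η → ∃ x, Pos w 1 1 3 x ∧ dCol 1 3 x = η
  top_surj : ∀ J η, Pos w 1 (J + 2) 4 η → ∃ θ x, Pos w 0 (J + 1) 4 θ ∧ Pos w 1 (J + 2) 3 x ∧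
    dCol (J + 2) 3 x + topLink J θ = η
  top_inj : ∀ J θ x, Pos w 0 (J + 1) 4 θ → Pos w 1 (J + 2) 3 x →
    dCol (J + 2) 3 x = topLink J θ → ∃ x', Pos w 0 (J + 1) 3 x' ∧ dCol (J + 1) 3 x' = θ
  head_zero : ∀ F, Pos w 0 0 0 F → dCol 0 0 F = 0 → F = 0
  head_one : ∀ F, Pos w 0 0 1 F → dCol 0 1 F = 0 → ∃ G, Pos w 0 0 0 G ∧ dCol 0 0 G = F
  head_two : ∀ F, Pos w 0 0 2 F → dCol 0 2 F = 0 → ∃ G, Pos w 0 0 1 G ∧ dCol 0 1 G = F
  head_three : ∀ b c, Pos w 0 0 3 b → Pos w 1 1 2 c → dCol 1 2 c = headLink b →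
    ∃ H, Pos w 0 0 2 H ∧ dCol 0 2 H = b

end Vale.Agent.P195.Gamma.ExactB
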