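import Vale.Agent.P195.Gamma.DualData
import Vale.Agent.P195.Gamma.ExactB.Pairing
import Vale.Agent.P195.Gamma.ExactB.Target

/-!
Cochains of symbols and the matrices of maps out of the slots: a tuple of symbols, one for each
component, gives a column over the slots; transposed formulas on symbols are multiplication by the
matrices of the formulas, and the lattices of maps become filtration conditions on the symbols.
-/

namespace Vale.Agent.P195.Gamma.ExactB

open MvPolynomial Model Matrix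

instance fintypeC : ∀ J k, Fintype (Slot.C J k)
  | 0, 0 | 0, 1 | 0, 2 | 0, 3 | 0, _ + 4 | _ + 1, 0 | _ + 1, 1 | _ + 1, 2 | _ + 1, 3
  | _ + 1, 4 | _ + 1, _ + 5 => inferInstance

/-- Cochains of symbols in a position. -/
abbrev Co (J k : ℕ) : Type := Slot.C J k → S6

/-- The entries over the slots of a column of symbols. -/
noncomputable def rowsOf {J k r : ℕ} (F : Fin r → Co J k) (i : Slot.I J k) :
    Matrix (Fin (rk (Slot.g J k i))) (Fin r) D :=
  Matrix.of fun s c => ev (F c (Slot.pos J k i s).1) (Slot.pos J k i s).2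

theorem rowsOf_apply {J k r : ℕ} (F : Fin r → Co J k) (i : Slot.I J k)
    (s : Fin (rk (Slot.g J k i))) (c : Fin r) :
    rowsOf F i s c = ev (F c (Slot.pos J k i s).1) (Slot.pos J k i s).2 := rfl

theorem rowsOf_add {J k r : ℕ} (F G : Fin r → Co J k) (i : Slot.I J k) :
    rowsOf (F + G) i = rowsOf F i + rowsOf G i :=
  Matrix.ext fun s c => by
    rw [Matrix.add_apply, rowsOf_apply, rowsOf_apply, rowsOf_apply, Pi.add_apply, Pi.add_apply,
      map_add, Finsupp.add_apply]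

theorem rowsOf_zero {J k r : ℕ} (i : Slot.I J k) : rowsOf (0 : Fin r → Co J k) i = 0 :=
  Matrix.ext fun s c => by simp [rowsOf_apply]

/-- Symbols of the auxiliary degrees of the components. -/
def Good6 (J k : ℕ) (F : Co J k) : Prop :=
  ∀ c, ∀ m : ℕ × ℕ, ((m.1 + m.2 : ℕ) : ℤ) ≠ Slot.q J k c → ev (F c) m = 0

theorem Good6.add {J k : ℕ} {F G : Co J k} (hF : Good6 J k F) (hG : Good6 J k G) :
    Good6 J k (F + G) := fun c m h => by
  rw [Pi.add_apply, map_add, Finsupp.add_apply, hF c m h, hG c m h, add_zero]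

theorem Good6.zero {J k : ℕ} : Good6 J k 0 := fun c m _ => by simp

/-- Columns of the right degrees are determined by their entries. -/
theorem rowsOf_injective {J k r : ℕ} {F G : Fin r → Co J k} (hF : ∀ c, Good6 J k (F c))
    (hG : ∀ c, Good6 J k (G c)) (h : ∀ i, rowsOf F i = rowsOf G i) : F = G := by
  funext c d
  refine ev_injective (Finsupp.ext fun m => ?_)
  by_cases hm : ((m.1 + m.2 : ℕ) : ℤ) = Slot.q J k d
  · obtain ⟨i, s, hp⟩ := Slot.pos_surj J k d m hm
    have := congrFun (congrFun (h i) s) c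
    rw [rowsOf_apply, rowsOf_apply, hp] at this
    exact this
  · rw [hF c d m hm, hG c d m hm]

/-! ### Transposition -/

/-- The pairing of the components. -/
noncomputable def pairCo {J k : ℕ} (y : Slot.C J k → OpFam) (F : Co J k) : D :=
  ∑ c, pair (y c) (F c)

theorem pair_sum {ι : Type} (s : Finset ι) (w : ι → OpFam) (F : S6) :
    pair (∑ p ∈ s, w p) F = ∑ p ∈ s, pair (w p) F := by
  classical
  induction s using Finset.induction with
  | empty => simp [pair_zero]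
  | insert a s ha ih => rw [Finset.sum_insert ha, Finset.sum_insert ha, pair_add, ih]

theorem pair_at (m₀ : ℕ × ℕ) (x : D) (F : S6) :
    pair (fun m => if m₀ = m then x else 0) F = x * ev F m₀ := by
  rw [pair_apply, Finsupp.sum, Finset.sum_eq_single m₀]
  · rw [if_pos rfl]
  · intro m _ hm
    rw [if_neg (Ne.symm hm), zero_mul]
  · intro h
    rw [Finsupp.notMem_support_iff.1 h, mul_zero]

theorem pairCo_enc {J k : ℕ} (x : Shape.Row (Slot.g J k)) (F : Co J k) :
    pairCo ((Slot.shape J k).enc x) F =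
      ∑ i, ∑ s, x i s * ev (F (Slot.pos J k i s).1) (Slot.pos J k i s).2 := by
  have e : ∀ c, (Slot.shape J k).enc x c = ∑ p : Σ i, Fin (rk (Slot.g J k i)),
      (fun m => if Slot.pos J k p.1 p.2 = (c, m) then x p.1 p.2 else 0 : OpFam) := fun c =>
    _root_.funext fun m => by
      rw [Finset.sum_apply]
      rfl
  rw [← Fintype.sum_sigma' (fun i s => x i s * ev (F (Slot.pos J k i s).1) (Slot.pos J k i s).2),
    pairCo, Finset.sum_congr rfl fun c _ => (congrArg (pair · (F c)) (e c)).trans (pair_sum _ _ _),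
    Finset.sum_comm]
  refine Finset.sum_congr rfl fun p _ => ?_
  generalize hp : Slot.pos J k p.1 p.2 = cm
  obtain ⟨c₀, m₀⟩ := cm
  rw [Finset.sum_eq_single c₀]
  · rw [← pair_at]
    congr 2
    funext m
    simp
  · intro c _ hc
    refine (congrArg (fun w => pair w (F c)) (_root_.funext fun m => ?_)).trans (pair_zero (F c))
    simp [Ne.symm hc]
  · intro h; exact absurd (Finset.mem_univ _) h

/-- Two formulas are transposes of each other for the pairing. -/
def Adj {J k J' k' : ℕ} (Φ : (Slot.C J k → OpFam) →ₗ[ℚ] (Slot.C J' k' → OpFam))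
    (Ψ : Co J' k' → Co J k) : Prop :=
  ∀ y F, pairCo (Φ y) F = pairCo y (Ψ F)

/-- Multiplication by the matrix of a formula is its transpose on symbols. -/
theorem sum_mat_mul {J k J' k' r : ℕ} {Φ : (Slot.C J k → OpFam) →ₗ[ℚ] (Slot.C J' k' → OpFam)}
    {Ψ : Co J' k' → Co J k} (hA : Adj Φ Ψ)
    (hG : ∀ y, Slot.Good J k y → Slot.Good J' k' (Φ y)) (F : Fin r → Co J' k')
    (i : Slot.I J k) :
    ∑ i', (Slot.shape J k).mat (Slot.shape J' k') Φ i i' * rowsOf F i' =
      rowsOf (fun c => Ψ (F c)) i := by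
  refine Matrix.ext fun s c => ?_
  set f := Φ ((Slot.shape J k).enc (Shape.unit i s)) with hf
  have e := pairCo_enc ((Slot.shape J' k').dec f) (F c)
  rw [Slot.enc_dec J' k' f (hG _ (Slot.good_enc J k _)), hf, hA, pairCo_enc] at e
  rw [Matrix.sum_apply]
  refine Eq.trans ?_ (e.symm.trans ?_)
  · exact Finset.sum_congr rfl fun i' _ => rfl
  · rw [Finset.sum_eq_single i, Finset.sum_eq_single s]
    · rw [show (Shape.unit i s : Shape.Row (Slot.g J k)) i s = 1 from if_pos rfl, one_mul]; rfl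
    · intro s' _ hs
      simp [Shape.unit, hs]
    · intro h; exact absurd (Finset.mem_univ _) h
    · intro i' _ hi
      refine Finset.sum_eq_zero fun s' _ => ?_
      simp [Shape.unit, hi]
    · intro h; exact absurd (Finset.mem_univ _) h

/-! ### Degrees and lattices -/

/-- The column of a cochain. -/
noncomputable def colE {J k : ℕ} (φ : Co J k) (i : Slot.I J k) (s : Fin (rk (Slot.g J k i))) : D :=
  ev (φ (Slot.pos J k i s).1) (Slot.pos J k i s).2

theorem rowsOf_col {J k r : ℕ} (F : Fin r → Co J k) (i : Slot.I J k) (c : Fin r) :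
    (fun s => rowsOf F i s c) = colE (F c) i := rfl

/-- The columns of maps from an object into a line with twists `a` and `s`. -/
def CM : (o : Ob) → ℤ → ℤ → (Fin o.rk → D) → Prop
  | .line a' s', a, s, v => v (0 : Fin 1) ∈ Ord (a - a') (s - s')
  | .pair c, a, s, v => v (0 : Fin 2) ∈ Ord a s ∧ v (1 : Fin 2) ∈ Ord a s ∧
      mlt (X 1) * v (0 : Fin 2) - mlt (X 0) * v (1 : Fin 2) ∈ Ord (a - c) (s + 1)

theorem ev_deg {a s q : ℤ} {F : S6} (h : F ∈ Fil a s q) (m : ℕ × ℕ)
    (hm : ((m.1 + m.2 : ℕ) : ℤ) ≠ q) : ev F m = 0 := (ev_mem h m).2 hm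

theorem dp_mul_X (l : Fin 2) (b : ℕ × ℕ) :
    dp b * mlt (X l) =
      mlt (X l) * dp b + ((OpFam.ent l b : ℕ) : ℚ) • dp (OpFam.down l b) := by
  fin_cases l
  · have h := ad_dp_zero b
    rw [ad_apply, sub_eq_iff_eq_add'] at h
    exact h
  · have h := ad_dp_one b
    rw [ad_apply, sub_eq_iff_eq_add'] at h
    exact h

/-- The position of a momentum. -/
def ixp (l : Fin 2) : Fin 6 := if l = 0 then 2 else 3

theorem ev_rz (l : Fin 2) (F : S6) (m : ℕ × ℕ) : ev (rz l F) m = ev F m * mlt (X l) := by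
  have hr : rz l F = zv l * F + pderiv (ixp l) F := by fin_cases l <;> rfl
  rw [hr]
  have key : Finsupp.lapply m ∘ₗ ev ∘ₗ
      (LinearMap.mulLeft ℚ (zv l) + (pderiv (ixp l)).toLinearMap) =
      LinearMap.mulRight ℚ (mlt (X l)) ∘ₗ Finsupp.lapply m ∘ₗ ev := lext fun e => by
    simp only [LinearMap.comp_apply, LinearMap.add_apply, LinearMap.mulLeft_apply,
      LinearMap.mulRight_apply, Finsupp.lapply_apply, map_add, Derivation.coeFn_coe]
    have hd : pderiv (ixp l) (monomial e (1 : ℚ)) =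
        ((e (ixp l) : ℕ) : ℚ) • monomial (e - Finsupp.single (ixp l) 1) 1 := by
      rw [pderiv_monomial, smul_monomial, smul_eq_mul, mul_one, one_mul]
    have a1 : ep (Finsupp.single (iz l) 1 + e) = ep e ∧
        ex (Finsupp.single (iz l) 1 + e) = ex e := by
      fin_cases l <;> simp [ep, ex, iz]
    have a2 : ep (e - Finsupp.single (ixp l) 1) = ep e ∧
        ez (e - Finsupp.single (ixp l) 1) = ez e ∧
        ex (e - Finsupp.single (ixp l) 1) = OpFam.down l (ex e) ∧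
        e (ixp l) = OpFam.ent l (ex e) := by
      fin_cases l <;> simp [ep, ez, ex, ixp, OpFam.down, OpFam.ent]
    rw [zv_monomial, hd, map_smul, Finsupp.smul_apply, ev_monomial, ev_monomial,
      ev_monomial, zmon_X_mul, map_mul, a1.1, a1.2, a2.1, a2.2.1, a2.2.2.1, a2.2.2.2,
      Finsupp.single_apply, Finsupp.single_apply, Finsupp.single_apply]
    split_ifs with h
    · rw [smul_mul_assoc, mul_assoc (mlt (Symb.zmon (ez e))), dp_mul_X, mul_add, smul_add,
        ← mul_assoc, mlt_comm, mul_smul_comm]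
      rw [smul_comm]
    · rw [smul_zero, add_zero, zero_mul]
  exact LinearMap.congr_fun key F

theorem GMem_Fil {c : ℕ} {a s q : ℤ} {g0 g1 : S6} (h : GMem c a s q g0 g1) :
    g0 ∈ Fil a s q ∧ g1 ∈ Fil a s q ∧ z1 * g0 - z0 * g1 ∈ Fil (a - c) (s + 1) q := by
  obtain ⟨P0, P1, Q, h0, h1, hQ, rfl, rfl⟩ := h
  refine ⟨sub_mem (Fil_cast h0 (by omega) rfl rfl) (Fil_cast (z0_Fil hQ) le_rfl (by ring) rfl),
    sub_mem (Fil_cast h1 (by omega) rfl rfl) (Fil_cast (z1_Fil hQ) le_rfl (by ring) rfl), ?_⟩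
  have e : z1 * (P0 - z0 * Q) - z0 * (P1 - z1 * Q) = z1 * P0 - z0 * P1 := by ring
  rw [e]
  exact sub_mem (z1_Fil h0) (z0_Fil h1)

theorem GMem_of_Fil : ∀ (c : ℕ) (a s q : ℤ) (g0 g1 : S6), g0 ∈ Fil a s q → g1 ∈ Fil a s q →
    z1 * g0 - z0 * g1 ∈ Fil (a - c) (s + 1) q → GMem c a s q g0 g1
  | 0, a, s, q, g0, g1, h0, h1, _ => ⟨g0, g1, 0, Fil_cast h0 (by simp) rfl rfl,
      Fil_cast h1 (by simp) rfl rfl, zero_mem _, by simp, by simp⟩
  | c + 1, a, s, q, g0, g1, h0, h1, h => by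
    obtain ⟨T0, hT0, f0, hf0, e0⟩ := Fil_split h0
    obtain ⟨T1, hT1, f1, hf1, e1⟩ := Fil_split h1
    have hz : z1 * T0 - z0 * T1 = 0 := by
      refine Lay_Fil_disjoint (a' := a - 1) (s := s + 1) (q' := q)
        (sub_mem (Lay_cast (X_mul_Lay 1 hT0) (by simp [wx]) rfl (by simp [wp]))
          (Lay_cast (X_mul_Lay 0 hT1) (by simp [wx]) (by simp [wz]) (by simp [wp])) :
          z1 * T0 - z0 * T1 ∈ Lay a (a + s + wz 1) q) ?_ (by omega)
      have e : z1 * T0 - z0 * T1 = (z1 * g0 - z0 * g1) - (z1 * f0 - z0 * f1) := by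
        rw [e0, e1]; ring
      rw [e]
      exact sub_mem (Fil_cast h (by push_cast; omega) rfl rfl)
        (sub_mem (z1_Fil hf0) (z0_Fil hf1))
    obtain ⟨R, hR, r0, r1⟩ := rows_ker hT0 hT1 hz
    obtain ⟨P0, P1, Q, a0, a1, aQ, q0, q1⟩ := GMem_of_Fil c (a - 1) s q f0 f1 hf0 hf1 (by
      have e : z1 * f0 - z0 * f1 = z1 * g0 - z0 * g1 := by
        rw [e0, e1]; linear_combination -hz
      rw [e]
      exact Fil_cast h (by push_cast; omega) rfl rfl)
    refine ⟨P0, P1, Q - R, Fil_cast a0 (by push_cast; omega) rfl rfl,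
      Fil_cast a1 (by push_cast; omega) rfl rfl,
      sub_mem (Fil_cast aQ (by omega) rfl rfl) (Lay_le_Fil hR le_rfl (by ring)), ?_, ?_⟩
    · rw [e0, r0, q0]; ring
    · rw [e1, r1, q1]; ring

theorem GMem_iff {c : ℕ} {a s q : ℤ} {g0 g1 : S6} :
    GMem c a s q g0 g1 ↔
      g0 ∈ Fil a s q ∧ g1 ∈ Fil a s q ∧ z1 * g0 - z0 * g1 ∈ Fil (a - c) (s + 1) q :=
  ⟨GMem_Fil, fun h => GMem_of_Fil c a s q g0 g1 h.1 h.2.1 h.2.2⟩

theorem good6_of_posL : ∀ {J k : ℕ} {a s : ℤ} {φ : Co J k}, PosL J k a s φ → Good6 J k φ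
  | 0, 0, _, _, _, h => fun c m hm => ev_deg h m hm
  | 0, 1, _, _, _, h => fun c m hm => by
    obtain ⟨h0, h1, -⟩ := GMem_Fil (c := 2) h
    fin_cases c
    · exact ev_deg h0 m hm
    · exact ev_deg h1 m hm
  | 0, 2, _, _, _, h => fun c m hm => ev_deg (h c) m hm
  | 0, 3, _, _, _, h => fun c m hm => ev_deg h m hm
  | 0, _ + 4, _, _, _, _ => fun c => c.elim
  | _ + 1, 0, _, _, _, _ => fun c => c.elim
  | _ + 1, 1, _, _, _, h => fun c m hm => ev_deg h m hm
  | _ + 1, 2, _, _, _, h => fun c m hm => by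
    obtain ⟨g0, g1, -⟩ := GMem_Fil (c := 2) h.2.2
    rcases c with l | l <;> fin_cases l
    · exact ev_deg h.1 m hm
    · exact ev_deg h.2.1 m hm
    · exact ev_deg g0 m hm
    · exact ev_deg g1 m hm
  | _ + 1, 3, _, _, _, h => fun ⟨l, r⟩ m hm => by
    obtain ⟨a0, a1, -⟩ := GMem_Fil (c := 1) h.1
    obtain ⟨b0, b1, -⟩ := GMem_Fil (c := 1) h.2
    fin_cases l <;> fin_cases r
    · exact ev_deg a0 m hm
    · exact ev_deg a1 m hm
    · exact ev_deg b0 m hm
    · exact ev_deg b1 m hm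
  | _ + 1, 4, _, _, _, h => fun c m hm => ev_deg h m hm
  | _ + 1, _ + 5, _, _, _, _ => fun c => c.elim

theorem ord_cast {a b a' b' : ℤ} {x : D} (h : x ∈ Ord a b) (ha : a = a') (hb : b = b') :
    x ∈ Ord a' b' := by
  subst ha hb; exact h

theorem ev_Ord {a s q : ℤ} {F : S6} (h : F ∈ Fil a s q) (m : ℕ × ℕ) : ev F m ∈ Ord a s :=
  (ev_mem h m).1

theorem ev_comb (F0 F1 : S6) (m : ℕ × ℕ) :
    ev (z1 * F0 - z0 * F1) m = mlt (X 1) * ev F0 m - mlt (X 0) * ev F1 m := by
  rw [map_sub, Finsupp.sub_apply, show (z1 : S6) = zv 1 from rfl, show (z0 : S6) = zv 0 from rfl,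
    ev_zv_mul, ev_zv_mul]

theorem CM_pair {c : ℕ} {a s q : ℤ} {g0 g1 : S6} (h : GMem c a s q g0 g1) (m : ℕ × ℕ) :
    ev g0 m ∈ Ord a s ∧ ev g1 m ∈ Ord a s ∧
      mlt (X 1) * ev g0 m - mlt (X 0) * ev g1 m ∈ Ord (a - c) (s + 1) := by
  obtain ⟨h0, h1, h2⟩ := GMem_Fil h
  exact ⟨ev_Ord h0 m, ev_Ord h1 m, ev_comb g0 g1 m ▸ ev_Ord h2 m⟩

theorem colE_CM : ∀ {J k : ℕ} {a s : ℤ} {φ : Co J k}, PosL J k a s φ → ∀ i : Slot.I J k,
    CM (obj (Slot.g J k i)) a s (colE φ i)
  | 0, 0, _, _, _, h, i => ord_cast (ev_Ord h _) (by simp) (by simp)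
  | 0, 1, _, _, _, h, i => CM_pair (c := 2) h _
  | 0, 2, a, s, φ, h, i => by
    refine ord_cast (a := a - 1) (b := s) (ev_Ord (q := 0) ?_ _) (by simp) (by simp)
    exact h i
  | 0, 3, _, _, _, h, i => ord_cast (ev_Ord h _) (by simp) (by simp)
  | 0, _ + 4, _, _, _, _, i => i.elim
  | _ + 1, 0, _, _, _, _, i => i.elim
  | _ + 1, 1, _, _, _, h, i => ord_cast (ev_Ord h _) (by simp) (by simp)
  | j + 1, 2, a, s, φ, h, i => by
    rcases i with ⟨l, i⟩ | i
    · refine ord_cast (a := a - 1) (b := s) (ev_Ord (q := (j : ℤ) + 1) ?_ _) (by simp) (by simp)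
      fin_cases l
      · exact h.1
      · exact h.2.1
    · exact CM_pair (c := 2) h.2.2 _
  | j + 1, 3, a, s, φ, h, ⟨l, i⟩ => by
    fin_cases l
    · exact CM_pair (c := 1) h.1 (i.1, j - i.1)
    · exact CM_pair (c := 1) h.2 (i.1, j - i.1)
  | _ + 1, 4, _, _, _, h, i => ord_cast (ev_Ord h _) (by simp) (by simp)
  | _ + 1, _ + 5, _, _, _, _, i => i.elim

/-- Symbols of given operators in the dual exponents of one degree. -/
theorem exists_sym {q : ℕ} {a s : ℤ} (w : ℕ × ℕ → D) (hw : ∀ m, w m ∈ Ord a s) :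
    ∃ F ∈ Fil a s q, ∀ m : ℕ × ℕ, m.1 + m.2 = q → ev F m = w m := by
  exact exists_ev (q := q) w hw

theorem exists_sym_pair {q : ℤ} {c : ℕ} {a s : ℤ} (w0 w1 : ℕ × ℕ → D)
    (hw : ∀ m : ℕ × ℕ, ((m.1 + m.2 : ℕ) : ℤ) = q → w0 m ∈ Ord a s ∧ w1 m ∈ Ord a s ∧
      mlt (X 1) * w0 m - mlt (X 0) * w1 m ∈ Ord (a - c) (s + 1)) :
    ∃ g0 g1, GMem c a s q g0 g1 ∧
      ∀ m : ℕ × ℕ, ((m.1 + m.2 : ℕ) : ℤ) = q → ev g0 m = w0 m ∧ ev g1 m = w1 m := by
  rcases lt_or_ge q 0 with hq | hq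
  · exact ⟨0, 0, GMem.zero, fun m hm => by omega⟩
  lift q to ℕ using hq
  have hz : ∀ (w : ℕ × ℕ → D) (b t : ℤ),
      (∀ m : ℕ × ℕ, ((m.1 + m.2 : ℕ) : ℤ) = q → w m ∈ Ord b t) →
      ∀ m, (if m.1 + m.2 = q then w m else 0) ∈ Ord b t := by
    intro w b t h m
    split_ifs with hm
    · exact h m (by rw [hm])
    · exact zero_mem _
  obtain ⟨g0, h0, e0⟩ := exists_sym (q := q) _ (hz w0 a s fun m hm => (hw m hm).1)
  obtain ⟨g1, h1, e1⟩ := exists_sym (q := q) _ (hz w1 a s fun m hm => (hw m hm).2.1)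
  refine ⟨g0, g1, GMem_of_Fil c a s q g0 g1 h0 h1 (Fil_of_ev (fun m => ?_) fun m hm => ?_),
    fun m hm => ?_⟩
  · rw [ev_comb]
    by_cases hm : m.1 + m.2 = q
    · rw [e0 m hm, e1 m hm, if_pos hm, if_pos hm]
      exact (hw m (by rw [hm])).2.2
    · rw [ev_deg h0 m (by exact_mod_cast hm),
        ev_deg h1 m (by exact_mod_cast hm)]
      simp
  · rw [ev_comb, ev_deg h0 m hm, ev_deg h1 m hm]
    simp
  · have hm' : m.1 + m.2 = q := by exact_mod_cast hm
    rw [e0 m hm', e1 m hm', if_pos hm', if_pos hm']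
    exact ⟨rfl, rfl⟩

theorem exists_colE : ∀ {J k : ℕ} {a s : ℤ} (y : ∀ i : Slot.I J k, Fin (rk (Slot.g J k i)) → D),
    (∀ i, CM (obj (Slot.g J k i)) a s (y i)) → ∃ φ, PosL J k a s φ ∧ colE φ = y
  | 0, 0, a, s, y, h => by
    obtain ⟨F, hF, e⟩ := exists_sym (q := 0) (fun _ => y () (0 : Fin 1))
      (fun _ => ord_cast (h ()) (by simp) (by simp) : ∀ _, _ ∈ Ord a (s - 1))
    exact ⟨fun _ => F, hF, _root_.funext fun i => _root_.funext fun r => by
      obtain rfl : r = (0 : Fin 1) := Subsingleton.elim (α := Fin 1) _ _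
      exact e (0, 0) rfl⟩
  | 0, 1, a, s, y, h => by
    obtain ⟨g0, g1, hg, e⟩ := exists_sym_pair (q := 0) (c := 2) (a := a) (s := s)
      (fun _ => y () (0 : Fin 2)) (fun _ => y () (1 : Fin 2)) fun _ _ => h ()
    refine ⟨![g0, g1], hg, _root_.funext fun i => _root_.funext fun r => ?_⟩
    revert r
    show ∀ r : Fin 2, ev (![g0, g1] r) (0, 0) = y () r
    intro r
    fin_cases r
    · exact (e (0, 0) rfl).1
    · exact (e (0, 0) rfl).2
  | 0, 2, a, s, y, h => by
    choose F hF e using fun l : Fin 2 => exists_sym (q := 0) (fun _ => y l (0 : Fin 1))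
      (fun _ => ord_cast (h l) (by simp) (by simp) : ∀ _, _ ∈ Ord (a - 1) s)
    exact ⟨F, hF, _root_.funext fun i => _root_.funext fun r => by
      obtain rfl : r = (0 : Fin 1) := Subsingleton.elim (α := Fin 1) _ _
      exact e i (0, 0) rfl⟩
  | 0, 3, a, s, y, h => by
    obtain ⟨F, hF, e⟩ := exists_sym (q := 0) (fun _ => y () (0 : Fin 1))
      (fun _ => ord_cast (h ()) (by simp) (by simp) : ∀ _, _ ∈ Ord a (s - 1))
    exact ⟨fun _ => F, hF, _root_.funext fun i => _root_.funext fun r => by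
      obtain rfl : r = (0 : Fin 1) := Subsingleton.elim (α := Fin 1) _ _
      exact e (0, 0) rfl⟩
  | 0, _ + 4, a, s, y, h => ⟨0, trivial, _root_.funext fun i => i.elim⟩
  | _ + 1, 0, a, s, y, h => ⟨0, trivial, _root_.funext fun i => i.elim⟩
  | j + 1, 1, a, s, y, h => by
    let w : ℕ × ℕ → D := fun m => if hm : m.1 < j + 1 then y ⟨m.1, hm⟩ (0 : Fin 1) else 0
    have hw : ∀ m, w m ∈ Ord (a - 2) s := fun m => by
      simp only [w]
      split_ifs with hm
      · exact ord_cast (h ⟨m.1, hm⟩) (by simp) (by simp)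
      · exact zero_mem _
    obtain ⟨F, hF, e⟩ := exists_sym (q := j) w hw
    exact ⟨fun _ => F, hF, _root_.funext fun i => _root_.funext fun r => by
      obtain rfl : r = (0 : Fin 1) := Subsingleton.elim (α := Fin 1) _ _
      exact (e (i.1, j - i.1) (by have := i.2; omega)).trans (dif_pos i.2)⟩
  | j + 1, 2, a, s, y, h => by
    let w : Fin 2 → ℕ × ℕ → D := fun l m =>
      if hm : m.1 < j + 2 then y (.inl (l, ⟨m.1, hm⟩)) (0 : Fin 1) else 0
    have hw : ∀ l m, w l m ∈ Ord (a - 1) s := fun l m => by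
      simp only [w]
      split_ifs with hm
      · exact ord_cast (h (.inl (l, ⟨m.1, hm⟩))) (by simp) (by simp)
      · exact zero_mem _
    choose F hF e using fun l => exists_sym (q := j + 1) (w l) (hw l)
    let v : Fin 2 → ℕ × ℕ → D := fun r m => if hm : m.1 < j then y (.inr ⟨m.1, hm⟩) r else 0
    obtain ⟨g0, g1, hg, eg⟩ := exists_sym_pair (q := (j : ℤ) - 1) (c := 2) (a := a) (s := s)
      (v 0) (v 1) fun m hm => by
        have hl : m.1 < j := by omega
        simp only [v, dif_pos hl]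
        exact h (.inr ⟨m.1, hl⟩)
    refine ⟨Sum.elim F ![g0, g1], ⟨Fil_cast (hF 0) le_rfl rfl (by push_cast; rfl),
      Fil_cast (hF 1) le_rfl rfl (by push_cast; rfl), hg⟩, ?_⟩
    funext i r
    rcases i with ⟨l, i⟩ | i
    · obtain rfl : r = (0 : Fin 1) := Subsingleton.elim (α := Fin 1) _ _
      exact (e l (i.1, j + 1 - i.1) (by have := i.2; omega)).trans (dif_pos i.2)
    · revert r
      show ∀ r : Fin 2, ev (![g0, g1] r) (i.1, j - 1 - i.1) = y (.inr i) r
      intro r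
      have hm : (((i.1 + (j - 1 - i.1)) : ℕ) : ℤ) = (j : ℤ) - 1 := by have := i.2; omega
      fin_cases r
      · exact (eg (i.1, j - 1 - i.1) hm).1.trans (dif_pos i.2)
      · exact (eg (i.1, j - 1 - i.1) hm).2.trans (dif_pos i.2)
  | j + 1, 3, a, s, y, h => by
    let v : Fin 2 → Fin 2 → ℕ × ℕ → D := fun l r m =>
      if hm : m.1 < j + 1 then y (l, ⟨m.1, hm⟩) r else 0
    choose g0 g1 hg eg using fun l => exists_sym_pair (q := (j : ℤ)) (c := 1) (a := a) (s := s)
      (v l 0) (v l 1) fun m hm => by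
        have hl : m.1 < j + 1 := by omega
        simp only [v, dif_pos hl]
        exact h (l, ⟨m.1, hl⟩)
    refine ⟨fun c => ![g0 c.1, g1 c.1] c.2, ⟨hg 0, hg 1⟩, ?_⟩
    funext ⟨l, i⟩ r
    revert r
    show ∀ r : Fin 2, ev (![g0 l, g1 l] r) (i.1, j - i.1) = y (l, i) r
    intro r
    have hm : (((i.1 + (j - i.1)) : ℕ) : ℤ) = (j : ℤ) := by have := i.2; omega
    fin_cases r
    · exact (eg l (i.1, j - i.1) hm).1.trans (dif_pos i.2)
    · exact (eg l (i.1, j - i.1) hm).2.trans (dif_pos i.2)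
  | j + 1, 4, a, s, y, h => by
    let w : ℕ × ℕ → D := fun m => if hm : m.1 < j + 1 then y ⟨m.1, hm⟩ (0 : Fin 1) else 0
    have hw : ∀ m, w m ∈ Ord a s := fun m => by
      simp only [w]
      split_ifs with hm
      · exact ord_cast (h ⟨m.1, hm⟩) (by simp) (by simp)
      · exact zero_mem _
    obtain ⟨F, hF, e⟩ := exists_sym (q := j) w hw
    exact ⟨fun _ => F, hF, _root_.funext fun i => _root_.funext fun r => by
      obtain rfl : r = (0 : Fin 1) := Subsingleton.elim (α := Fin 1) _ _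
      exact (e (i.1, j - i.1) (by have := i.2; omega)).trans (dif_pos i.2)⟩
  | _ + 1, _ + 5, a, s, y, h => ⟨0, trivial, _root_.funext fun i => i.elim⟩

theorem colE_comb {J k : ℕ} (F : Fin 2 → Co J k) (i : Slot.I J k)
    (s : Fin (rk (Slot.g J k i))) :
    colE (comb F) i s = zdot fun r => colE (F r) i s := by
  simp only [colE, comb, map_add, Finsupp.add_apply, ev_rz, zdot_apply]

theorem mem_Hom_line_col {o : Ob} {t : ℤ} {a b : ℕ}
    {T : Matrix (Fin o.rk) (Fin (Ob.line a b).rk) D} :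
    T ∈ Hom t o (.line a b) ↔ CM o a (t + b) fun i => T i (0 : Fin 1) := by
  cases o with
  | line a' s' =>
    rw [mem_Hom_line, mem_line, show -(a' : ℤ) + a = (a : ℤ) - a' by ring,
      show t - (s' : ℤ) + b = t + b - s' by ring]
    rfl
  | pair c =>
    rw [mem_Hom_pair, mem_line, mem_line, mem_line, zero_add,
      show -(c : ℤ) + a = (a : ℤ) - c by ring, show 1 + t + (b : ℤ) = t + b + 1 by ring]
    rfl

theorem mem_Hom_pair_col {o : Ob} {t : ℤ} {c : ℕ}
    {T : Matrix (Fin o.rk) (Fin (Ob.pair c).rk) D} :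
    T ∈ Hom t o (.pair c) ↔ (∀ r : Fin 2, CM o c t fun i => T i r) ∧
      CM o 0 (t + 1) fun i => zdot (T i) := by
  cases o with
  | line a' s' =>
    rw [mem_Hom_line, mem_pair, Fin.forall_fin_two]
    simp only [CM]
    rw [show -(a' : ℤ) + c = (c : ℤ) - a' by ring, show (0 : ℤ) - a' = -a' by ring,
      show t + 1 - (s' : ℤ) = t - s' + 1 by ring]
    exact and_assoc.symm
  | pair c' =>
    rw [mem_Hom_pair, mem_pair, mem_pair, mem_pair, Fin.forall_fin_two]
    simp only [CM]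
    rw [show -(c' : ℤ) + c = (c : ℤ) - c' by ring, show (0 : ℤ) - c' = -c' by ring,
      show 1 + t = t + 1 by ring, zero_add]
    have e : zdot (mlt (X 1) • T (0 : Fin 2) - mlt (X 0) • T (1 : Fin 2)) =
        mlt (X 1) * zdot (T (0 : Fin 2)) - mlt (X 0) * zdot (T (1 : Fin 2)) := by
      simp only [zdot_apply, Pi.sub_apply, Pi.smul_apply, smul_eq_mul, sub_mul, mul_add, mul_assoc]
      abel
    rw [e]
    simp only [Pi.sub_apply, Pi.smul_apply, smul_eq_mul]
    tauto

end Vale.Agent.P195.Gamma.ExactB
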