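import Vale.Agent.P195.Gamma.ExactB.Link

/-!
The cocones of maps into a column are exact, given the symbols of these maps and the exactness
statements on symbols.
-/

namespace Vale.Agent.P195.Gamma.ExactB

open Model

variable {v : Fin 8}

/-- The blocks of the lower level. -/
def lowBlk {J k : ℕ} (y : Slot.LowCo v J k) : Blk v J k := fun i => (y i).1

/-- The blocks of the upper level. -/
def upBlk {J k : ℕ} (y : Slot.UpCo v J k) : Blk v J k := fun i => (y i).1

theorem lowBlk_mem {J k : ℕ} (y : Slot.LowCo v J k) (i : Slot.I J k) :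
    lowBlk y i ∈ Hom 0 (obj (Slot.g J k i)) (obj v) := H0_le _ _ (y i).2

theorem upBlk_mem {J k : ℕ} (y : Slot.UpCo v J k) (i : Slot.I J k) :
    upBlk y i ∈ Hom 1 (obj (Slot.g J k i)) (obj v) := H1_le _ _ (y i).2

theorem low_ext {J k : ℕ} {y y' : Slot.LowCo v J k} (h : lowBlk y = lowBlk y') : y = y' :=
  _root_.funext fun i => Subtype.ext (congrFun h i)

theorem up_ext {J k : ℕ} {y y' : Slot.UpCo v J k} (h : upBlk y = upBlk y') : y = y' :=
  _root_.funext fun i => Subtype.ext (congrFun h i)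

theorem lowBlk_coLow {J k : ℕ} (y : Slot.LowCo v J k) :
    lowBlk (Slot.coLow v J k y) = lmat (Slot.dF J k) v (lowBlk y) :=
  _root_.funext fun i => Slot.coLow_apply v J k y i

theorem upBlk_coUp {J k : ℕ} (y : Slot.UpCo v J k) :
    upBlk (Slot.coUp v J k y) = lmat (Slot.dF J k) v (upBlk y) :=
  _root_.funext fun i => Slot.coUp_apply v J k y i

theorem upBlk_coLink {J k : ℕ} (y : Slot.LowCo v J k) :
    upBlk (Slot.coLink v J k y) = lmat (Slot.fF J k) v (lowBlk y) :=
  _root_.funext fun i => Slot.coLink_apply v J k y i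

/-- The differentials and the links anticommute on maps into a column. -/
theorem coUp_coLink (J k : ℕ) (y : Slot.LowCo v J k) :
    Slot.coUp v (J + 1) k (Slot.coLink v J k y) +
      Slot.coLink v J (k + 1) (Slot.coLow v J k y) = 0 := by
  refine up_ext (_root_.funext fun i₀ => ?_)
  show upBlk (Slot.coUp v (J + 1) k (Slot.coLink v J k y)) i₀ +
    upBlk (Slot.coLink v J (k + 1) (Slot.coLow v J k y)) i₀ = 0
  rw [upBlk_coUp, upBlk_coLink, upBlk_coLink, lowBlk_coLow]
  classical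
  have h := fun i'' => Slot.anti_eq_zero J k (u := Slot.g (J + 1) (k + 1) i₀)
    (fun i => if h : i₀ = i then h ▸ 1 else 0) i''
  simp only [lmat, Matrix.mul_sum, ← Matrix.mul_assoc]
  rw [Finset.sum_comm, Finset.sum_comm (γ := Slot.I J (k + 1)), ← Finset.sum_add_distrib]
  refine Finset.sum_eq_zero fun i'' _ => ?_
  have h' := h i''
  have e : ∀ {K : Type} [Fintype K] {J' k' : ℕ} (hh : Slot.I J' k' = K)
      (Φ : (Slot.C (J + 1) (k + 1) → OpFam) →ₗ[ℚ] (Slot.C J' k' → OpFam)) (i' : Slot.I J' k'),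
      (∑ i, (if h : i₀ = i then h ▸ 1 else 0 : Matrix (Fin (Model.rk (Slot.g (J + 1) (k + 1) i₀)))
          (Fin (Model.rk (Slot.g (J + 1) (k + 1) i))) D) *
        (Slot.shape (J + 1) (k + 1)).mat (Slot.shape J' k') Φ i i') =
      (Slot.shape (J + 1) (k + 1)).mat (Slot.shape J' k') Φ i₀ i' := by
    intro K _ J' k' _ Φ i'
    rw [Finset.sum_eq_single i₀]
    · simp
    · intro i _ hi
      rw [dif_neg (Ne.symm hi), Matrix.zero_mul]
    · intro hh; exact absurd (Finset.mem_univ _) hh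
  simp only [e rfl] at h'
  rw [← Matrix.sum_mul, ← Matrix.sum_mul, ← Matrix.add_mul]
  exact (congrArg (· * lowBlk y i'') ((add_comm _ _).trans h')).trans (Matrix.zero_mul _)

section

variable (B : SymMap v) (S : SymExact (obj v))

/-- Symbols of the lower level. -/
noncomputable def syK (J k : ℕ) (y : Slot.LowCo v J k) : Fin (Model.rk v) → Slot.C J k → S6 :=
  B.sy J k (lowBlk y)

/-- Symbols of the upper level. -/
noncomputable def syX (J k : ℕ) (y : Slot.UpCo v J k) : Fin (Model.rk v) → Slot.C J k → S6 :=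
  B.sy J k (upBlk y)

theorem syK_pos (J k : ℕ) (y : Slot.LowCo v J k) : Pos (obj v) 0 J k (syK B J k y) :=
  B.mem 0 J k _ (lowBlk_mem y)

theorem syX_pos (J k : ℕ) (y : Slot.UpCo v J k) : Pos (obj v) 1 J k (syX B J k y) :=
  B.mem 1 J k _ (upBlk_mem y)

theorem syK_coLow (J k : ℕ) (y : Slot.LowCo v J k) :
    syK B J (k + 1) (Slot.coLow v J k y) = dCol J k (syK B J k y) := by
  show B.sy J (k + 1) _ = _
  rw [lowBlk_coLow]
  exact B.diff 0 J k _ (lowBlk_mem y)

theorem syX_coUp (J k : ℕ) (y : Slot.UpCo v J k) :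
    syX B J (k + 1) (Slot.coUp v J k y) = dCol J k (syX B J k y) := by
  show B.sy J (k + 1) _ = _
  rw [upBlk_coUp]
  exact B.diff 1 J k _ (upBlk_mem y)

theorem syX_top (J : ℕ) (y : Slot.LowCo v (J + 1) 4) :
    syX B (J + 2) 4 (Slot.coLink v (J + 1) 4 y) = topLink J (syK B (J + 1) 4 y) := by
  show B.sy (J + 2) 4 _ = _
  rw [upBlk_coLink]
  exact B.top 0 J _ (lowBlk_mem y)

theorem syX_head (y : Slot.LowCo v 0 3) :
    syX B 1 3 (Slot.coLink v 0 3 y) = headLink (syK B 0 3 y) := by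
  show B.sy 1 3 _ = _
  rw [upBlk_coLink]
  exact B.head 0 _ (lowBlk_mem y)

theorem syX_add (J k : ℕ) (y y' : Slot.UpCo v J k) :
    syX B J k (y + y') = syX B J k y + syX B J k y' :=
  map_add (B.sy J k) (upBlk y) (upBlk y')

theorem syX_neg (J k : ℕ) (y : Slot.UpCo v J k) : syX B J k (-y) = -syX B J k y :=
  map_neg (B.sy J k) (upBlk y)

theorem syK_zero (J k : ℕ) : syK B J k 0 = 0 := map_zero (B.sy J k)

theorem syX_zero (J k : ℕ) : syX B J k 0 = 0 := map_zero (B.sy J k)

theorem syK_inj {J k : ℕ} {y y' : Slot.LowCo v J k} (h : syK B J k y = syK B J k y') : y = y' := by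
  refine low_ext (sub_eq_zero.1 (B.inj 0 J k _ (fun i => ?_) ?_))
  · exact sub_mem (lowBlk_mem y i) (lowBlk_mem y' i)
  · rw [map_sub]; exact sub_eq_zero.2 h

theorem syX_inj {J k : ℕ} {y y' : Slot.UpCo v J k} (h : syX B J k y = syX B J k y') : y = y' := by
  refine up_ext (sub_eq_zero.1 (B.inj 1 J k _ (fun i => ?_) ?_))
  · exact sub_mem (upBlk_mem y i) (upBlk_mem y' i)
  · rw [map_sub]; exact sub_eq_zero.2 h

theorem lift_head (hv : ¬isA v) {k : ℕ} {F} (h : Pos (obj v) 0 0 k F) :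
    ∃ y : Slot.LowCo v 0 k, syK B 0 k y = F := by
  obtain ⟨y, hy, rfl⟩ := B.lift 0 0 k F h
  exact ⟨fun i => ⟨y i, by rw [H0_eq (Or.inr hv)]; exact hy i⟩, rfl⟩

theorem lift_low {J k : ℕ} {F} (h : Pos (obj v) 0 (J + 1) k F) :
    ∃ y : Slot.LowCo v (J + 1) k, syK B (J + 1) k y = F := by
  obtain ⟨y, hy, rfl⟩ := B.lift 0 (J + 1) k F h
  exact ⟨fun i => ⟨y i, by rw [H0_eq (Or.inl (Slot.isA_succ J k i))]; exact hy i⟩, rfl⟩

theorem lift_up {J k : ℕ} {F} (h : Pos (obj v) 1 (J + 1) k F) :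
    ∃ y : Slot.UpCo v (J + 1) k, syX B (J + 1) k y = F := by
  obtain ⟨y, hy, rfl⟩ := B.lift 1 (J + 1) k F h
  exact ⟨fun i => ⟨y i, by rw [H1_eq (Slot.isA_succ J k i)]; exact hy i⟩, rfl⟩

theorem low_head_eq_zero (hv : isA v) {k : ℕ} (y : Slot.LowCo v 0 k) : y = 0 :=
  _root_.funext fun i => Subtype.ext
    ((Submodule.mem_bot ℚ).1 (H0_bot (Slot.not_isA_zero k i) hv ▸ (y i).2))

theorem up_head_eq_zero {k : ℕ} (y : Slot.UpCo v 0 k) : y = 0 :=
  _root_.funext fun i => Subtype.ext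
    ((Submodule.mem_bot ℚ).1 (H1_bot (Slot.not_isA_zero k i) ▸ (y i).2))

theorem obj_ne_line_one (hv : isA v) (a : ℕ) : obj v ≠ .line a 1 := by
  revert hv
  fin_cases v <;> simp [obj]

include B S

/-- Lifting of cycles of the lower level in degree two. -/
theorem low_two (J : ℕ) (b : Slot.LowCo v J 2) (hb : Slot.coLow v J 2 b = 0) :
    ∃ b' : Slot.LowCo v J 1, Slot.coLow v J 1 b' = b := by
  have hd : dCol J 2 (syK B J 2 b) = 0 := by rw [← syK_coLow, hb, syK_zero]
  rcases J with _ | J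
  · by_cases hv : isA v
    · exact ⟨0, by rw [map_zero, low_head_eq_zero hv b]⟩
    · obtain ⟨G, hG, e⟩ := S.head_two _ (syK_pos B 0 2 b) hd
      obtain ⟨y, rfl⟩ := lift_head B hv hG
      exact ⟨y, syK_inj B (by rw [syK_coLow, e])⟩
  · obtain ⟨G, hG, e⟩ := S.two 0 (Or.inl rfl) J _ (syK_pos B (J + 1) 2 b) hd
    obtain ⟨y, rfl⟩ := lift_low B hG
    exact ⟨y, syK_inj B (by rw [syK_coLow, e])⟩

/-- Lifting of cycles of the lower level in degree three. -/
theorem low_three (J : ℕ) (b : Slot.LowCo v J 3) (c : Slot.UpCo v (J + 1) 2)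
    (hb : Slot.coLow v J 3 b = 0) (hc : Slot.coUp v (J + 1) 2 c + Slot.coLink v J 3 b = 0) :
    ∃ b' : Slot.LowCo v J 2, Slot.coLow v J 2 b' = b := by
  rcases J with _ | J
  · by_cases hv : isA v
    · exact ⟨0, by rw [map_zero, low_head_eq_zero hv b]⟩
    · have hd : dCol 1 2 (syX B 1 2 (-c)) = headLink (syK B 0 3 b) := by
        rw [← syX_coUp, ← syX_head]
        exact congrArg _ ((map_neg (Slot.coUp v 1 2) c).trans (eq_neg_of_add_eq_zero_right hc).symm)
      obtain ⟨H, hH, e⟩ := S.head_three _ _ (syK_pos B 0 3 b) (syX_pos B 1 2 _) hd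
      obtain ⟨y, rfl⟩ := lift_head B hv hH
      exact ⟨y, syK_inj B (by rw [syK_coLow, e])⟩
  · have hd : dCol (J + 1) 3 (syK B (J + 1) 3 b) = 0 := by rw [← syK_coLow, hb, syK_zero]
    obtain ⟨G, hG, e⟩ := S.three 0 (Or.inl rfl) J (Or.inr rfl) _ (syK_pos B (J + 1) 3 b) hd
    obtain ⟨y, rfl⟩ := lift_low B hG
    exact ⟨y, syK_inj B (by rw [syK_coLow, e])⟩

theorem up_cycle_one (J : ℕ) (d : Slot.UpCo v (J + 1) 1) (h : Slot.coUp v (J + 1) 1 d = 0) :
    d = 0 :=
  syX_inj B (by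
    rw [syX_zero]
    exact S.one 1 (Or.inr rfl) J _ (syX_pos B _ _ d) (by rw [← syX_coUp, h, syX_zero]))

theorem up_cycle_two (J : ℕ) (d : Slot.UpCo v (J + 1) 2) (h : Slot.coUp v (J + 1) 2 d = 0) :
    ∃ c', Slot.coUp v (J + 1) 1 c' = d := by
  obtain ⟨G, hG, e⟩ := S.two 1 (Or.inr rfl) J _ (syX_pos B _ _ d) (by rw [← syX_coUp, h, syX_zero])
  obtain ⟨y, rfl⟩ := lift_up B hG
  exact ⟨y, syX_inj B (by rw [syX_coUp, e])⟩

theorem up_cycle_three (J : ℕ) (d : Slot.UpCo v (J + 2) 3) (h : Slot.coUp v (J + 2) 3 d = 0) :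
    ∃ c', Slot.coUp v (J + 2) 2 c' = d := by
  obtain ⟨G, hG, e⟩ :=
    S.three 1 (Or.inr rfl) (J + 1) (Or.inl (by omega)) _ (syX_pos B _ _ d)
      (by rw [← syX_coUp, h, syX_zero])
  obtain ⟨y, rfl⟩ := lift_up B hG
  exact ⟨y, syX_inj B (by rw [syX_coUp, e])⟩

omit B S in
/-- Correcting the upper component by the link of a preimage gives a cycle. -/
theorem residue (J k : ℕ) {b : Slot.LowCo v J (k + 1)} {c : Slot.UpCo v (J + 1) k}
    (hc : Slot.coUp v (J + 1) k c + Slot.coLink v J (k + 1) b = 0) {b' : Slot.LowCo v J k}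
    (e : Slot.coLow v J k b' = b) :
    Slot.coUp v (J + 1) k (c - Slot.coLink v J k b') = 0 := by
  have h := coUp_coLink J k b'
  rw [e] at h
  refine (map_sub (Slot.coUp v (J + 1) k) c _).trans ?_
  refine (congrArg (Slot.coUp v (J + 1) k c - ·) (eq_neg_of_add_eq_zero_left h)).trans ?_
  exact (sub_neg_eq_add _ _).trans hc

/-- The cocones of maps into a column are exact. -/
theorem coconeExact :
    Total.CoconeExact (K := Slot.LowCo v) (X := Slot.UpCo v) (Slot.coLow v) (Slot.coUp v)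
      (Slot.coLink v) where
  bot J b hb _ := by
    rcases J with _ | J
    · refine syK_inj B ?_
      rw [syK_zero]
      exact S.head_zero _ (syK_pos B 0 0 b) (by rw [← syK_coLow, hb, syK_zero])
    · exact _root_.funext fun i => i.elim
  low J b c hb _ := by
    have hd : dCol J 1 (syK B J 1 b) = 0 := by rw [← syK_coLow, hb, syK_zero]
    rcases J with _ | J
    · by_cases hv : isA v
      · exact ⟨0, by rw [map_zero, low_head_eq_zero hv b], _root_.funext fun i => i.elim⟩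
      · obtain ⟨G, hG, e⟩ := S.head_one _ (syK_pos B 0 1 b) hd
        obtain ⟨y, rfl⟩ := lift_head B hv hG
        exact ⟨y, syK_inj B (by rw [syK_coLow, e]), _root_.funext fun i => i.elim⟩
    · refine ⟨0, ?_, _root_.funext fun i => i.elim⟩
      rw [map_zero]
      refine syK_inj B ?_
      rw [syK_zero, S.one 0 (Or.inl rfl) J _ (syK_pos B _ _ b) hd]
  high J k b c hb hc := by
    match k, b, c, hb, hc with
    | 0, b, c, hb, hc =>
      obtain ⟨b', e⟩ := low_two B S J b hb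
      refine ⟨b', 0, e, ?_⟩
      refine (congrArg (· + _) (map_zero (Slot.coUp v (J + 1) 0))).trans ((zero_add _).trans ?_)
      exact (sub_eq_zero.1 (up_cycle_one B S J _ (residue J 1 hc e))).symm
    | 1, b, c, hb, hc =>
      obtain ⟨b', e⟩ := low_three B S J b c hb hc
      obtain ⟨c', e'⟩ := up_cycle_two B S J _ (residue J 2 hc e)
      exact ⟨b', c', e, (congrArg (· + _) e').trans (sub_add_cancel (G := Slot.UpCo v (J + 1) 2) c _)⟩
    | 2, b, c, hb, hc =>
      rcases J with _ | J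
      · have hb0 : b = 0 := _root_.funext fun i => i.elim
        rw [hb0, map_zero, add_zero] at hc
        obtain ⟨G, b₀, hG, hb₀, e, hcl⟩ :=
          S.three_class _ (syX_pos B 1 3 c) (by rw [← syX_coUp, hc, syX_zero])
        obtain ⟨g', rfl⟩ := lift_up B hG
        obtain ⟨b', eb⟩ : ∃ b' : Slot.LowCo v 0 3, syK B 0 3 b' = b₀ := by
          by_cases hv : isA v
          · exact ⟨0, by rw [syK_zero, hcl (obj_ne_line_one hv)]⟩
          · exact lift_head B hv hb₀
        refine ⟨b', g', _root_.funext fun i => i.elim, syX_inj B ?_⟩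
        rw [syX_add, syX_coUp, syX_head, eb, e]
      · have hd : dCol (J + 2) 3 (syX B (J + 2) 3 (-c)) = topLink J (syK B (J + 1) 4 b) := by
          rw [← syX_coUp, ← syX_top]
          exact congrArg _ ((map_neg (Slot.coUp v (J + 2) 3) c).trans (eq_neg_of_add_eq_zero_right hc).symm)
        obtain ⟨x', hx', e⟩ := S.top_inj J _ _ (syK_pos B (J + 1) 4 b) (syX_pos B _ _ _) hd
        obtain ⟨b', rfl⟩ := lift_low B hx'
        have e' : Slot.coLow v (J + 1) 3 b' = b := syK_inj B (by rw [syK_coLow, e])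
        obtain ⟨c', ec⟩ := up_cycle_three B S J _ (residue (J + 1) 3 hc e')
        exact ⟨b', c', e', (congrArg (· + _) ec).trans (sub_add_cancel (G := Slot.UpCo v (J + 2) 3) c _)⟩
    | 3, b, c, _, _ =>
      rcases J with _ | J
      · obtain ⟨x, hx, e⟩ := S.onto _ (syX_pos B 1 4 c)
        obtain ⟨c', rfl⟩ := lift_up B hx
        refine ⟨0, c', _root_.funext fun i => i.elim, syX_inj B ?_⟩
        rw [map_zero, add_zero, syX_coUp, e]
      · obtain ⟨θ, x, hθ, hx, e⟩ := S.top_surj J _ (syX_pos B (J + 2) 4 c)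
        obtain ⟨c', rfl⟩ := lift_up B hx
        obtain ⟨b', rfl⟩ := lift_low B hθ
        refine ⟨b', c', _root_.funext fun i => i.elim, syX_inj B ?_⟩
        rw [syX_add, syX_coUp, syX_top, e]
    | k + 4, b, c, _, _ =>
      refine ⟨0, 0, ?_, _root_.funext fun i => i.elim⟩
      rcases J with _ | J <;> exact _root_.funext fun i => i.elim
  row k c _ := ⟨0, by rw [map_zero, up_head_eq_zero c]⟩

end

end Vale.Agent.P195.Gamma.ExactB
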