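import Vale.Agent.P195.Gamma.ExactB.Base

/-!
The head complex into a line, on symbols.
-/

namespace Vale.Agent.P195.Gamma.ExactB

open MvPolynomial

theorem X_mul_cancel {C C' : ℤ → ℤ → ℤ → Prop} {F : S6} (k : Fin 6) (h : X k * F ∈ Sup C)
    (hh : ∀ e m q, C (e + wx k) (m + wz k) (q + wp k) → C' e m q) : F ∈ Sup C' := by
  classical
  refine mem_Sup_iff.2 fun d hd => ?_
  have hd' : Finsupp.single k 1 + d ∈ (X k * F).support := by
    rw [support_X_mul]
    exact Finset.mem_map.2 ⟨d, hd, rfl⟩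
  have h' := mem_Sup_iff.1 h _ hd'
  obtain ⟨h1, h2, h3⟩ := dg_add_single d k
  rw [h1, h2, h3] at h'
  exact hh _ _ _ h'

theorem X_Lay_cancel {e m q : ℤ} {F : S6} (k : Fin 6) (h : X k * F ∈ Lay e m q) :
    F ∈ Lay (e - wx k) (m - wz k) (q - wp k) :=
  X_mul_cancel k h fun _ _ _ hh => ⟨by omega, by omega, by omega⟩

theorem z_multiple {G0 G1 : S6} (h : z1 * G0 - z0 * G1 = 0) :
    ∃ R, G0 = z0 * R ∧ G1 = z1 * R := by
  have hd : (z0 : S6) ∣ z1 * G0 := ⟨G1, by linear_combination h⟩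
  rcases (X_prime (i := (0 : Fin 6))).dvd_or_dvd hd with hbad | ⟨R, rfl⟩
  · exact absurd (X_dvd_X.1 hbad) (by decide)
  · refine ⟨R, rfl, mul_left_cancel₀ (X_ne_zero (0 : Fin 6)) ?_⟩
    linear_combination -h

theorem L0_sub (F G : S6) : L0 (F - G) = L0 F - L0 G := by
  simp only [L0, dz0, map_sub]; ring

theorem L1_sub (F G : S6) : L1 (F - G) = L1 F - L1 G := by
  simp only [L1, dz1, map_sub]; ring

theorem L0_add (F G : S6) : L0 (F + G) = L0 F + L0 G := by
  simp only [L0, dz0, map_add]; ring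

theorem L1_add (F G : S6) : L1 (F + G) = L1 F + L1 G := by
  simp only [L1, dz1, map_add]; ring

theorem L1_L0 (F : S6) : L1 (L0 F) = L0 (L1 F) := by
  simp only [L0, L1, dz0, dz1, x0, x1, map_add, pderiv_mul, pderiv_X_of_ne
    (show (2 : Fin 6) ≠ 1 by decide), pderiv_X_of_ne (show (3 : Fin 6) ≠ 0 by decide),
    pd_comm (1 : Fin 6) 0]
  ring

/-- The derivatives have no kernel. -/
theorem L1_inj {s q : ℤ} (n : ℕ) : ∀ {F : S6}, F ∈ Fil ((n : ℤ) - 1) s q → L1 F = 0 → F = 0 := by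
  induction n with
  | zero => exact fun hF _ => Fil_zero_of_neg hF (Or.inl (by simp))
  | succ n ih =>
    intro F hF h
    obtain ⟨T, hT, F', hF', e⟩ := Fil_split hF
    have hlow : dz1 T + L1 F' ∈ Fil (n : ℤ) (s - 1) q :=
      add_mem (Fil_cast (dz1_Fil (Lay_le_Fil hT le_rfl rfl)) (by simp) rfl rfl)
        (Fil_cast (L1_Fil hF') (by simp) rfl rfl)
    have hx : x1 * T = -(dz1 T + L1 F') := by
      rw [e, L1_add] at h
      simp only [L1] at h ⊢
      linear_combination h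
    have h0 : x1 * T = 0 :=
      Lay_Fil_disjoint (X_mul_Lay 3 hT) (hx ▸ neg_mem hlow) (by simp [wx])
    have hT0 : T = 0 := (mul_eq_zero.1 h0).resolve_left (X_ne_zero _)
    rw [e, hT0, zero_add] at h ⊢
    exact ih (Fil_cast hF' (by simp) rfl rfl) h

/-- Relations between the derivatives are Koszul. -/
theorem L_koszul {s q : ℤ} (n : ℕ) : ∀ {H0 H1 : S6}, H0 ∈ Fil ((n : ℤ) - 1) s q →
    H1 ∈ Fil ((n : ℤ) - 1) s q → L0 H0 + L1 H1 = 0 →
    ∃ E ∈ Fil ((n : ℤ) - 2) (s + 1) q, H0 = L1 E ∧ H1 = -L0 E := by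
  induction n with
  | zero =>
    exact fun h0 h1 _ => ⟨0, zero_mem _, by simp [Fil_zero_of_neg h0 (Or.inl (by simp)), L1],
      by simp [Fil_zero_of_neg h1 (Or.inl (by simp)), L0]⟩
  | succ n ih =>
    intro H0 H1 h0 h1 h
    obtain ⟨A, hA, A', hA', e0⟩ := Fil_split h0
    obtain ⟨B, hB, B', hB', e1⟩ := Fil_split h1
    have hlow : dz0 A + dz1 B + L0 A' + L1 B' ∈ Fil (n : ℤ) (s - 1) q :=
      add_mem (add_mem (add_mem (Fil_cast (dz0_Fil (Lay_le_Fil hA le_rfl rfl)) (by simp) rfl rfl)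
        (Fil_cast (dz1_Fil (Lay_le_Fil hB le_rfl rfl)) (by simp) rfl rfl))
        (Fil_cast (L0_Fil hA') (by simp) rfl rfl)) (Fil_cast (L1_Fil hB') (by simp) rfl rfl)
    have hxy : x0 * A + x1 * B = -(dz0 A + dz1 B + L0 A' + L1 B') := by
      rw [e0, e1, L0_add, L1_add] at h
      simp only [L0, L1] at h ⊢
      linear_combination h
    have hk : x0 * A + x1 * B = 0 :=
      Lay_Fil_disjoint (add_mem (X_mul_Lay 2 hA)
          (Lay_cast (X_mul_Lay 3 hB) (by simp [wx]) (by simp [wz]) (by simp [wp])))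
        (hxy ▸ neg_mem hlow) (by simp [wx])
    obtain ⟨kA, kB⟩ := x_koszul hA hB hk
    have hne : ((((n + 1 : ℕ) : ℤ) - 1) + 1) ≠ 0 := by simp; omega
    obtain ⟨E0, hE0, eE0⟩ := exists_int_div hne (sub_mem
      (Lay_cast (pderiv_Lay 3 hA) (by simp [wx]) rfl rfl)
      (Lay_cast (pderiv_Lay 2 hB) (by simp [wx]) (by simp [wz]) (by simp [wp])) :
      dx1 A - dx0 B ∈ Lay ((n : ℤ) - 1) (((n + 1 : ℕ) : ℤ) - 1 + s - wz 3) (q - wp 3))
    have eA : A = x1 * E0 := by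
      refine int_cancel hne ?_
      rw [kA]
      linear_combination -x1 * eE0
    have eB : B = -(x0 * E0) := by
      refine int_cancel hne ?_
      rw [kB]
      linear_combination x0 * eE0
    have hE : E0 ∈ Fil ((n : ℤ) - 1) (s + 1) q :=
      Fil_cast (Lay_le_Fil hE0 le_rfl (show _ = (n : ℤ) - 1 + (s + 1) by simp [wz]))
        le_rfl rfl (by simp [wp])
    obtain ⟨E, hE', r0, r1⟩ := ih (H0 := H0 - L1 E0) (H1 := H1 + L0 E0)
      (by
        rw [e0, eA]
        simp only [L1]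
        rw [show x1 * E0 + A' - (x1 * E0 + dz1 E0) = A' - dz1 E0 by ring]
        exact sub_mem (Fil_cast hA' (by simp) rfl rfl) (Fil_cast (dz1_Fil hE) le_rfl (by ring) rfl))
      (by
        rw [e1, eB]
        simp only [L0]
        rw [show -(x0 * E0) + B' + (x0 * E0 + dz0 E0) = B' + dz0 E0 by ring]
        exact add_mem (Fil_cast hB' (by simp) rfl rfl) (Fil_cast (dz0_Fil hE) le_rfl (by ring) rfl))
      (by rw [L0_sub, L1_add, L1_L0]; linear_combination h)
    refine ⟨E + E0, add_mem (Fil_cast hE' (by push_cast; omega) rfl rfl) (Fil_cast hE (by push_cast; omega) rfl rfl),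
      ?_, ?_⟩
    · rw [L1_add]; linear_combination r0
    · rw [L0_add]; linear_combination r1

/-- Every symbol of positive weight is a determinant. -/
theorem det_onto {s q : ℤ} (hs : 0 ≤ s) (n : ℕ) : ∀ {F : S6}, F ∈ Fil ((n : ℤ) - 1) (s + 1) q →
    ∃ P0 P1 : S6, P0 ∈ Fil ((n : ℤ) - 1) s q ∧ P1 ∈ Fil ((n : ℤ) - 1) s q ∧
      F = z1 * P0 - z0 * P1 := by
  induction n with
  | zero =>
    exact fun hF => ⟨0, 0, zero_mem _, zero_mem _, by
      simp [Fil_zero_of_neg hF (Or.inl (by simp))]⟩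
  | succ n ih =>
    intro F hF
    obtain ⟨T, hT, F', hF', e⟩ := Fil_split hF
    obtain ⟨P0, P1, h0, h1, eP⟩ := exists_rows hT (Or.inl (by push_cast; omega))
    obtain ⟨R0, R1, g0, g1, eR⟩ := ih (Fil_cast hF' (by simp) rfl rfl)
    refine ⟨P0 + R0, P1 + R1, add_mem (Lay_le_Fil h0 le_rfl (by ring)) (Fil_cast g0 (by simp) rfl rfl),
      add_mem (Lay_le_Fil h1 le_rfl (by ring)) (Fil_cast g1 (by simp) rfl rfl), ?_⟩
    rw [e, eR, ← eP]
    ring

/-- Splitting off the part of order zero by the derivatives. -/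
theorem L_split {s q : ℤ} (n : ℕ) : ∀ {F : S6}, F ∈ Fil (n : ℤ) (s - 1) q →
    ∃ H0 H1 K : S6, H0 ∈ Fil ((n : ℤ) - 1) s q ∧ H1 ∈ Fil ((n : ℤ) - 1) s q ∧
      K ∈ Fil 0 (s - 1) q ∧ F = L0 H0 + L1 H1 + K := by
  induction n with
  | zero =>
    intro F hF
    exact ⟨0, 0, F, zero_mem _, zero_mem _, Fil_cast hF (by simp) rfl rfl, by simp [L0, L1]⟩
  | succ n ih =>
    intro F hF
    obtain ⟨T, hT, F', hF', e⟩ := Fil_split hF
    have hne : (((n + 1 : ℕ) : ℤ)) ≠ 0 := by simp; omega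
    obtain ⟨A, hA, eA⟩ := exists_int_div hne (pderiv_Lay 2 hT)
    obtain ⟨B, hB, eB⟩ := exists_int_div hne (pderiv_Lay 3 hT)
    have gA : A ∈ Fil (n : ℤ) s q :=
      Fil_cast (Lay_le_Fil hA le_rfl (show _ = ((n + 1 : ℕ) : ℤ) - wx 2 + s by
        simp [wx, wz])) (by simp [wx]) rfl (by simp [wp])
    have gB : B ∈ Fil (n : ℤ) s q :=
      Fil_cast (Lay_le_Fil hB le_rfl (show _ = ((n + 1 : ℕ) : ℤ) - wx 3 + s by
        simp [wx, wz])) (by simp [wx]) rfl (by simp [wp])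
    have eT : T = x0 * A + x1 * B := by
      refine int_cancel hne ?_
      have hE := (Lay_euler hT).2.1
      simp only [dx0, dx1] at hE
      linear_combination -hE - x0 * eA - x1 * eB
    obtain ⟨R0, R1, K, g0, g1, gK, eR⟩ := ih (F := F' - dz0 A - dz1 B)
      (sub_mem (sub_mem (Fil_cast hF' (by simp) rfl rfl) (dz0_Fil gA)) (dz1_Fil gB))
    refine ⟨A + R0, B + R1, K, add_mem (Fil_cast gA (by simp) rfl rfl) (Fil_cast g0 (by simp) rfl rfl),
      add_mem (Fil_cast gB (by simp) rfl rfl) (Fil_cast g1 (by simp) rfl rfl), gK, ?_⟩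
    rw [L0_add, L1_add]
    simp only [L0, L1] at eR ⊢
    linear_combination e + eT + eR

end Vale.Agent.P195.Gamma.ExactB
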