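import Vale.Agent.P195.Gamma.ExactB.Target
import Vale.Agent.P195.Gamma.ExactB.HeadLine

/-!
The exactness statements at the line objects.
-/

namespace Vale.Agent.P195.Gamma.ExactB

open MvPolynomial

/-- With weight at least one the first complex has nothing at its last term. -/
theorem top_zero {s : ℤ} (hs : 1 ≤ s) (n : ℕ) {η : S6} (hη : η ∈ Fil n s 0) :
    ∃ x, M2 n s 0 x ∧ d2 0 x = η := by
  obtain ⟨x, hx, he⟩ := reduce_three 0 (by omega) n (Fil_cast hη le_rfl rfl (by simp))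
  have hl := Fil0_Lay he
  have hOm : Om (η - d2 0 x) = 0 := Lay_zero_of_neg (Om_Lay hl) (Or.inr (Or.inr (by simp)))
  have key := del_eps_Lay hl
  rw [hOm, mul_zero, add_zero] at key
  have hN : s * (((0 : ℕ) : ℤ) + 1) ≠ 0 := mul_ne_zero (by omega) (by simp)
  obtain ⟨Λ, hΛ, eΛ⟩ := exists_int_div hN (eps_Lay hl)
  have hsplit : η - d2 0 x = del Λ := by
    refine int_cancel hN ?_
    rw [← key, ← eΛ, del_int]
  obtain ⟨x', hx', ex'⟩ := base_image (s := s) 0 (Lay_le_Fil hΛ le_rfl (by ring))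
  refine ⟨x - ((0 : Co2) - x'), hx.sub (M2.zero.sub (hx'.mono (by omega))), ?_⟩
  rw [d2_sub, d2_sub, show d2 0 0 = 0 by simp [d2, del, L0, L1], ex']
  linear_combination -hsplit

theorem C_mem_Fil (r : ℚ) (n : ℕ) : C r ∈ Fil (n : ℤ) 0 0 :=
  monomial_mem_Sup r (by simp [dgx, dgz, dgp])

theorem kapS_zero : kapS 0 = 0 := by ext1 <;> simp [kapS]

theorem kapS_mem (r : ℚ) : M2 0 2 0 (kapS r) := by
  have hC : C r ∈ Fil 0 0 0 := by simpa using C_mem_Fil r 0
  refine ⟨⟨0, 0, z0 * C r, zero_mem _, zero_mem _, Fil_cast (z0_Fil hC) (by omega) rfl rfl, ?_, ?_⟩,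
    ⟨0, 0, z1 * C r, zero_mem _, zero_mem _, Fil_cast (z1_Fil hC) (by omega) rfl rfl, ?_, ?_⟩⟩
  all_goals simp [kapS, kap]; ring

/-- The class is not a boundary. -/
theorem kap_not_bd (n : ℕ) {r : ℚ} {y : Co1} (hy : M1 n 2 0 y) (h : d1 0 y = kapS r) : r = 0 := by
  obtain ⟨f, hf, he⟩ := reduce_one 0 (by norm_num) n hy (h ▸ kapS_mem r)
  obtain ⟨Q, hQ, eQ⟩ := M1_base he
  have hQ0 : Q = 0 := Fil_zero_of_neg hQ (Or.inr (by simp))
  have h' := congrArg (d1 0) eQ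
  rw [d1_sub, d1_d0_mem hf, h, hQ0, d1_base] at h'
  have h0 := congrArg Co2.a0 h'
  simpa [kapS, kap] using h0

theorem toCo1_ofCo1 (x : Co1) : toCo1 (ofCo1 x) = x := rfl
theorem toCo2_ofCo2 (x : Co2) : toCo2 (ofCo2 x) = x := rfl

theorem ofCo1_toCo1 (x : Fin 2 ⊕ Fin 2 → S6) : ofCo1 (toCo1 x) = x := by
  funext c; rcases c with l | l <;> fin_cases l <;> rfl

theorem ofCo2_toCo2 (x : Fin 2 × Fin 2 → S6) : ofCo2 (toCo2 x) = x := by
  funext ⟨l, r⟩; fin_cases l <;> fin_cases r <;> rfl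

theorem ofCo1_zero : ofCo1 0 = 0 := by funext c; rcases c with l | l <;> fin_cases l <;> rfl
theorem ofCo2_zero : ofCo2 0 = 0 := by funext ⟨l, r⟩; fin_cases l <;> fin_cases r <;> rfl

theorem co2_zero_of {x : Fin 2 × Fin 2 → S6} {y : Co2} (h : ofCo2 y = x) : y = toCo2 x := by
  rw [← h, toCo2_ofCo2]

/-- The link of a constant at the end of the head. -/
theorem toCo2_link (r : ℚ) : toCo2 (fun p => zS p.2 * zS p.1 * C r) = kapS (-r) := by
  ext1 <;> simp [toCo2, zS, kapS, kap] <;> ring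

/-- The end of the head is linked to a coboundary. -/
theorem d1_piv_head {a s : ℤ} {H0 H1 : S6} (h0 : H0 ∈ Fil a s 0) (h1 : H1 ∈ Fil a s 0) :
    d1 0 ⟨piv * H0, piv * H1, 0, 0⟩ =
      toCo2 (fun p => -(zS p.2 * zS p.1 * (L0 H0 + L1 H1))) := by
  have hp : ∀ {F : S6}, F ∈ Fil a s 0 → pderiv 4 F = 0 ∧ pderiv 5 F = 0 := fun hF =>
    ⟨Fil_zero_of_neg (dp0_Fil hF) (Or.inr (by simp)), Fil_zero_of_neg (dp1_Fil hF) (Or.inr (by simp))⟩
  obtain ⟨a4, a5⟩ := hp h0
  obtain ⟨b4, b5⟩ := hp h1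
  have hcc := cc_mul 0
  simp only [Nat.cast_zero, zero_add, one_mul] at hcc
  ext1 <;>
    simp [d1, toCo2, zS, D0r, D1r, L0, L1, piv, hcc, map_add, pderiv_mul, pderiv_C, rules6,
      a4, a5, b4, b5] <;> ring

variable {a s : ℕ}

theorem line_ext {J k : ℕ} {F G : Fin (Model.Ob.line a s).rk → Slot.C J k → S6}
    (h : F (0 : Fin 1) = G (0 : Fin 1)) : F = G :=
  funext fun i => by
    obtain rfl : i = (0 : Fin 1) := Subsingleton.elim (α := Fin 1) _ _
    exact h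

theorem wt_nonneg {t : ℤ} (ht : t = 0 ∨ t = 1) : 0 ≤ t + (s : ℤ) := by
  rcases ht with rfl | rfl <;> omega

/-- The exactness statements at a line of weight at most one. -/
theorem symExact_line (hs : s ≤ 1) : SymExact (.line a s) where
  one t ht J F hF h := by
    refine line_ext (funext fun _ => ?_)
    refine exact_zero J a hF ?_
    rw [← toCo1_ofCo1 (d0 J _)]
    exact congrArg toCo1 (congrFun h (0 : Fin 1))
  two t ht J F hF h := by
    have h' : d1 J (toCo1 (F (0 : Fin 1))) = 0 := by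
      rw [← toCo2_ofCo2 (d1 J _)]
      exact congrArg toCo2 (congrFun h (0 : Fin 1))
    obtain ⟨f, hf, e⟩ := exact_one J (wt_nonneg ht) a hF h'
    refine ⟨fun _ _ => f, hf, line_ext ?_⟩
    show ofCo1 (d0 J f) = _
    rw [e, ofCo1_toCo1]
  three t ht J hJ F hF h := by
    obtain ⟨y, r, hy, e, hr⟩ := exact_two J (wt_nonneg ht)
      (show t + (s : ℤ) ≤ 2 by rcases ht with rfl | rfl <;> omega) a hF
      (congrFun (congrFun h (0 : Fin 1)) ())
    rw [hr (hJ.imp_right fun h0 => by omega), kapS_zero] at e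
    refine ⟨fun _ => ofCo1 y, hy, line_ext ?_⟩
    show ofCo2 (d1 J (toCo1 (ofCo1 y))) = _
    rw [toCo1_ofCo1, ← ofCo2_toCo2 (F (0 : Fin 1))]
    congr 1
    ext1
    · have := congrArg Co2.a0 e; simp at this; linear_combination -this
    · have := congrArg Co2.a1 e; simp at this; linear_combination -this
    · have := congrArg Co2.b0 e; simp at this; linear_combination -this
    · have := congrArg Co2.b1 e; simp at this; linear_combination -this
  three_class F hF h := by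
    obtain ⟨y, r, hy, e, hr⟩ := exact_two 0 (show 0 ≤ (1 : ℤ) + s by omega) (by omega) a hF
      (congrFun (congrFun h (0 : Fin 1)) ())
    have hb : ((∀ a', Model.Ob.line a s ≠ .line a' 1) → r = 0) := fun hne => hr (Or.inr (by
      have : s ≠ 1 := fun h1 => hne a (by rw [h1])
      omega))
    refine ⟨fun _ => ofCo1 y, fun _ _ => C (-r), hy, ?_, line_ext ?_, fun hne => ?_⟩
    · show C (-r) ∈ Fil (a : ℤ) (0 + (s : ℤ) - 1) 0
      rcases Nat.eq_zero_or_pos s with h0 | h1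
      · rw [hr (Or.inr (by omega)), neg_zero, map_zero]; exact zero_mem _
      · exact Fil_cast (C_mem_Fil (-r) a) le_rfl (by omega) rfl
    · show ofCo2 (d1 0 (toCo1 (ofCo1 y))) + (fun p => zS p.2 * zS p.1 * C (-r)) = _
      rw [toCo1_ofCo1, ← ofCo2_toCo2 (fun p => zS p.2 * zS p.1 * C (-r)), toCo2_link, neg_neg,
        ← ofCo2_toCo2 (F (0 : Fin 1))]
      funext ⟨l, u⟩
      have a0 := congrArg Co2.a0 e
      have a1 := congrArg Co2.a1 e
      have b0 := congrArg Co2.b0 e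
      have b1 := congrArg Co2.b1 e
      simp only [Co2.sub_a0, Co2.sub_a1, Co2.sub_b0, Co2.sub_b1] at a0 a1 b0 b1
      fin_cases l <;> fin_cases u <;> simp [ofCo2]
      · linear_combination -a0
      · linear_combination -a1
      · linear_combination -b0
      · linear_combination -b1
    · exact line_ext (funext fun _ => by
        show C (-r) = 0
        rw [hb hne, neg_zero, map_zero])
  onto η hη := by
    obtain ⟨x, hx, e⟩ := top_zero (show 1 ≤ (1 : ℤ) + s by omega) a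
      (Fil_cast hη le_rfl rfl (by simp) : η (0 : Fin 1) () ∈ Fil (a : ℤ) (1 + (s : ℤ)) 0)
    refine ⟨fun _ => ofCo2 x, hx, line_ext (funext fun _ => ?_)⟩
    exact e
  top_surj J η hη := by
    obtain ⟨θ, x, hθ, hx, e⟩ := top_surj J (show 0 ≤ (s : ℤ) by omega) a
      (Fil_cast hη le_rfl (by ring) (by push_cast; rfl) :
        η (0 : Fin 1) () ∈ Fil (a : ℤ) ((s : ℤ) + 1) ((J : ℤ) + 1))
    refine ⟨fun _ _ => θ, fun _ => ofCo2 x,
      (Fil_cast hθ le_rfl (by ring) rfl : θ ∈ Fil (a : ℤ) (0 + (s : ℤ)) J), ?_,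
      line_ext (funext fun _ => ?_)⟩
    · show M2 a (1 + (s : ℤ)) (J + 1) x
      rwa [add_comm]
    · show d2 (J + 1) x + piv * θ = _
      rw [e, add_comm]
  top_inj J θ x hθ hx h := by
    have hθ' : θ (0 : Fin 1) () ∈ Fil (a : ℤ) (s : ℤ) J := Fil_cast hθ le_rfl (by ring) rfl
    have hx' : M2 (a : ℤ) ((s : ℤ) + 1) (J + 1) (toCo2 (x (0 : Fin 1))) := by
      have : M2 (a : ℤ) (1 + (s : ℤ)) (J + 1) (toCo2 (x (0 : Fin 1))) := hx
      rwa [add_comm] at this
    obtain ⟨x', hx'', e⟩ := top_inj J (show 0 ≤ (s : ℤ) by omega) a hθ' hx'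
      (congrFun (congrFun h (0 : Fin 1)) ()).symm
    refine ⟨fun _ => ofCo2 x', ?_, line_ext (funext fun _ => e)⟩
    show M2 a (0 + (s : ℤ)) J x'
    rwa [zero_add]
  head_zero F hF h := by
    refine line_ext (funext fun _ => ?_)
    have : zS 0 * F (0 : Fin 1) () = 0 := congrFun (congrFun h (0 : Fin 1)) (0 : Fin 2)
    exact (mul_eq_zero.1 this).resolve_left (X_ne_zero _)
  head_one F hF h := by
    have hg : GMem 2 (a : ℤ) (0 + (s : ℤ)) 0 (F (0 : Fin 1) (0 : Fin 2)) (F (0 : Fin 1) 1) := hF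
    have hL : L1 (z1 * F (0 : Fin 1) (0 : Fin 2) - z0 * F (0 : Fin 1) 1) = 0 :=
      congrFun (congrFun h (0 : Fin 1)) (0 : Fin 2)
    obtain ⟨P0, P1, Q, h0, h1, hQ, e0, e1⟩ := hg
    have hE : z1 * F (0 : Fin 1) (0 : Fin 2) - z0 * F (0 : Fin 1) 1 ∈
        Fil (((a + 1 : ℕ) : ℤ) - 1) (0 + (s : ℤ) + 1) 0 := by
      rw [show z1 * F (0 : Fin 1) (0 : Fin 2) - z0 * F (0 : Fin 1) 1 = z1 * P0 - z0 * P1 by
        rw [e0, e1]; ring]
      exact Fil_cast (sub_mem (z1_Fil h0) (z0_Fil h1)) (by simp) rfl rfl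
    obtain ⟨R, eR0, eR1⟩ := z_multiple (L1_inj (a + 1) hE hL)
    have hR : R ∈ Fil (a : ℤ) (0 + (s : ℤ) - 1) 0 := by
      refine X_mul_cancel (C := fun e m q => e ≤ (a : ℤ) ∧ m = e + (0 + (s : ℤ)) ∧ q = 0) 0 ?_ ?_
      · have hm : P0 - z0 * Q ∈ Fil (a : ℤ) (0 + (s : ℤ)) 0 :=
          sub_mem (Fil_cast h0 (by omega) rfl rfl) (Fil_cast (z0_Fil hQ) le_rfl (by ring) rfl)
        rw [← e0, eR0] at hm
        exact hm
      · intro e m q hh
        simp [wx, wz, wp] at hh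
        omega
    refine ⟨fun _ _ => R, hR, line_ext (funext fun r => ?_)⟩
    fin_cases r
    · exact eR0.symm
    · exact eR1.symm
  head_two F hF h := by
    have hh : ∀ l, F (0 : Fin 1) l ∈ Fil ((a : ℤ) - 1) (0 + (s : ℤ)) 0 := hF
    obtain ⟨E, hE, r0, r1⟩ := L_koszul a (hh 0) (hh 1) (congrFun (congrFun h (0 : Fin 1)) ())
    obtain ⟨P0, P1, g0, g1, eP⟩ : ∃ P0 P1 : S6, P0 ∈ Fil ((a : ℤ) - 2) (0 + (s : ℤ)) 0 ∧
        P1 ∈ Fil ((a : ℤ) - 2) (0 + (s : ℤ)) 0 ∧ E = z1 * P0 - z0 * P1 := by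
      rcases Nat.eq_zero_or_pos a with ha | ha
      · exact ⟨0, 0, zero_mem _, zero_mem _, by
          simp [Fil_zero_of_neg hE (Or.inl (by omega))]⟩
      · obtain ⟨P0, P1, g0, g1, eP⟩ := det_onto (show 0 ≤ 0 + (s : ℤ) by omega) (a - 1)
          (Fil_cast hE (by omega) rfl rfl : E ∈ Fil (((a - 1 : ℕ) : ℤ) - 1) (0 + (s : ℤ) + 1) 0)
        exact ⟨P0, P1, Fil_cast g0 (by omega) rfl rfl, Fil_cast g1 (by omega) rfl rfl, eP⟩
    refine ⟨fun _ => ![P0, P1], ⟨P0, P1, 0, g0, g1, zero_mem _, by simp, by simp⟩,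
      line_ext (funext fun r => ?_)⟩
    fin_cases r
    · show L1 (z1 * P0 - z0 * P1) = _
      rw [← eP]; exact r0.symm
    · show -L0 (z1 * P0 - z0 * P1) = _
      rw [← eP]; exact r1.symm
  head_three b c hb hc h := by
    have hb' : b (0 : Fin 1) () ∈ Fil (a : ℤ) ((s : ℤ) - 1) 0 := Fil_cast hb le_rfl (by ring) rfl
    obtain ⟨H0, H1, K, h0, h1, hK, eK⟩ := L_split a hb'
    have key : ∃ r : ℚ, K = C r ∧ (s = 0 → r = 0) := by
      rcases Nat.eq_zero_or_pos s with h0s | h1s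
      · refine ⟨0, ?_, fun _ => rfl⟩
        rw [map_zero]
        exact Lay_zero_of_neg (Fil0_Lay hK) (Or.inr (Or.inl (by omega)))
      · obtain ⟨r, hr⟩ := Lay000 (Lay_cast (Fil0_Lay hK) rfl (by omega) rfl)
        exact ⟨r, hr, fun h => absurd h (by omega)⟩
    obtain ⟨r, hr, hr0⟩ := key
    have hr' : r = 0 := by
      rcases Nat.eq_zero_or_pos s with h0s | h1s
      · exact hr0 h0s
      have hs2 : (1 : ℤ) + (s : ℤ) = 2 := by omega
      have hc' : M1 (a : ℤ) 2 0 (toCo1 (c (0 : Fin 1))) := by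
        have : M1 (a : ℤ) (1 + (s : ℤ)) 0 (toCo1 (c (0 : Fin 1))) := hc
        rwa [hs2] at this
      have e1 : d1 0 (toCo1 (c (0 : Fin 1))) =
          toCo2 (fun p => zS p.2 * zS p.1 * b (0 : Fin 1) ()) := by
        rw [← toCo2_ofCo2 (d1 0 _)]
        exact congrArg toCo2 (congrFun h (0 : Fin 1))
      have hy : M1 (a : ℤ) 2 0 ⟨piv * H0, piv * H1, 0, 0⟩ :=
        ⟨Fil_cast (piv_Fil h0) le_rfl (by omega) (by simp),
          Fil_cast (piv_Fil h1) le_rfl (by omega) (by simp), GMem.zero⟩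
      have e2 : d1 0 (toCo1 (c (0 : Fin 1)) - (0 - ⟨piv * H0, piv * H1, 0, 0⟩)) = kapS (-r) := by
        rw [d1_sub, d1_sub, d1_zero, d1_piv_head h0 h1, e1, ← toCo2_link r]
        ext1 <;> simp [toCo2, eK, hr] <;> ring
      have := kap_not_bd a (hc'.sub (M1.zero.sub hy)) e2
      linarith
    refine ⟨fun _ => ![H0, H1], fun l => ?_, line_ext (funext fun _ => ?_)⟩
    · fin_cases l
      · exact Fil_cast h0 le_rfl (by ring) rfl
      · exact Fil_cast h1 le_rfl (by ring) rfl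
    · show L0 H0 + L1 H1 = _
      rw [eK, hr, hr', map_zero, add_zero]

end Vale.Agent.P195.Gamma.ExactB
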