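import Vale.Agent.P195.Gamma.ExactB.Target

/-!
Operations on the symbols of maps out of the slots: differences, memberships, the combination of two
columns by the coordinates and the splitting of a symbol by this combination.
-/

namespace Vale.Agent.P195.Gamma.ExactB

open MvPolynomial

/-! ### Right multiplication by a coordinate -/

theorem rz_zero_eq (F : S6) : rz 0 F = z0 * F + dx0 F := by simp [rz, zS]

theorem rz_one_eq (F : S6) : rz 1 F = z1 * F + dx1 F := by simp [rz, zS]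

theorem rz_sub (l : Fin 2) (F G : S6) : rz l (F - G) = rz l F - rz l G := by
  fin_cases l <;> simp [rz_zero_eq, rz_one_eq] <;> ring

theorem rz_add (l : Fin 2) (F G : S6) : rz l (F + G) = rz l F + rz l G := by
  fin_cases l <;> simp [rz_zero_eq, rz_one_eq] <;> ring

theorem rz_neg (l : Fin 2) (F : S6) : rz l (-F) = -rz l F := by
  fin_cases l <;> simp [rz_zero_eq, rz_one_eq] <;> ring

theorem rz_zero (l : Fin 2) : rz l 0 = 0 := by
  fin_cases l <;> simp [rz_zero_eq, rz_one_eq]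

theorem rz_mul_of_dx (l : Fin 2) {c : S6} (h0 : pderiv 2 c = 0) (h1 : pderiv 3 c = 0) (F : S6) :
    rz l (c * F) = c * rz l F := by
  fin_cases l <;> simp [rz_zero_eq, rz_one_eq, dx0, dx1, h0, h1] <;> ring

theorem rz_z0 (l : Fin 2) (F : S6) : rz l (z0 * F) = z0 * rz l F :=
  rz_mul_of_dx l (pderiv_X_of_ne (by decide)) (pderiv_X_of_ne (by decide)) F

theorem rz_z1 (l : Fin 2) (F : S6) : rz l (z1 * F) = z1 * rz l F :=
  rz_mul_of_dx l (pderiv_X_of_ne (by decide)) (pderiv_X_of_ne (by decide)) F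

theorem rz_zS (l r : Fin 2) (F : S6) : rz l (zS r * F) = zS r * rz l F := by
  fin_cases r
  · exact rz_z0 l F
  · exact rz_z1 l F

theorem rz_p0 (l : Fin 2) (F : S6) : rz l (p0 * F) = p0 * rz l F :=
  rz_mul_of_dx l (pderiv_X_of_ne (by decide)) (pderiv_X_of_ne (by decide)) F

theorem rz_p1 (l : Fin 2) (F : S6) : rz l (p1 * F) = p1 * rz l F :=
  rz_mul_of_dx l (pderiv_X_of_ne (by decide)) (pderiv_X_of_ne (by decide)) F

theorem rz_piv (l : Fin 2) (F : S6) : rz l (piv * F) = piv * rz l F := by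
  refine rz_mul_of_dx l ?_ ?_ F <;> simp [piv]

theorem rz_cc (l : Fin 2) (j : ℕ) (F : S6) : rz l (cc j * F) = cc j * rz l F :=
  rz_mul_of_dx l (pderiv_cc 2 j) (pderiv_cc 3 j) F

theorem rz_two (l : Fin 2) (j : ℕ) (F : S6) :
    rz l (((j : S6) + 2) * F) = ((j : S6) + 2) * rz l F := by
  rw [show ((j : S6) + 2) = MvPolynomial.C ((j : ℚ) + 2) by simp [map_ofNat]]
  exact rz_mul_of_dx l pderiv_C pderiv_C F

theorem rz_dp0 (l : Fin 2) (F : S6) : rz l (dp0 F) = dp0 (rz l F) := by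
  fin_cases l <;> simp [rz_zero_eq, rz_one_eq, dx0, dx1, dp0,
    pd_comm (4 : Fin 6) 2, pd_comm (4 : Fin 6) 3]

theorem rz_dp1 (l : Fin 2) (F : S6) : rz l (dp1 F) = dp1 (rz l F) := by
  fin_cases l <;> simp [rz_zero_eq, rz_one_eq, dx0, dx1, dp1,
    pd_comm (5 : Fin 6) 2, pd_comm (5 : Fin 6) 3]

theorem rz_L0 (l : Fin 2) (F : S6) : rz l (L0 F) = L0 (rz l F) := by
  fin_cases l <;> simp [rz_zero_eq, rz_one_eq, L0, dx0, dx1, dz0,
    pd_comm (2 : Fin 6) 0, pd_comm (3 : Fin 6) 0] <;> ring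

theorem rz_L1 (l : Fin 2) (F : S6) : rz l (L1 F) = L1 (rz l F) := by
  fin_cases l <;> simp [rz_zero_eq, rz_one_eq, L1, dx0, dx1, dz1,
    pd_comm (2 : Fin 6) 1, pd_comm (3 : Fin 6) 1] <;> ring

theorem rz_del (l : Fin 2) (F : S6) : rz l (del F) = del (rz l F) := by
  simp only [del, rz_sub, rz_z0, rz_z1, rz_dp0, rz_dp1]

theorem rz_Fil {a s q : ℤ} {F : S6} (l : Fin 2) (hF : F ∈ Fil a s q) :
    rz l F ∈ Fil a (s + 1) q := by
  fin_cases l <;> simp only [Fin.zero_eta, Fin.mk_one, rz_zero_eq, rz_one_eq]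
  · exact add_mem (z0_Fil hF)
      (Fil_cast (pderiv_Fil 2 hF) (by simp [wx]) (by simp [wz, wx]) (by simp [wp]))
  · exact add_mem (z1_Fil hF)
      (Fil_cast (pderiv_Fil 3 hF) (by simp [wx]) (by simp [wz, wx]) (by simp [wp]))

theorem rz_GMem {n a s q : ℤ} {g0 g1 : S6} (l : Fin 2) (hg : GMem n a s q g0 g1) :
    GMem n a (s + 1) q (rz l g0) (rz l g1) := by
  obtain ⟨P0, P1, Q, h0, h1, hQ, rfl, rfl⟩ := hg
  exact ⟨rz l P0, rz l P1, rz l Q, rz_Fil l h0, rz_Fil l h1,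
    Fil_cast (rz_Fil l hQ) le_rfl (by ring) rfl, by rw [rz_sub, rz_z0], by rw [rz_sub, rz_z1]⟩

/-! ### Linearity of the dual differentials -/

theorem toCo1_sub (x y : Fin 2 ⊕ Fin 2 → S6) : toCo1 (x - y) = toCo1 x - toCo1 y := rfl

theorem toCo2_sub (x y : Fin 2 × Fin 2 → S6) : toCo2 (x - y) = toCo2 x - toCo2 y := rfl

theorem toCo1_ofCo1 (x : Co1) : toCo1 (ofCo1 x) = x := rfl

theorem toCo2_ofCo2 (x : Co2) : toCo2 (ofCo2 x) = x := rfl

theorem delta_sub : ∀ (J k : ℕ) (x y : Slot.C J k → S6),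
    delta J k (x - y) = delta J k x - delta J k y := by
  intro J k x y
  match J, k, x, y with
  | 0, 0, x, y =>
    funext r
    simp [delta, mul_sub]
  | 0, 1, x, y =>
    funext r
    fin_cases r <;> simp [delta, L0, L1] <;> ring
  | 0, 2, x, y =>
    funext r
    simp [delta, L0, L1]; ring
  | 0, k + 3, x, y => simp [delta]
  | _ + 1, 0, x, y => simp [delta]
  | j + 1, 1, x, y =>
    funext c
    rcases c with l | l <;> fin_cases l <;> simp [delta, ofCo1, d0_sub]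
  | j + 1, 2, x, y =>
    funext ⟨l, r⟩
    fin_cases l <;> fin_cases r <;> simp [delta, ofCo2, toCo1_sub, d1_sub]
  | j + 1, 3, x, y =>
    funext c
    simp [delta, toCo2_sub, d2_sub]
  | _ + 1, k + 4, x, y => simp [delta]

theorem delta_zero (J k : ℕ) : delta J k 0 = 0 := by
  have h := delta_sub J k 0 0
  rw [sub_zero, sub_self] at h
  exact h

theorem delta_neg (J k : ℕ) (x : Slot.C J k → S6) : delta J k (-x) = -delta J k x := by
  rw [← zero_sub, delta_sub, delta_zero, zero_sub]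

theorem delta_add (J k : ℕ) (x y : Slot.C J k → S6) :
    delta J k (x + y) = delta J k x + delta J k y := by
  rw [← sub_neg_eq_add x, delta_sub, delta_neg, sub_neg_eq_add]

/-! ### The spaces -/

theorem posL_zero : ∀ (J k : ℕ) (a s : ℤ), PosL J k a s 0 := by
  intro J k a s
  match J, k with
  | 0, 0 | 0, 3 => exact zero_mem (Fil _ _ _)
  | 0, 1 => exact GMem.zero
  | 0, 2 => exact fun _ => zero_mem (Fil _ _ _)
  | 0, _ + 4 => trivial
  | _ + 1, 0 => trivial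
  | _ + 1, 1 => exact zero_mem (Fil _ _ _)
  | _ + 1, 2 => exact M1.zero
  | _ + 1, 3 => exact M2.zero
  | _ + 1, 4 => exact zero_mem (Fil _ _ _)
  | _ + 1, _ + 5 => trivial

theorem posL_sub : ∀ {J k : ℕ} {a s : ℤ} {x y : Slot.C J k → S6}, PosL J k a s x →
    PosL J k a s y → PosL J k a s (x - y) := by
  intro J k a s x y hx hy
  match J, k, x, y, hx, hy with
  | 0, 0, x, y, hx, hy =>
    show (x - y) () ∈ Fil a (s - 1) 0
    rw [Pi.sub_apply]; exact sub_mem hx hy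
  | 0, 1, x, y, hx, hy =>
    show GMem 2 a s 0 ((x - y) 0) ((x - y) 1)
    rw [Pi.sub_apply, Pi.sub_apply]; exact GMem.sub hx hy
  | 0, 2, x, y, hx, hy =>
    intro l
    rw [Pi.sub_apply]; exact sub_mem (hx l) (hy l)
  | 0, 3, x, y, hx, hy =>
    show (x - y) () ∈ Fil a (s - 1) 0
    rw [Pi.sub_apply]; exact sub_mem hx hy
  | 0, _ + 4, x, y, _, _ => trivial
  | _ + 1, 0, x, y, _, _ => trivial
  | j + 1, 1, x, y, hx, hy =>
    show (x - y) () ∈ Fil (a - 2) s j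
    rw [Pi.sub_apply]; exact sub_mem hx hy
  | _ + 1, 2, x, y, hx, hy =>
    show M1 _ _ _ (toCo1 (x - y))
    rw [toCo1_sub]; exact M1.sub hx hy
  | _ + 1, 3, x, y, hx, hy =>
    show M2 _ _ _ (toCo2 (x - y))
    rw [toCo2_sub]; exact M2.sub hx hy
  | j + 1, 4, x, y, hx, hy =>
    show (x - y) () ∈ Fil a s j
    rw [Pi.sub_apply]; exact sub_mem hx hy
  | _ + 1, _ + 5, x, y, _, _ => trivial

theorem posL_neg {J k : ℕ} {a s : ℤ} {x : Slot.C J k → S6} (hx : PosL J k a s x) :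
    PosL J k a s (-x) := by
  simpa using posL_sub (posL_zero J k a s) hx

theorem posL_add {J k : ℕ} {a s : ℤ} {x y : Slot.C J k → S6} (hx : PosL J k a s x)
    (hy : PosL J k a s y) : PosL J k a s (x + y) := by
  simpa using posL_sub hx (posL_neg hy)

theorem posL_mono : ∀ {J k : ℕ} {a a' s : ℤ} {x : Slot.C J k → S6}, PosL J k a s x → a ≤ a' →
    PosL J k a' s x
  | 0, 0, _, _, _, _, hx, h => Fil_cast hx h rfl rfl
  | 0, 1, _, _, _, _, hx, h => GMem.mono hx h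
  | 0, 2, _, _, _, _, hx, h => fun l => Fil_cast (hx l) (by omega) rfl rfl
  | 0, 3, _, _, _, _, hx, h => Fil_cast hx h rfl rfl
  | 0, _ + 4, _, _, _, _, _, _ => trivial
  | _ + 1, 0, _, _, _, _, _, _ => trivial
  | _ + 1, 1, _, _, _, _, hx, h => Fil_cast hx (by omega) rfl rfl
  | _ + 1, 2, _, _, _, _, hx, h => M1.mono hx h
  | _ + 1, 3, _, _, _, _, hx, h => M2.mono hx h
  | _ + 1, 4, _, _, _, _, hx, h => Fil_cast hx h rfl rfl
  | _ + 1, _ + 5, _, _, _, _, _, _ => trivial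

theorem delta_mem : ∀ {J k : ℕ} {a s : ℤ} {x : Slot.C J k → S6}, PosL J k a s x →
    PosL J (k + 1) a s (delta J k x) := by
  intro J k a s x hx
  match J, k, x, hx with
  | 0, 0, x, hx =>
    change x () ∈ Fil a (s - 1) 0 at hx
    refine ⟨0, 0, -x (), zero_mem _, zero_mem _, neg_mem hx, ?_, ?_⟩ <;> simp [delta, zS]
  | 0, 1, x, hx =>
    obtain ⟨P0, P1, Q, h0, h1, -, e0, e1⟩ := hx
    have hχ : z1 * x 0 - z0 * x 1 ∈ Fil (a - 2) (s + 1) 0 := by
      rw [show z1 * x 0 - z0 * x 1 = z1 * P0 - z0 * P1 by rw [e0, e1]; ring]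
      exact sub_mem (z1_Fil h0) (z0_Fil h1)
    intro l
    fin_cases l
    · exact Fil_cast (L1_Fil hχ) (by omega) (by ring) rfl
    · exact neg_mem (Fil_cast (L0_Fil hχ) (by omega) (by ring) rfl : _ ∈ Fil (a - 1) s 0)
  | 0, 2, x, hx =>
    exact add_mem (s := Fil _ _ _) (Fil_cast (L0_Fil (hx 0)) (by omega) rfl rfl)
      (Fil_cast (L1_Fil (hx 1)) (by omega) rfl rfl)
  | 0, k + 3, x, _ => trivial
  | _ + 1, 0, x, _ => exact posL_zero _ _ _ _
  | j + 1, 1, x, hx => exact d0_mem hx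
  | j + 1, 2, x, hx => exact d1_mem hx
  | j + 1, 3, x, hx => exact d2_mem hx
  | _ + 1, k + 4, x, _ => trivial

theorem delta_delta : ∀ {J k : ℕ} {a s : ℤ} {x : Slot.C J k → S6}, PosL J k a s x →
    delta J (k + 1) (delta J k x) = 0 := by
  intro J k a s x hx
  match J, k, x, hx with
  | 0, 0, x, _ =>
    funext r
    fin_cases r <;> simp [delta, zS, mul_left_comm, L0, L1]
  | 0, 1, x, _ =>
    funext r
    simp only [delta]
    simp only [Matrix.cons_val_zero, Matrix.cons_val_one, Pi.zero_apply]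
    simp [L0, L1, dz0, dz1, rules6]
    ring
  | 0, k + 2, x, _ => funext c; simp [delta]
  | _ + 1, 0, x, _ => exact delta_zero _ _
  | j + 1, 1, x, hx =>
    funext ⟨l, r⟩
    fin_cases l <;> fin_cases r <;> simp [delta, ofCo2, toCo1_ofCo1, d1_d0_mem hx]
  | j + 1, 2, x, hx =>
    funext c
    simp [delta, toCo2_ofCo2, d2_d1_mem hx]
  | j + 1, k + 3, x, _ => funext c; simp [delta]

/-! ### The combination of two columns -/

theorem comb_apply {C : Type} (F : Fin 2 → C → S6) (c : C) :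
    comb F c = rz 0 (F 0 c) + rz 1 (F 1 c) := rfl

theorem comb_add {C : Type} (F G : Fin 2 → C → S6) : comb (F + G) = comb F + comb G := by
  funext c
  simp only [comb_apply, Pi.add_apply, rz_add]
  abel

theorem comb_sub {C : Type} (F G : Fin 2 → C → S6) : comb (F - G) = comb F - comb G := by
  funext c
  simp only [comb_apply, Pi.sub_apply, rz_sub]
  abel

theorem comb_neg {C : Type} (F : Fin 2 → C → S6) : comb (-F) = -comb F := by
  funext c
  simp only [comb_apply, Pi.neg_apply, rz_neg]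
  abel

theorem comb_zero {C : Type} : comb (0 : Fin 2 → C → S6) = 0 := by
  funext c
  simp [comb_apply, rz_zero]

theorem delta_rz : ∀ (J k : ℕ) (l : Fin 2) (x : Slot.C J k → S6),
    delta J k (fun c => rz l (x c)) = fun c => rz l (delta J k x c) := by
  intro J k l x
  match J, k, x with
  | 0, 0, x => funext r; simp only [delta, rz_zS]
  | 0, 1, x =>
    funext r
    fin_cases r <;> simp [delta, rz_sub, rz_neg, rz_z0, rz_z1, rz_L0, rz_L1]
  | 0, 2, x =>
    funext r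
    simp [delta, rz_add, rz_L0, rz_L1]
  | 0, k + 3, x => funext c; simp [delta, rz_zero]
  | _ + 1, 0, x => funext c; simp [delta, rz_zero]
  | j + 1, 1, x =>
    funext c
    rcases c with r | r <;> fin_cases r <;>
      simp [delta, ofCo1, d0, rz_sub, rz_add, rz_cc, rz_L0, rz_L1, rz_piv, rz_p0, rz_p1,
        rz_z0, rz_z1, rz_dp0, rz_dp1]
  | j + 1, 2, x =>
    funext ⟨r, r'⟩
    fin_cases r <;> fin_cases r' <;>
      simp [delta, ofCo2, toCo1, d1, D0r, D1r, rz_sub, rz_add, rz_neg, rz_cc, rz_L0, rz_L1, rz_piv,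
        rz_p0, rz_p1, rz_z0, rz_z1, rz_dp0, rz_dp1]
  | j + 1, 3, x =>
    funext c
    simp [delta, toCo2, d2, rz_sub, rz_add, rz_cc, rz_two, rz_L0, rz_L1, rz_piv, rz_p0, rz_p1,
      rz_dp0, rz_dp1, rz_del]
  | _ + 1, k + 4, x => funext c; simp [delta, rz_zero]

theorem comb_delta (J k : ℕ) (F : Fin 2 → Slot.C J k → S6) :
    comb (fun i => delta J k (F i)) = delta J k (comb F) := by
  rw [show comb F = (fun c => rz 0 (F 0 c)) + fun c => rz 1 (F 1 c) from rfl, delta_add, delta_rz,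
    delta_rz]
  rfl

theorem comb_dCol (J k : ℕ) (F : Fin 2 → Slot.C J k → S6) :
    comb (dCol J k F) = delta J k (comb F) :=
  comb_delta J k F

theorem comb_topLink (J : ℕ) (F : Fin 2 → Slot.C (J + 1) 4 → S6) (i : Fin 1) :
    comb (topLink J F) = topLink J (fun _ : Fin 1 => comb F) i := by
  funext c
  simp [comb_apply, topLink, rz_piv, mul_add]

theorem comb_headLink (F : Fin 2 → Slot.C 0 3 → S6) (i : Fin 1) :
    comb (headLink F) = headLink (fun _ : Fin 1 => comb F) i := by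
  funext c
  simp [comb_apply, headLink, mul_assoc, rz_zS, mul_add]

theorem posL_rz : ∀ {J k : ℕ} {a s : ℤ} {x : Slot.C J k → S6} (l : Fin 2), PosL J k a s x →
    PosL J k a (s + 1) (fun c => rz l (x c))
  | 0, 0, _, _, _, l, hx => Fil_cast (rz_Fil l hx) le_rfl (by ring) rfl
  | 0, 1, _, _, _, l, hx => rz_GMem l hx
  | 0, 2, _, _, _, l, hx => fun r => rz_Fil l (hx r)
  | 0, 3, _, _, _, l, hx => Fil_cast (rz_Fil l hx) le_rfl (by ring) rfl
  | 0, _ + 4, _, _, _, _, _ => trivial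
  | _ + 1, 0, _, _, _, _, _ => trivial
  | _ + 1, 1, _, _, _, l, hx => rz_Fil l hx
  | _ + 1, 2, _, _, _, l, hx => ⟨rz_Fil l hx.1, rz_Fil l hx.2.1, rz_GMem l hx.2.2⟩
  | _ + 1, 3, _, _, _, l, hx => ⟨rz_GMem l hx.1, rz_GMem l hx.2⟩
  | _ + 1, 4, _, _, _, l, hx => rz_Fil l hx
  | _ + 1, _ + 5, _, _, _, _, _ => trivial

theorem posL_comb {J k : ℕ} {a s : ℤ} {G : Fin 2 → Slot.C J k → S6}
    (h : ∀ i, PosL J k a s (G i)) : PosL J k a (s + 1) (comb G) :=
  posL_add (posL_rz 0 (h 0)) (posL_rz 1 (h 1))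

/-! ### The two links -/

theorem topLink_mem {J n : ℕ} {a s : ℤ} {F : Fin n → Slot.C (J + 1) 4 → S6} {i : Fin n}
    (h : PosL (J + 1) 4 a s (F i)) : PosL (J + 2) 4 a (s + 1) (topLink J F i) := by
  show piv * F i () ∈ Fil a (s + 1) ((J + 1 : ℕ) : ℤ)
  exact Fil_cast (piv_Fil h) le_rfl rfl (by push_cast; ring)

theorem headLink_mem {n : ℕ} {a s : ℤ} {F : Fin n → Slot.C 0 3 → S6} {i : Fin n}
    (h : PosL 0 3 a s (F i)) : PosL 1 3 a (s + 1) (headLink F i) := by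
  change F i () ∈ Fil a (s - 1) 0 at h
  refine ⟨⟨0, 0, -(z0 * F i ()), zero_mem _, zero_mem _,
      neg_mem (Fil_cast (z0_Fil h) le_rfl (by ring) (by simp)), ?_, ?_⟩,
    ⟨0, 0, -(z1 * F i ()), zero_mem _, zero_mem _,
      neg_mem (Fil_cast (z1_Fil h) le_rfl (by ring) (by simp)), ?_, ?_⟩⟩ <;>
    simp [toCo2, headLink, zS] <;> ring

theorem delta_headLink {n : ℕ} {a s : ℤ} {F : Fin n → Slot.C 0 3 → S6} {i : Fin n}
    (h : PosL 0 3 a s (F i)) : delta 1 3 (headLink F i) = 0 := by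
  change F i () ∈ Fil a (s - 1) 0 at h
  have h0 : dp0 (F i ()) = 0 := Fil_zero_of_neg (dp0_Fil h) (Or.inr (by norm_num))
  have h1 : dp1 (F i ()) = 0 := Fil_zero_of_neg (dp1_Fil h) (Or.inr (by norm_num))
  have e : toCo2 (headLink F i) =
      ⟨z0 * (z0 * F i ()), z1 * (z0 * F i ()), z0 * (z1 * F i ()), z1 * (z1 * F i ())⟩ := by
    ext1 <;> simp [toCo2, headLink, zS] <;> ring
  funext c
  show d2 0 (toCo2 (headLink F i)) = 0
  rw [e, d2_zQ 0 (Fil_euler (Fil_cast (z0_Fil h) le_rfl rfl (by simp)))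
    (Fil_euler (Fil_cast (z1_Fil h) le_rfl rfl (by simp)))]
  rw [show p0 * (z0 * F i ()) + p1 * (z1 * F i ()) = piv * F i () by simp only [piv]; ring,
    del_mul_piv]
  simp [del, h0, h1]

theorem dCol_headLink {n : ℕ} {a s : ℤ} {F : Fin n → Slot.C 0 3 → S6}
    (h : ∀ i, PosL 0 3 a s (F i)) : dCol 1 3 (headLink F) = 0 :=
  funext fun i => delta_headLink (h i)

/-! ### Splitting by the combination -/

/-- A symbol is a combination by the coordinates up to order `b`, if weights above `b` are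
positive. -/
theorem Fil_split_rz {b σ q : ℤ} (hb : 0 < b + σ + 2) : ∀ (m : ℕ) {a : ℤ}, a ≤ b + m →
    ∀ {F : S6}, F ∈ Fil a (σ + 1) q → ∃ G0 ∈ Fil a σ q, ∃ G1 ∈ Fil a σ q,
      ∃ E ∈ Fil b (σ + 1) q, F = rz 0 G0 + rz 1 G1 + E := by
  intro m
  induction m with
  | zero =>
    intro a ha F hF
    exact ⟨0, zero_mem _, 0, zero_mem _, F, Fil_cast hF (by simpa using ha) rfl rfl,
      by simp [rz_zero]⟩
  | succ m ih =>
    intro a ha F hF
    by_cases hab : a ≤ b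
    · exact ⟨0, zero_mem _, 0, zero_mem _, F, Fil_cast hF hab rfl rfl, by simp [rz_zero]⟩
    obtain ⟨T, hT, F', hF', rfl⟩ := Fil_split hF
    have hn : a + (σ + 1) ≠ 0 := by omega
    obtain ⟨T0, hT0, e0⟩ := exists_int_div hn
      (Lay_cast (pderiv_Lay 0 hT) (by simp [wx] : _ = a) (by simp [wz]; ring : _ = a + σ)
        (by simp [wp] : _ = q))
    obtain ⟨T1, hT1, e1⟩ := exists_int_div hn
      (Lay_cast (pderiv_Lay 1 hT) (by simp [wx] : _ = a) (by simp [wz]; ring : _ = a + σ)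
        (by simp [wp] : _ = q))
    have eT : T = z0 * T0 + z1 * T1 := by
      refine int_cancel hn ?_
      rw [← (Lay_euler hT).1]
      simp only [dz0, dz1, ← e0, ← e1]
      ring
    have h0 : T0 ∈ Fil a σ q := Lay_le_Fil hT0 le_rfl rfl
    have h1 : T1 ∈ Fil a σ q := Lay_le_Fil hT1 le_rfl rfl
    have hrest : F' - dx0 T0 - dx1 T1 ∈ Fil (a - 1) (σ + 1) q :=
      sub_mem (sub_mem hF'
        (Fil_cast (pderiv_Fil 2 h0) (by simp [wx]) (by simp [wz, wx]) (by simp [wp])))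
        (Fil_cast (pderiv_Fil 3 h1) (by simp [wx]) (by simp [wz, wx]) (by simp [wp]))
    obtain ⟨G0, g0, G1, g1, E, hE, eq⟩ := ih (by push_cast at ha; omega) hrest
    refine ⟨T0 + G0, add_mem h0 (Fil_cast g0 (by omega) rfl rfl), T1 + G1,
      add_mem h1 (Fil_cast g1 (by omega) rfl rfl), E, hE, ?_⟩
    rw [rz_add, rz_add, rz_zero_eq T0, rz_one_eq T1]
    linear_combination eq + eT

/-- Splitting a symbol of positive weight. -/
theorem Fil_rz_exact {a σ q : ℤ} {F : S6} (hσ : 0 ≤ σ) (hF : F ∈ Fil a (σ + 1) q) :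
    ∃ G0 ∈ Fil a σ q, ∃ G1 ∈ Fil a σ q, F = rz 0 G0 + rz 1 G1 := by
  obtain ⟨G0, g0, G1, g1, E, hE, eq⟩ :=
    Fil_split_rz (b := -1) (σ := σ) (by omega) (a + 1).toNat (by omega) hF
  exact ⟨G0, g0, G1, g1, by rw [eq, Fil_zero_of_neg hE (Or.inl (by norm_num)), add_zero]⟩

/-- Splitting a symbol of weight at least zero. -/
theorem Fil_rz_rem {a σ q : ℤ} {F : S6} (hσ : -1 ≤ σ) (hF : F ∈ Fil a (σ + 1) q) :
    ∃ G0 ∈ Fil a σ q, ∃ G1 ∈ Fil a σ q, ∃ E ∈ Fil 0 (σ + 1) q, F = rz 0 G0 + rz 1 G1 - E := by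
  obtain ⟨G0, g0, G1, g1, E, hE, eq⟩ :=
    Fil_split_rz (b := 0) (σ := σ) (by omega) a.toNat (by omega) hF
  exact ⟨G0, g0, G1, g1, -E, neg_mem hE, by rw [eq, sub_neg_eq_add]⟩

/-- Splitting a pair at a kernel object. -/
theorem GMem_split {n a t q : ℤ} {g0 g1 : S6} (ht : 0 ≤ t) (hg : GMem n a (t + 1) q g0 g1) :
    ∃ A0 A1 B0 B1 E0 E1, GMem n a t q A0 A1 ∧ GMem n a t q B0 B1 ∧ GMem n 0 (t + 1) q E0 E1 ∧
      g0 = rz 0 A0 + rz 1 B0 - E0 ∧ g1 = rz 0 A1 + rz 1 B1 - E1 := by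
  obtain ⟨P0, P1, Q, h0, h1, hQ, rfl, rfl⟩ := hg
  obtain ⟨a0, ha0, b0, hb0, rfl⟩ := Fil_rz_exact ht h0
  obtain ⟨a1, ha1, b1, hb1, rfl⟩ := Fil_rz_exact ht h1
  obtain ⟨qa, hqa, qb, hqb, e, he, rfl⟩ := Fil_rz_rem (σ := t - 1) (by omega)
    (Fil_cast hQ le_rfl (by ring : t + 1 - 1 = t - 1 + 1) rfl)
  refine ⟨a0 - z0 * qa, a1 - z1 * qa, b0 - z0 * qb, b1 - z1 * qb, -(z0 * e), -(z1 * e),
    ⟨a0, a1, qa, ha0, ha1, hqa, rfl, rfl⟩, ⟨b0, b1, qb, hb0, hb1, hqb, rfl, rfl⟩,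
    ⟨0, 0, e, zero_mem _, zero_mem _, Fil_cast he le_rfl (by ring) rfl, by simp, by simp⟩, ?_, ?_⟩
  · rw [rz_sub, rz_sub, rz_z0, rz_z0]; ring
  · rw [rz_sub, rz_sub, rz_z1, rz_z1]; ring

/-- A symbol into a line is a combination by the coordinates up to symbols of order zero. -/
theorem posL_split : ∀ {J k : ℕ} {a t : ℤ}, 0 ≤ t → ∀ {F : Slot.C J k → S6},
    PosL J k a (t + 1) F → ∃ (G : Fin 2 → Slot.C J k → S6) (E : Slot.C J k → S6),
      (∀ i, PosL J k a t (G i)) ∧ PosL J k 0 (t + 1) E ∧ F = comb G - E := by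
  intro J k a t ht F hF
  match J, k, F, hF with
  | 0, 0, F, hF | 0, 3, F, hF =>
    obtain ⟨g, hg, h, hh, e, he, eq⟩ :=
      Fil_rz_rem (σ := t - 1) (by omega) (Fil_cast hF le_rfl (by ring : t + 1 - 1 = t - 1 + 1) rfl)
    refine ⟨![fun _ => g, fun _ => h], fun _ => e, ?_, Fil_cast he le_rfl (by ring) rfl, ?_⟩
    · intro i; fin_cases i
      · exact hg
      · exact hh
    · funext c; simpa [comb_apply] using eq
  | 0, 1, F, hF =>
    obtain ⟨A0, A1, B0, B1, E0, E1, hA, hB, hE, e0, e1⟩ := GMem_split ht hF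
    refine ⟨![![A0, A1], ![B0, B1]], ![E0, E1], ?_, hE, ?_⟩
    · intro i; fin_cases i
      · exact hA
      · exact hB
    · funext c; fin_cases c
      · simpa [comb_apply] using e0
      · simpa [comb_apply] using e1
  | 0, 2, F, hF =>
    obtain ⟨g, hg, h, hh, eg⟩ := Fil_rz_exact ht (hF 0)
    obtain ⟨g', hg', h', hh', eg'⟩ := Fil_rz_exact ht (hF 1)
    refine ⟨![![g, g'], ![h, h']], 0, ?_, posL_zero 0 2 _ _, ?_⟩
    · intro i l; fin_cases i <;> fin_cases l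
      · exact hg
      · exact hg'
      · exact hh
      · exact hh'
    · funext c; fin_cases c
      · simpa [comb_apply] using eg
      · simpa [comb_apply] using eg'
  | j + 1, 1, F, hF | j + 1, 4, F, hF =>
    obtain ⟨g, hg, h, hh, eg⟩ := Fil_rz_exact ht hF
    refine ⟨![fun _ => g, fun _ => h], 0, ?_, posL_zero _ _ _ _, ?_⟩
    · intro i; fin_cases i
      · exact hg
      · exact hh
    · funext c; simpa [comb_apply] using eg
  | j + 1, 2, F, hF =>
    obtain ⟨h0, h1, hg⟩ := hF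
    obtain ⟨u, hu, v, hv, eu⟩ := Fil_rz_exact ht h0
    obtain ⟨u', hu', v', hv', eu'⟩ := Fil_rz_exact ht h1
    obtain ⟨A0, A1, B0, B1, E0, E1, hA, hB, hE, e0, e1⟩ := GMem_split ht hg
    refine ⟨![ofCo1 ⟨u, u', A0, A1⟩, ofCo1 ⟨v, v', B0, B1⟩], ofCo1 ⟨0, 0, E0, E1⟩, ?_,
      ⟨zero_mem _, zero_mem _, hE⟩, ?_⟩
    · intro i; fin_cases i
      · exact ⟨hu, hu', hA⟩
      · exact ⟨hv, hv', hB⟩
    · funext c
      rcases c with l | l <;> fin_cases l
      · simpa [comb_apply, ofCo1, toCo1] using eu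
      · simpa [comb_apply, ofCo1, toCo1] using eu'
      · simpa [comb_apply, ofCo1, toCo1] using e0
      · simpa [comb_apply, ofCo1, toCo1] using e1
  | j + 1, 3, F, hF =>
    obtain ⟨hf, hf'⟩ := hF
    obtain ⟨A0, A1, B0, B1, E0, E1, hA, hB, hE, e0, e1⟩ := GMem_split ht hf
    obtain ⟨C0, C1, D0, D1, E0', E1', hC, hD, hE', e0', e1'⟩ := GMem_split ht hf'
    refine ⟨![ofCo2 ⟨A0, A1, C0, C1⟩, ofCo2 ⟨B0, B1, D0, D1⟩], ofCo2 ⟨E0, E1, E0', E1'⟩, ?_,
      ⟨hE, hE'⟩, ?_⟩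
    · intro i; fin_cases i
      · exact ⟨hA, hC⟩
      · exact ⟨hB, hD⟩
    · funext ⟨l, r⟩
      fin_cases l <;> fin_cases r
      · simpa [comb_apply, ofCo2, toCo2] using e0
      · simpa [comb_apply, ofCo2, toCo2] using e1
      · simpa [comb_apply, ofCo2, toCo2] using e0'
      · simpa [comb_apply, ofCo2, toCo2] using e1'
  | 0, k + 4, F, _ => exact ⟨0, -F, fun _ => trivial, trivial, by rw [comb_zero]; simp⟩
  | j + 1, 0, F, _ => exact ⟨0, -F, fun _ => trivial, trivial, by rw [comb_zero]; simp⟩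
  | j + 1, k + 5, F, _ => exact ⟨0, -F, fun _ => trivial, trivial, by rw [comb_zero]; simp⟩

end Vale.Agent.P195.Gamma.ExactB
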