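import Vale.Agent.P195.Gamma.ExactB.Target
import Vale.Agent.P195.Gamma.ExactB.Ops
import Vale.Agent.P195.Gamma.ExactB.LineTarget

/-!
Exactness on symbols of maps into the kernel objects, from exactness into the two lines.

A symbol into a kernel object is a pair of symbols into the line of order `c` whose combination by
the coordinates lies in the line of order zero one weight higher. Every statement follows by
solving in both lines and correcting the difference, using exactness into the line of order `c` of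
the higher weight and the surjectivity of the combination modulo order zero.
-/

namespace Vale.Agent.P195.Gamma.ExactB

open MvPolynomial

/-! ### Preliminaries -/

theorem Fil000_C {F : S6} (hF : F ∈ Fil 0 0 0) : ∃ r : ℚ, F = C r := by
  refine Sup_induction (motive := fun G => ∃ r : ℚ, G = C r) hF ⟨0, by simp⟩ ?_ ?_
  · rintro f g ⟨a, rfl⟩ ⟨b, rfl⟩
    exact ⟨a + b, by simp⟩
  · rintro d a ⟨h1, h2, h3⟩
    refine ⟨a, ?_⟩
    have h : d = 0 := by
      ext i
      simp only [dgx, dgz, dgp] at h1 h2 h3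
      fin_cases i <;> simp <;> omega
    rw [h, monomial_zero']

theorem piv_mem {J : ℕ} {a s : ℤ} {x : Slot.C (J + 1) 3 → S6} (hx : PosL (J + 1) 3 a s x) :
    PosL (J + 2) 3 a (s + 1) (fun p => piv * x p) :=
  f2_mem hx

theorem delta_piv {J : ℕ} {a s : ℤ} {x : Slot.C (J + 1) 3 → S6} (hx : PosL (J + 1) 3 a s x) :
    delta (J + 2) 3 (fun p => piv * x p) = fun r => piv * delta (J + 1) 3 x r :=
  funext fun r => by
    have h : M2 a s J (toCo2 x) := hx
    have e : toCo2 (fun p => piv * x p) = f2 (toCo2 x) := rfl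
    simp only [delta, e]
    exact d2_f2 h

theorem comb_piv {C : Type} (F : Fin 2 → C → S6) :
    comb (fun i p => piv * F i p) = fun p => piv * comb F p := by
  funext p
  simp only [comb_apply, rz_piv, mul_add]

/-- The class at the kernel object is not a coboundary. -/
theorem class_not_bd {c : ℕ} {x : Slot.C 1 2 → S6} {r : ℚ} (hx : PosL 1 2 c 2 x)
    (h : delta 1 2 x = fun p => zS p.2 * zS p.1 * C r) : r = 0 := by
  have e : d1 0 (toCo1 x) = kapS (-r) :=
    (congrArg toCo2 h).trans (toCo2_link r)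
  simpa using kap_not_bd c hx e

theorem head_last {a s : ℤ} {b : Slot.C 0 3 → S6} (hb : PosL 0 3 a s b) :
    b () ∈ Fil a (s - 1) 0 := hb

attribute [local irreducible] delta PosL

/-! ### The fields of exactness into a line -/

section line

variable {a s : ℕ} (S : SymExact (.line a s)) {u : ℤ}
include S

theorem line_one (hu : u - s = 0 ∨ u - s = 1) {J : ℕ} {x : Slot.C (J + 1) 1 → S6}
    (hx : PosL (J + 1) 1 a u x) (hd : delta (J + 1) 1 x = 0) : x = 0 := by
  refine congrFun (S.one _ hu J (fun _ => x) ?_ (funext fun _ => hd)) (0 : Fin 1)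
  show PosL _ _ a (u - s + s) x
  rwa [sub_add_cancel]

theorem line_two (hu : u - s = 0 ∨ u - s = 1) {J : ℕ} {x : Slot.C (J + 1) 2 → S6}
    (hx : PosL (J + 1) 2 a u x) (hd : delta (J + 1) 2 x = 0) :
    ∃ G, PosL (J + 1) 1 a u G ∧ delta (J + 1) 1 G = x := by
  obtain ⟨G, hG, e⟩ := S.two _ hu J (fun _ => x)
    (show PosL _ _ a (u - s + s) x by rwa [sub_add_cancel]) (funext fun _ => hd)
  change PosL _ _ a (u - s + s) (G (0 : Fin 1)) at hG
  rw [sub_add_cancel] at hG
  exact ⟨_, hG, congrFun e (0 : Fin 1)⟩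

theorem line_three (hu : u - s = 0 ∨ u - s = 1) {J : ℕ} (hJ : 1 ≤ J ∨ u - s = 0)
    {x : Slot.C (J + 1) 3 → S6} (hx : PosL (J + 1) 3 a u x) (hd : delta (J + 1) 3 x = 0) :
    ∃ G, PosL (J + 1) 2 a u G ∧ delta (J + 1) 2 G = x := by
  obtain ⟨G, hG, e⟩ := S.three _ hu J hJ (fun _ => x)
    (show PosL _ _ a (u - s + s) x by rwa [sub_add_cancel]) (funext fun _ => hd)
  change PosL _ _ a (u - s + s) (G (0 : Fin 1)) at hG
  rw [sub_add_cancel] at hG
  exact ⟨_, hG, congrFun e (0 : Fin 1)⟩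

end line

section line0

variable {a s : ℕ} (S : SymExact (.line a s))
include S

theorem line_class {x : Slot.C 1 3 → S6} (hx : PosL 1 3 a (1 + s) x) (hd : delta 1 3 x = 0) :
    ∃ G b, PosL 1 2 a (1 + s) G ∧ PosL 0 3 a (0 + s) b ∧
      delta 1 2 G + (fun p => zS p.2 * zS p.1 * b ()) = x := by
  obtain ⟨G, b, hG, hb, e, -⟩ := S.three_class (fun _ => x) hx (funext fun _ => hd)
  exact ⟨_, _, hG, hb, congrFun e (0 : Fin 1)⟩

theorem line_onto {x : Slot.C 1 4 → S6} (hx : PosL 1 4 a (1 + s) x) :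
    ∃ y, PosL 1 3 a (1 + s) y ∧ delta 1 3 y = x := by
  obtain ⟨y, hy, e⟩ := S.onto (fun _ => x) hx
  exact ⟨_, hy, congrFun e (0 : Fin 1)⟩

theorem line_top_surj {J : ℕ} {η : Slot.C (J + 2) 4 → S6} (hη : PosL (J + 2) 4 a (1 + s) η) :
    ∃ θ x, PosL (J + 1) 4 a (0 + s) θ ∧ PosL (J + 2) 3 a (1 + s) x ∧
      delta (J + 2) 3 x + (fun _ => piv * θ ()) = η := by
  obtain ⟨θ, x, hθ, hx, e⟩ := S.top_surj J (fun _ => η) hη
  exact ⟨_, _, hθ, hx, congrFun e (0 : Fin 1)⟩

theorem line_top_inj {J : ℕ} {θ : Slot.C (J + 1) 4 → S6} {x : Slot.C (J + 2) 3 → S6}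
    (hθ : PosL (J + 1) 4 a (0 + s) θ) (hx : PosL (J + 2) 3 a (1 + s) x)
    (h : delta (J + 2) 3 x = fun _ => piv * θ ()) :
    ∃ y, PosL (J + 1) 3 a (0 + s) y ∧ delta (J + 1) 3 y = θ := by
  obtain ⟨y, hy, e⟩ := S.top_inj J (fun _ => θ) (fun _ => x) hθ hx (funext fun _ => h)
  exact ⟨_, hy, congrFun e (0 : Fin 1)⟩

theorem line_head_zero {x : Slot.C 0 0 → S6} (hx : PosL 0 0 a (0 + s) x)
    (hd : delta 0 0 x = 0) : x = 0 :=
  congrFun (S.head_zero (fun _ => x) hx (funext fun _ => hd)) (0 : Fin 1)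

theorem line_head_one {x : Slot.C 0 1 → S6} (hx : PosL 0 1 a (0 + s) x)
    (hd : delta 0 1 x = 0) : ∃ G, PosL 0 0 a (0 + s) G ∧ delta 0 0 G = x := by
  obtain ⟨G, hG, e⟩ := S.head_one (fun _ => x) hx (funext fun _ => hd)
  exact ⟨_, hG, congrFun e (0 : Fin 1)⟩

theorem line_head_two {x : Slot.C 0 2 → S6} (hx : PosL 0 2 a (0 + s) x)
    (hd : delta 0 2 x = 0) : ∃ G, PosL 0 1 a (0 + s) G ∧ delta 0 1 G = x := by
  obtain ⟨G, hG, e⟩ := S.head_two (fun _ => x) hx (funext fun _ => hd)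
  exact ⟨_, hG, congrFun e (0 : Fin 1)⟩

theorem line_head_three {b : Slot.C 0 3 → S6} {c : Slot.C 1 2 → S6}
    (hb : PosL 0 3 a (0 + s) b) (hc : PosL 1 2 a (1 + s) c)
    (h : delta 1 2 c = fun p => zS p.2 * zS p.1 * b ()) :
    ∃ H, PosL 0 2 a (0 + s) H ∧ delta 0 2 H = b := by
  obtain ⟨H, hH, e⟩ := S.head_three (fun _ => b) (fun _ => c) hb hc (funext fun _ => h)
  exact ⟨_, hH, congrFun e (0 : Fin 1)⟩

end line0

/-! ### The kernel objects -/

/-- Correct the two columns so that their combination has order zero. -/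
theorem fix_comb {c : ℕ} {t : ℤ} (ht : 0 ≤ t) {J k : ℕ}
    {x : Fin 2 → Slot.C J (k + 1) → S6} (hx : ∀ i, PosL J (k + 1) c t (x i))
    {y : Slot.C J (k + 1) → S6} (hy : PosL J (k + 1) 0 (t + 1) y)
    {R : Slot.C J k → S6} (hR : PosL J k c (t + 1) R) (e : delta J k R = comb x - y) :
    ∃ x', Pos (.pair c) t J (k + 1) x' ∧ dCol J (k + 1) x' = dCol J (k + 1) x := by
  obtain ⟨G, E, hG, hE, rfl⟩ := posL_split ht hR
  refine ⟨x - fun i => delta J k (G i), ⟨fun i => posL_sub (hx i) (delta_mem (hG i)), ?_⟩,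
    funext fun i => ?_⟩
  · rw [delta_sub] at e
    have h : comb (x - fun i => delta J k (G i)) = y - delta J k E := by
      rw [comb_sub, comb_delta]
      linear_combination (norm := abel) -e
    rw [h]
    exact posL_sub hy (delta_mem hE)
  · show delta J (k + 1) (x i - delta J k (G i)) = delta J (k + 1) (x i)
    rw [delta_sub, delta_delta (hG i), sub_zero]

/-- The difference of the combination and a solution in the line of order zero is closed. -/
theorem delta_diff {J k : ℕ} {G : Fin 2 → Slot.C J k → S6} {H : Slot.C J k → S6}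
    {F : Fin 2 → Slot.C J (k + 1) → S6} (eG : ∀ i, delta J k (G i) = F i)
    (eH : delta J k H = comb F) : delta J k (comb G - H) = 0 := by
  rw [delta_sub, eH, ← comb_delta, funext eG, sub_self]

theorem comb_closed {J k : ℕ} {F : Fin 2 → Slot.C J k → S6} (hd : dCol J k F = 0) :
    delta J k (comb F) = 0 := by
  rw [← comb_dCol, hd, comb_zero]

theorem w_mem {c J k : ℕ} {t : ℤ} {G : Fin 2 → Slot.C J k → S6} {H : Slot.C J k → S6}
    (hG : ∀ i, PosL J k c t (G i)) (hH : PosL J k 0 (t + 1) H) :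
    PosL J k c (t + 1) (comb G - H) :=
  posL_sub (posL_comb hG) (posL_mono hH (Int.natCast_nonneg c))

variable {c : ℕ}

theorem u_low {t : ℤ} (ht : t = 0 ∨ t = 1) : t - (0 : ℕ) = 0 ∨ t - (0 : ℕ) = 1 := by omega

theorem u_high {t : ℤ} (ht : t = 0 ∨ t = 1) : t + 1 - (1 : ℕ) = 0 ∨ t + 1 - (1 : ℕ) = 1 := by omega

theorem pair_one (A : SymExact (.line c 0)) (t : ℤ) (ht : t = 0 ∨ t = 1) (J : ℕ) (F)
    (hF : Pos (.pair c) t (J + 1) 1 F) (hd : dCol (J + 1) 1 F = 0) : F = 0 :=
  funext fun i => line_one A (u := t) (u_low ht) (hF.1 i) (congrFun hd i)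

theorem pair_two (A : SymExact (.line c 0)) (A' : SymExact (.line c 1))
    (Z : SymExact (.line 0 1)) (t : ℤ) (ht : t = 0 ∨ t = 1) (J : ℕ) (F)
    (hF : Pos (.pair c) t (J + 1) 2 F) (hd : dCol (J + 1) 2 F = 0) :
    ∃ G, Pos (.pair c) t (J + 1) 1 G ∧ dCol (J + 1) 1 G = F := by
  choose G hG eG using fun i => line_two A (u := t) (u_low ht) (hF.1 i) (congrFun hd i)
  obtain ⟨H, hH, eH⟩ := line_two Z (u := t + 1) (u_high ht) hF.2 (comb_closed hd)
  refine ⟨G, ⟨hG, ?_⟩, funext eG⟩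
  rw [sub_eq_zero.1 (line_one A' (u_high ht) (w_mem hG hH) (delta_diff eG eH))]
  exact hH

theorem pair_three (A : SymExact (.line c 0)) (A' : SymExact (.line c 1))
    (Z : SymExact (.line 0 1)) (t : ℤ) (ht : t = 0 ∨ t = 1) (J : ℕ) (hJ : 1 ≤ J ∨ t = 0) (F)
    (hF : Pos (.pair c) t (J + 1) 3 F) (hd : dCol (J + 1) 3 F = 0) :
    ∃ G, Pos (.pair c) t (J + 1) 2 G ∧ dCol (J + 1) 2 G = F := by
  have hJ0 : 1 ≤ J ∨ t - (0 : ℕ) = 0 := by omega
  have hJ1 : 1 ≤ J ∨ t + 1 - (1 : ℕ) = 0 := by omega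
  choose G hG eG using fun i => line_three A (u := t) (u_low ht) hJ0 (hF.1 i) (congrFun hd i)
  obtain ⟨H, hH, eH⟩ := line_three Z (u := t + 1) (u_high ht) hJ1 hF.2 (comb_closed hd)
  obtain ⟨R, hR, eR⟩ := line_two A' (u_high ht) (w_mem hG hH) (delta_diff eG eH)
  obtain ⟨x, hx, ex⟩ := fix_comb (by omega) hG hH hR eR
  exact ⟨x, hx, ex.trans (funext eG)⟩

theorem pair_class (A : SymExact (.line c 0)) (A' : SymExact (.line c 1))
    (Z : SymExact (.line 0 1))
    (F) (hF : Pos (.pair c) 1 1 3 F) (hd : dCol 1 3 F = 0) :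
    ∃ G b, Pos (.pair c) 1 1 2 G ∧ Pos (.pair c) 0 0 3 b ∧ dCol 1 2 G + headLink b = F ∧
      ((∀ a, Model.Ob.pair c ≠ .line a 1) → b = 0) := by
  have low : ∀ i, ∃ G, PosL 1 2 c 1 G ∧ delta 1 2 G = F i := fun i => by
    obtain ⟨G, b, hG, -, e, hz⟩ := A.three_class (fun _ => F i) (hF.1 i)
      (funext fun _ => congrFun hd i)
    have e' := congrFun e (0 : Fin 1)
    rw [hz (fun a h => by simp at h)] at e'
    exact ⟨_, hG, by funext p; simpa [dCol, headLink] using congrFun e' p⟩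
  choose G hG eG using low
  obtain ⟨H, e, hH, he, eH⟩ := line_class Z (x := comb F) hF.2 (comb_closed hd)
  obtain ⟨r, hr⟩ := Fil000_C (Fil_cast (head_last he) le_rfl (by norm_num) rfl : e () ∈ Fil 0 0 0)
  have hH' : PosL 1 2 0 (1 + 1) H := hH
  have ew : delta 1 2 (comb G - H) = fun p => zS p.2 * zS p.1 * C r := by
    rw [delta_sub, ← comb_delta, funext eG, ← hr, ← eH, add_sub_cancel_left]
  obtain rfl : r = 0 := class_not_bd (w_mem hG hH') ew
  obtain ⟨R, hR, eR⟩ := line_two A' (u := 1 + 1) (by norm_num) (w_mem hG hH') (by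
    rw [ew]; funext p; simp)
  obtain ⟨x, hx, ex⟩ := fix_comb (by norm_num) hG hH' hR eR
  refine ⟨x, 0, hx, ⟨fun i => posL_zero _ _ _ _, ?_⟩, ?_, fun _ => rfl⟩
  · rw [comb_zero]; exact posL_zero _ _ _ _
  · rw [ex]
    funext i p
    simp [dCol, headLink, eG i]

theorem pair_onto (A : SymExact (.line c 0)) (A' : SymExact (.line c 1))
    (Z : SymExact (.line 0 1)) (η) (hη : Pos (.pair c) 1 1 4 η) :
    ∃ x, Pos (.pair c) 1 1 3 x ∧ dCol 1 3 x = η := by
  have low : ∀ i, ∃ x, PosL 1 3 c 1 x ∧ delta 1 3 x = η i := fun i => line_onto A (hη.1 i)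
  choose x hx ex using low
  obtain ⟨y, hy, ey⟩ := line_onto Z (x := comb η) hη.2
  have hy' : PosL 1 3 0 (1 + 1) y := hy
  obtain ⟨R, b, hR, hb, eR⟩ := line_class A' (w_mem hx hy') (delta_diff ex ey)
  have hb' : PosL 0 3 c (0 + 1) b := hb
  obtain ⟨β, e, hβ, he, rfl⟩ := posL_split le_rfl hb'
  obtain ⟨x', hx', ex'⟩ := fix_comb zero_le_one
    (x := x - headLink β) (y := y - fun p => zS p.2 * zS p.1 * e ())
    (fun i => posL_sub (hx i) (headLink_mem (s := 0) (hβ i)))
    (posL_sub hy' (headLink_mem (s := 0 + 1) (F := fun _ : Fin 1 => e) (i := 0) he)) hR (by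
      rw [comb_sub, comb_headLink β (0 : Fin 1)]
      funext p
      have := congrFun eR p
      simp only [Pi.add_apply, Pi.sub_apply, headLink] at this ⊢
      linear_combination this)
  refine ⟨x', hx', ex'.trans (funext fun i => ?_)⟩
  show delta 1 3 (x i - headLink β i) = η i
  rw [delta_sub, delta_headLink (hβ i), sub_zero, ex i]

theorem pair_top_surj (A : SymExact (.line c 0)) (A' : SymExact (.line c 1))
    (Z : SymExact (.line 0 1)) (J : ℕ) (η) (hη : Pos (.pair c) 1 (J + 2) 4 η) :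
    ∃ θ x, Pos (.pair c) 0 (J + 1) 4 θ ∧ Pos (.pair c) 1 (J + 2) 3 x ∧
      dCol (J + 2) 3 x + topLink J θ = η := by
  have low : ∀ i, ∃ θ x, PosL (J + 1) 4 c 0 θ ∧ PosL (J + 2) 3 c 1 x ∧
      delta (J + 2) 3 x + (fun _ => piv * θ ()) = η i := fun i => line_top_surj A (hη.1 i)
  choose θ x hθ hx ex using low
  obtain ⟨ξ, y, hξ, hy, ey⟩ := line_top_surj Z (η := comb η) hη.2
  have hy' : PosL (J + 2) 3 0 (1 + 1) y := hy
  have hξ' : PosL (J + 1) 4 0 (0 + 1) ξ := hξ
  have hw := w_mem hx hy'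
  have hcomb : comb η = delta (J + 2) 3 (comb x) + fun _ => piv * comb θ () := by
    rw [← comb_delta, ← funext ex]
    exact (comb_add _ _).trans (congrArg _ (comb_topLink J θ (0 : Fin 1)))
  have ew : delta (J + 2) 3 (comb x - y) = fun _ => piv * (ξ - comb θ) () := by
    rw [delta_sub]
    funext p
    have h1 := congrFun hcomb p
    have h2 := congrFun ey p
    simp only [Pi.add_apply, Pi.sub_apply] at h1 h2 ⊢
    linear_combination -h1 - h2
  obtain ⟨y', hy1, ey'⟩ := line_top_inj A'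
    (posL_sub (posL_mono hξ' (Int.natCast_nonneg c)) (posL_comb hθ)) hw ew
  have hy1' : PosL (J + 1) 3 c (0 + 1) y' := hy1
  obtain ⟨G, E, hG, hE, rfl⟩ := posL_split le_rfl hy1'
  have hx2 : ∀ i, PosL (J + 2) 3 c 1 ((x - fun i p => piv * G i p : Fin 2 → _ → S6) i) :=
    fun i => posL_sub (hx i) (piv_mem (s := 0) (hG i))
  have hy2 : PosL (J + 2) 3 0 (1 + 1) (y - fun p => piv * E p) :=
    posL_sub hy' (piv_mem (s := 0 + 1) hE)
  obtain ⟨R, hR, eR⟩ := line_three A' (u := 1 + 1) (by norm_num) (Or.inl (by omega))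
    (w_mem hx2 hy2) (by
      rw [comb_sub, comb_piv, show comb x - (fun p => piv * comb G p) - (y - fun p => piv * E p) =
        comb x - y - fun p => piv * (comb G - E) p by funext p; simp; ring,
        delta_sub, ew, delta_piv hy1', ey']
      exact sub_self _)
  obtain ⟨x', hx', ex'⟩ := fix_comb zero_le_one hx2 hy2 hR eR
  refine ⟨θ + dCol (J + 1) 3 G, x',
    ⟨fun i => posL_add (hθ i) (delta_mem (hG i)), ?_⟩, hx', ?_⟩
  · have h : comb (θ + dCol (J + 1) 3 G) = ξ + delta (J + 1) 3 E := by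
      rw [delta_sub] at ey'
      rw [comb_add, comb_dCol]
      linear_combination (norm := abel) ey'
    rw [h]
    exact posL_add hξ' (delta_mem hE)
  · rw [ex']
    funext i p
    show delta (J + 2) 3 (x i - fun p => piv * G i p) p +
      piv * ((θ + dCol (J + 1) 3 G) i ()) = η i p
    rw [delta_sub, delta_piv (hG i), ← congrFun (ex i) p]
    simp only [Pi.add_apply, Pi.sub_apply, dCol]
    ring

theorem pair_top_inj (A : SymExact (.line c 0)) (A' : SymExact (.line c 1))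
    (Z : SymExact (.line 0 1)) (J : ℕ) (θ x) (hθ : Pos (.pair c) 0 (J + 1) 4 θ)
    (hx : Pos (.pair c) 1 (J + 2) 3 x) (h : dCol (J + 2) 3 x = topLink J θ) :
    ∃ x', Pos (.pair c) 0 (J + 1) 3 x' ∧ dCol (J + 1) 3 x' = θ := by
  have low : ∀ i, ∃ y, PosL (J + 1) 3 c 0 y ∧ delta (J + 1) 3 y = θ i :=
    fun i => line_top_inj A (hθ.1 i) (hx.1 i) (congrFun h i)
  choose y hy ey using low
  obtain ⟨w, hw, ew⟩ := line_top_inj Z (θ := comb θ) (x := comb x) hθ.2 hx.2
    ((comb_dCol _ _ x).symm.trans ((congrArg comb h).trans (comb_topLink J θ (0 : Fin 1))))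
  have hw' : PosL (J + 1) 3 0 (0 + 1) w := hw
  obtain ⟨R, hR, eR⟩ := line_three A' (u := 0 + 1) (by norm_num) (Or.inr (by norm_num))
    (w_mem hy hw') (delta_diff ey ew)
  obtain ⟨x', hx', ex'⟩ := fix_comb le_rfl hy hw' hR eR
  exact ⟨x', hx', ex'.trans (funext ey)⟩

theorem pair_head_one (A : SymExact (.line c 0)) (A' : SymExact (.line c 1))
    (Z : SymExact (.line 0 1)) (F) (hF : Pos (.pair c) 0 0 1 F) (hd : dCol 0 1 F = 0) :
    ∃ G, Pos (.pair c) 0 0 0 G ∧ dCol 0 0 G = F := by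
  have low : ∀ i, ∃ G, PosL 0 0 c 0 G ∧ delta 0 0 G = F i :=
    fun i => line_head_one A (hF.1 i) (congrFun hd i)
  choose G hG eG using low
  obtain ⟨H, hH, eH⟩ := line_head_one Z (x := comb F) hF.2 (comb_closed hd)
  have hH' : PosL 0 0 0 (0 + 1) H := hH
  refine ⟨G, ⟨hG, ?_⟩, funext eG⟩
  rw [sub_eq_zero.1 (line_head_zero A' (w_mem hG hH') (delta_diff eG eH))]
  exact hH'

theorem pair_head_two (A : SymExact (.line c 0)) (A' : SymExact (.line c 1))
    (Z : SymExact (.line 0 1)) (F) (hF : Pos (.pair c) 0 0 2 F) (hd : dCol 0 2 F = 0) :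
    ∃ G, Pos (.pair c) 0 0 1 G ∧ dCol 0 1 G = F := by
  have low : ∀ i, ∃ G, PosL 0 1 c 0 G ∧ delta 0 1 G = F i :=
    fun i => line_head_two A (hF.1 i) (congrFun hd i)
  choose G hG eG using low
  obtain ⟨H, hH, eH⟩ := line_head_two Z (x := comb F) hF.2 (comb_closed hd)
  have hH' : PosL 0 1 0 (0 + 1) H := hH
  obtain ⟨R, hR, eR⟩ := line_head_one A' (w_mem hG hH') (delta_diff eG eH)
  obtain ⟨x', hx', ex'⟩ := fix_comb le_rfl hG hH' hR eR
  exact ⟨x', hx', ex'.trans (funext eG)⟩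

theorem pair_head_three (A : SymExact (.line c 0)) (A' : SymExact (.line c 1))
    (Z : SymExact (.line 0 1)) (b d) (hb : Pos (.pair c) 0 0 3 b) (hd : Pos (.pair c) 1 1 2 d)
    (h : dCol 1 2 d = headLink b) : ∃ H, Pos (.pair c) 0 0 2 H ∧ dCol 0 2 H = b := by
  have low : ∀ i, ∃ G, PosL 0 2 c 0 G ∧ delta 0 2 G = b i :=
    fun i => line_head_three A (hb.1 i) (hd.1 i) (congrFun h i)
  choose G hG eG using low
  obtain ⟨H, hH, eH⟩ := line_head_three Z (b := comb b) (c := comb d) hb.2 hd.2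
    ((comb_dCol _ _ d).symm.trans ((congrArg comb h).trans (comb_headLink b (0 : Fin 1))))
  have hH' : PosL 0 2 0 (0 + 1) H := hH
  obtain ⟨R, hR, eR⟩ := line_head_two A' (w_mem hG hH') (delta_diff eG eH)
  obtain ⟨x', hx', ex'⟩ := fix_comb le_rfl hG hH' hR eR
  exact ⟨x', hx', ex'.trans (funext eG)⟩

/-- Exactness into a kernel object from exactness into lines. -/
theorem symExact_pair_of_lines (A : SymExact (.line c 0)) (A' : SymExact (.line c 1))
    (Z : SymExact (.line 0 1)) : SymExact (.pair c) where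
  one := pair_one A
  two := pair_two A A' Z
  three := pair_three A A' Z
  three_class := pair_class A A' Z
  onto := pair_onto A A' Z
  top_surj := pair_top_surj A A' Z
  top_inj := pair_top_inj A A' Z
  head_zero := fun F hF hd => funext fun i => line_head_zero A (hF.1 i) (congrFun hd i)
  head_one := pair_head_one A A' Z
  head_two := pair_head_two A A' Z
  head_three := pair_head_three A A' Z

/-- Exactness into the kernel objects. -/
theorem symExact_pair (c : ℕ) : SymExact (.pair c) :=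
  symExact_pair_of_lines (symExact_line (Nat.zero_le 1)) (symExact_line le_rfl)
    (symExact_line le_rfl)

end Vale.Agent.P195.Gamma.ExactB
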