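import Vale.Agent.P195.Gamma.DualData
import Vale.Agent.P195.Gamma.ExactB.Target

/-!
What a passage from block matrices into a column to their symbols has to satisfy.
-/

namespace Vale.Agent.P195.Gamma.ExactB

open Model

/-- Blocks from the slots of a position into a column. -/
abbrev Blk (v : Fin 8) (J k : ℕ) : Type :=
  ∀ i : Slot.I J k, Matrix (Fin (Model.rk (Slot.g J k i))) (Fin (Model.rk v)) D

/-- Left multiplication of blocks by the matrix of a formula. -/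
noncomputable def lmat {J J' k k' : ℕ}
    (Φ : (Slot.C J k → OpFam) →ₗ[ℚ] (Slot.C J' k' → OpFam)) (v : Fin 8) (y : Blk v J' k') :
    Blk v J k :=
  fun i => ∑ i', (Slot.shape J k).mat (Slot.shape J' k') Φ i i' * y i'

/-- A passage from blocks to symbols. -/
structure SymMap (v : Fin 8) where
  /-- The symbols of blocks. -/
  sy : ∀ J k, Blk v J k →+ (Fin (Model.rk v) → Slot.C J k → S6)
  mem : ∀ (t : ℤ) J k (y : Blk v J k),
    (∀ i, y i ∈ Hom t (obj (Slot.g J k i)) (obj v)) → Pos (obj v) t J k (sy J k y)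
  inj : ∀ (t : ℤ) J k (y : Blk v J k),
    (∀ i, y i ∈ Hom t (obj (Slot.g J k i)) (obj v)) → sy J k y = 0 → y = 0
  lift : ∀ (t : ℤ) J k F, Pos (obj v) t J k F →
    ∃ y : Blk v J k, (∀ i, y i ∈ Hom t (obj (Slot.g J k i)) (obj v)) ∧ sy J k y = F
  diff : ∀ (t : ℤ) J k (y : Blk v J k), (∀ i, y i ∈ Hom t (obj (Slot.g J k i)) (obj v)) →
    sy J (k + 1) (lmat (Slot.dF J k) v y) = dCol J k (sy J k y)
  top : ∀ (t : ℤ) J (y : Blk v (J + 1) 4),
    (∀ i, y i ∈ Hom t (obj (Slot.g (J + 1) 4 i)) (obj v)) →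
    sy (J + 2) 4 (lmat (Slot.fF (J + 1) 4) v y) = topLink J (sy (J + 1) 4 y)
  head : ∀ (t : ℤ) (y : Blk v 0 3), (∀ i, y i ∈ Hom t (obj (Slot.g 0 3 i)) (obj v)) →
    sy 1 3 (lmat (Slot.fF 0 3) v y) = headLink (sy 0 3 y)

end Vale.Agent.P195.Gamma.ExactB
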