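import Vale.Agent.P195.Gamma.ExactB.Bridge
import Vale.Agent.P195.Gamma.ExactB.Link

/-!
The passage from blocks into a column to symbols, given the transposes of the formulas.
-/

namespace Vale.Agent.P195.Gamma.ExactB

open MvPolynomial Model Matrix

/-- A linear reading of normal coefficients. -/
noncomputable def nrmInv : D →ₗ[ℚ] (ℕ × ℕ →₀ Pol) :=
  (LinearMap.exists_leftInverse_of_injective nrm (LinearMap.ker_eq_bot.2 nrm_injective)).choose

theorem nrmInv_nrm (g : ℕ × ℕ →₀ Pol) : nrmInv (nrm g) = g :=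
  LinearMap.congr_fun
    (LinearMap.exists_leftInverse_of_injective nrm (LinearMap.ker_eq_bot.2 nrm_injective)).choose_spec g

/-- The symbols of blocks. -/
noncomputable def syMap (v : Fin 8) (J k : ℕ) :
    Blk v J k →+ (Fin (Model.rk v) → Co J k) where
  toFun y r c := ∑ p : Σ i, Fin (rk (Slot.g J k i)),
    if (Slot.pos J k p.1 p.2).1 = c then
      gather (Finsupp.single (Slot.pos J k p.1 p.2).2 (nrmInv (y p.1 p.2 r))) else 0
  map_zero' := by
    funext r c
    simp
  map_add' y y' := by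
    funext r c
    simp only [Pi.add_apply, Matrix.add_apply, map_add, Finsupp.single_add,
      ← Finset.sum_add_distrib]
    refine Finset.sum_congr rfl fun p _ => ?_
    split_ifs <;> simp

theorem ev_gather (g : ℕ × ℕ →₀ ℕ × ℕ →₀ Pol) (m : ℕ × ℕ) : ev (gather g) m = nrm (g m) := by
  rw [ev, LinearMap.comp_apply, sp_gather, Finsupp.mapRange.linearMap_apply,
    Finsupp.mapRange_apply]

theorem syMap_rows {v : Fin 8} {J k : ℕ} (F : Fin (Model.rk v) → Co J k)
    (hF : ∀ r, Good6 J k (F r)) : syMap v J k (rowsOf F) = F := by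
  funext r c
  refine ev_injective (Finsupp.ext fun m => ?_)
  show ev (∑ p : Σ i, Fin (rk (Slot.g J k i)), _) m = _
  rw [map_sum, Finsupp.finsetSum_apply]
  have hterm : ∀ p : Σ i, Fin (rk (Slot.g J k i)),
      ev (if (Slot.pos J k p.1 p.2).1 = c then gather (Finsupp.single (Slot.pos J k p.1 p.2).2
        (nrmInv (rowsOf F p.1 p.2 r))) else 0) m =
      if Slot.pos J k p.1 p.2 = (c, m) then ev (F r c) m else 0 := by
    intro p
    by_cases h : Slot.pos J k p.1 p.2 = (c, m)
    · rw [if_pos h, if_pos (by rw [h]), ev_gather, h, Finsupp.single_eq_same, rowsOf_apply, h]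
      rw [show ev (F r c) m = nrm (sp (F r c) m) from
        Finsupp.mapRange_apply (hf := map_zero nrm), nrmInv_nrm]
    · rw [if_neg h]
      split_ifs with hc
      · rw [ev_gather, Finsupp.single_eq_of_ne (fun e => h (Prod.ext hc e.symm)), map_zero]
      · simp
  rw [Finset.sum_congr rfl fun p _ => hterm p]
  by_cases hm : ((m.1 + m.2 : ℕ) : ℤ) = Slot.q J k c
  · obtain ⟨i, s, hp⟩ := Slot.pos_surj J k c m hm
    rw [Finset.sum_eq_single (⟨i, s⟩ : Σ i, Fin (rk (Slot.g J k i)))]
    · rw [if_pos hp]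
    · intro p _ hne
      exact if_neg fun e => hne (Slot.pos_inj J k p.1 i p.2 s (e.trans hp.symm))
    · intro h; exact absurd (Finset.mem_univ _) h
  · rw [hF r c m hm]
    exact Finset.sum_eq_zero fun p _ => by split_ifs <;> rfl

theorem pair_single (m : ℕ × ℕ) (F : S6) : pair (Pi.single m 1) F = ev F m := by
  rw [pair_apply, Finsupp.sum, Finset.sum_eq_single m]
  · rw [Pi.single_eq_same, one_mul]
  · intro n _ hn
    rw [Pi.single_eq_of_ne hn, zero_mul]
  · intro h
    rw [Finsupp.notMem_support_iff.1 h, mul_zero]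

theorem good6_comb {J k : ℕ} {F : Fin 2 → Co J k} (h : ∀ r, Good6 J k (F r)) :
    Good6 J k (comb F) := fun c m hm => by
  simp [comb, ev_rz, h 0 c m hm, h 1 c m hm]

theorem colE_injective {J k : ℕ} {φ ψ : Co J k} (hφ : Good6 J k φ) (hψ : Good6 J k ψ)
    (h : ∀ i, colE φ i = colE ψ i) : φ = ψ :=
  congrFun (rowsOf_injective (r := 1) (F := fun _ => φ) (G := fun _ => ψ) (fun _ => hφ)
    (fun _ => hψ) fun i => Matrix.ext fun s _ => congrFun (h i) s) 0

/-- Symbols in the spaces of maps have the right degrees. -/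
theorem good6_of_pos {w : Ob} {t : ℤ} {J k : ℕ} {F : Fin w.rk → Co J k} (h : Pos w t J k F) :
    ∀ r, Good6 J k (F r) := by
  cases w with
  | line a s =>
    intro r
    obtain rfl : r = (0 : Fin 1) := Subsingleton.elim (α := Fin 1) _ _
    exact good6_of_posL h
  | pair c => exact fun r => good6_of_posL (h.1 r)

theorem pos_exists {w : Ob} {t : ℤ} {J k : ℕ}
    (y : ∀ i : Slot.I J k, Matrix (Fin (rk (Slot.g J k i))) (Fin w.rk) D)
    (h : ∀ i, y i ∈ Hom t (obj (Slot.g J k i)) w) : ∃ F, Pos w t J k F ∧ rowsOf F = y := by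
  cases w with
  | line a s =>
    obtain ⟨φ, hφ, e⟩ := exists_colE (fun i s' => y i s' (0 : Fin 1))
      fun i => mem_Hom_line_col.1 (h i)
    refine ⟨fun _ => φ, hφ, _root_.funext fun i => Matrix.ext fun s' r => ?_⟩
    obtain rfl : r = (0 : Fin 1) := Subsingleton.elim (α := Fin 1) _ _
    exact congrFun (congrFun e i) s'
  | pair c =>
    choose F hF e using fun r : Fin 2 => exists_colE (fun i s' => y i s' r)
      fun i => ((mem_Hom_pair_col.1 (h i)).1 r)
    obtain ⟨E, hE, eE⟩ := exists_colE (fun i s' => zdot (y i s'))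
      fun i => (mem_Hom_pair_col.1 (h i)).2
    have : comb F = E := by
      refine colE_injective (good6_comb fun r => good6_of_posL (hF r)) (good6_of_posL hE)
        fun i => _root_.funext fun s' => ?_
      rw [colE_comb, congrFun (congrFun eE i) s']
      exact congrArg zdot (_root_.funext fun r => congrFun (congrFun (e r) i) s')
    exact ⟨F, ⟨hF, this ▸ hE⟩,
      _root_.funext fun i => Matrix.ext fun s' r => congrFun (congrFun (e r) i) s'⟩

theorem pos_rows {w : Ob} {t : ℤ} {J k : ℕ} {F : Fin w.rk → Co J k} (h : Pos w t J k F)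
    (i : Slot.I J k) : rowsOf F i ∈ Hom t (obj (Slot.g J k i)) w := by
  cases w with
  | line a s => exact mem_Hom_line_col.2 (colE_CM h i)
  | pair c =>
    refine mem_Hom_pair_col.2 ⟨fun r => colE_CM (h.1 r) i, ?_⟩
    have e : (fun s' => zdot (rowsOf F i s')) = colE (comb F) i :=
      _root_.funext fun s' => (colE_comb F i s').symm
    rw [e]
    exact colE_CM h.2 i

theorem lmat_rows {J k J' k' r : ℕ} {Φ : (Slot.C J k → OpFam) →ₗ[ℚ] (Slot.C J' k' → OpFam)}
    {Ψ : Co J' k' → Co J k} (hG : ∀ y, Slot.Good J k y → Slot.Good J' k' (Φ y))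
    (F : Fin r → Co J' k')
    (hA : ∀ y, Slot.Good J k y → ∀ c, pairCo (Φ y) (F c) = pairCo y (Ψ (F c)))
    (i : Slot.I J k) :
    ∑ i', (Slot.shape J k).mat (Slot.shape J' k') Φ i i' * rowsOf F i' =
      rowsOf (fun c => Ψ (F c)) i := by
  refine Matrix.ext fun s c => ?_
  set f := Φ ((Slot.shape J k).enc (Shape.unit i s)) with hf
  have e := pairCo_enc ((Slot.shape J' k').dec f) (F c)
  rw [Slot.enc_dec J' k' f (hG _ (Slot.good_enc J k _)), hf, hA _ (Slot.good_enc J k _) c,
    pairCo_enc] at e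
  rw [Matrix.sum_apply]
  refine Eq.trans ?_ (e.symm.trans ?_)
  · exact Finset.sum_congr rfl fun i' _ => rfl
  · rw [Finset.sum_eq_single i, Finset.sum_eq_single s]
    · rw [show (Shape.unit i s : Shape.Row (Slot.g J k)) i s = 1 from if_pos rfl, one_mul]; rfl
    · intro s' _ hs
      simp [Shape.unit, hs]
    · intro h; exact absurd (Finset.mem_univ _) h
    · intro i' _ hi
      refine Finset.sum_eq_zero fun s' _ => ?_
      simp [Shape.unit, hi]
    · intro h; exact absurd (Finset.mem_univ _) h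

theorem delta_posL : ∀ J k (a s : ℤ) (x : Co J k), PosL J k a s x →
    PosL J (k + 1) a s (delta J k x)
  | 0, 0, a, s, x, h => ⟨0, 0, -x (), zero_mem _, zero_mem _, neg_mem h,
      by simp [delta, zS], by simp [delta, zS]⟩
  | 0, 1, a, s, x, h => fun l => by
    obtain ⟨-, -, hc⟩ := GMem_Fil (c := 2) h
    fin_cases l
    · exact Fil_cast (L1_Fil hc) (by simp; omega) (by ring) rfl
    · exact neg_mem (Fil_cast (L0_Fil hc) (by simp; omega) (by ring) rfl)
  | 0, 2, a, s, x, h =>
    add_mem (Fil_cast (L0_Fil (h 0)) (by omega) rfl rfl)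
      (Fil_cast (L1_Fil (h 1)) (by omega) rfl rfl)
  | 0, 3, _, _, _, _ => trivial
  | 0, _ + 4, _, _, _, _ => trivial
  | j + 1, 0, a, s, x, _ => zero_mem (Fil (a - 2) s j)
  | j + 1, 1, _, _, _, h => d0_mem h
  | j + 1, 2, _, _, _, h => d1_mem h
  | j + 1, 3, _, _, _, h => d2_mem h
  | _ + 1, 4, _, _, _, _ => trivial
  | _ + 1, _ + 5, _, _, _, _ => trivial

/-- The transposes of the formulas that matter. -/
structure Transposes : Prop where
  dF : ∀ J k (y : Slot.C J (k + 1) → OpFam), Slot.Good J (k + 1) y → ∀ F : Co J k,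
    Good6 J k F → pairCo (Slot.dF J k y) F = pairCo y (delta J k F)
  top : ∀ J (y : Slot.C (J + 2) 4 → OpFam), Slot.Good (J + 2) 4 y → ∀ F : Co (J + 1) 4,
    Good6 (J + 1) 4 F → pairCo (Slot.fF (J + 1) 4 y) F = pairCo y (fun _ => piv * F ())
  head : ∀ (y : Slot.C 1 3 → OpFam), Slot.Good 1 3 y → ∀ F : Co 0 3,
    Good6 0 3 F → pairCo (Slot.fF 0 3 y) F = pairCo y (fun p => zS p.2 * zS p.1 * F ())

theorem good6_delta {w : Ob} {t : ℤ} {J k : ℕ} {F : Fin w.rk → Co J k} (h : Pos w t J k F)
    (r : Fin w.rk) : Good6 J (k + 1) (delta J k (F r)) := by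
  cases w with
  | line a s =>
    obtain rfl : r = (0 : Fin 1) := Subsingleton.elim (α := Fin 1) _ _
    exact good6_of_posL (delta_posL J k _ _ _ h)
  | pair c => exact good6_of_posL (delta_posL J k _ _ _ (h.1 r))

theorem good6_topLink (J : ℕ) {G : Co (J + 1) 4} (hG : Good6 (J + 1) 4 G) :
    Good6 (J + 2) 4 (fun _ => piv * G ()) := by
  intro c m hm
  have hp : ∀ l : Fin 2, ev (pv l * (zv l * G ())) m = 0 := fun l => by
    rw [← pair_single, ← pair_P, pair_apply]
    refine Finset.sum_eq_zero fun n _ => ?_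
    show OpFam.P l (Pi.single m 1) n * ev (zv l * G ()) n = 0
    rw [ev_zv_mul]
    by_cases hn : ((n.1 + n.2 : ℕ) : ℤ) = J
    · rw [OpFam.P_apply, Pi.single_eq_of_ne, smul_zero, zero_mul]
      intro e
      apply hm
      subst e
      fin_cases l <;> simp [OpFam.up, Slot.q] at hn ⊢ <;> omega
    · rw [hG () n hn, mul_zero, mul_zero]
  have e : piv * G () = pv 0 * (zv 0 * G ()) + pv 1 * (zv 1 * G ()) := by
    simp [piv, pv, zv]; ring
  show ev (piv * G ()) m = 0
  rw [e, map_add, Finsupp.add_apply, hp, hp, add_zero]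

theorem good6_headLink {G : Co 0 3} (hG : Good6 0 3 G) :
    Good6 1 3 (fun p => zS p.2 * zS p.1 * G ()) := by
  intro p m hm
  show ev (zS p.2 * zS p.1 * G ()) m = 0
  have hz : ∀ l, zS l = zv l := fun l => by fin_cases l <;> rfl
  rw [mul_assoc, hz, hz, ev_zv_mul, ev_zv_mul, hG () m hm, mul_zero, mul_zero]

theorem top_rows (H : Transposes) {r : ℕ} (J : ℕ) (F : Fin r → Co (J + 1) 4)
    (hg : ∀ c, Good6 (J + 1) 4 (F c)) :
    ∀ i : Slot.I (J + 1 + 1) 4,
    ∑ i', (Slot.shape (J + 1 + 1) 4).mat (Slot.shape (J + 1) 4) (Slot.fF (J + 1) 4) i i' *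
      rowsOf F i' = rowsOf (J := J + 1 + 1) (k := 4) (fun c _ => piv * F c ()) i := by
  intro i
  refine lmat_rows (J := J + 1 + 1) (k := 4) (J' := J + 1) (k' := 4)
    (Φ := Slot.fF (J + 1) 4) (Ψ := fun G _ => piv * G ()) ?_ F ?_ i
  · exact Slot.good_fF (J + 1) 4
  · exact fun y hy c => H.top J y hy _ (hg c)

theorem head_rows (H : Transposes) {r : ℕ} (F : Fin r → Co 0 3)
    (hg : ∀ c, Good6 0 3 (F c)) (i : Slot.I 1 3) :
    ∑ i', (Slot.shape 1 3).mat (Slot.shape 0 3) (Slot.fF 0 3) i i' *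
      rowsOf F i' = rowsOf (headLink F) i :=
  lmat_rows (J := 1) (k := 3) (J' := 0) (k' := 3) (Φ := Slot.fF 0 3)
    (Ψ := fun (G : Co 0 3) (p : Fin 2 × Fin 2) => zS p.2 * zS p.1 * G ()) (Slot.good_fF 0 3) F
    (fun y hy c => H.head y hy _ (hg c)) i

/-- The passage to symbols. -/
noncomputable def symMapOf (H : Transposes) (v : Fin 8) : SymMap v where
  sy := syMap v
  mem t J k y h := by
    obtain ⟨F, hF, rfl⟩ := pos_exists y h
    rwa [syMap_rows F (good6_of_pos hF)]
  inj t J k y h h0 := by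
    obtain ⟨F, hF, rfl⟩ := pos_exists y h
    rw [syMap_rows F (good6_of_pos hF)] at h0
    subst h0
    exact _root_.funext fun i => rowsOf_zero i
  lift t J k F hF := ⟨rowsOf F, pos_rows hF, syMap_rows F (good6_of_pos hF)⟩
  diff t J k y h := by
    obtain ⟨F, hF, rfl⟩ := pos_exists y h
    have e : lmat (Slot.dF J k) v (rowsOf F) = rowsOf (dCol J k F) := _root_.funext fun i =>
      lmat_rows (Slot.good_dF J k) F (fun y hy c => H.dF J k y hy _ (good6_of_pos hF c)) i
    rw [e, syMap_rows F (good6_of_pos hF), syMap_rows (dCol J k F) fun r => good6_delta hF r]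
  top t J y h := by
    obtain ⟨F, hF, rfl⟩ := pos_exists y h
    have hg := good6_of_pos hF
    have e : lmat (Slot.fF (J + 1) 4) v (rowsOf F) = rowsOf (topLink J F) :=
      _root_.funext fun i => top_rows H J F hg i
    rw [e, syMap_rows F hg, syMap_rows (topLink J F) fun r => good6_topLink J (hg r)]
  head t y h := by
    obtain ⟨F, hF, rfl⟩ := pos_exists y h
    have hg := good6_of_pos hF
    have e : lmat (Slot.fF 0 3) v (rowsOf F) = rowsOf (headLink F) :=
      _root_.funext fun i => head_rows H F hg i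
    rw [e, syMap_rows F hg, syMap_rows (headLink F) fun r => good6_headLink (hg r)]

end Vale.Agent.P195.Gamma.ExactB
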