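import Vale.Agent.P195.Gamma.ExactB.Adj
import Vale.Agent.P195.Gamma.ExactB.SymBridge

/-!
The passage from blocks to symbols.
-/

namespace Vale.Agent.P195.Gamma.ExactB

theorem transposes : Transposes where
  dF J k y _ F _ := adj_dF J k y F
  top J y _ F _ := adj_top J y F
  head y _ F _ := adj_head y F

/-- The symbols of blocks into a column. -/
noncomputable def symMap (v : Fin 8) : SymMap v := symMapOf transposes v

end Vale.Agent.P195.Gamma.ExactB
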