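import Vale.Agent.P195.Gamma.ExactB.Cocone
import Vale.Agent.P195.Gamma.ExactB.Transpose
import Vale.Agent.P195.Gamma.ExactB.LineTarget
import Vale.Agent.P195.Gamma.ExactB.PairTarget

/-!
Every cocone of maps into a column is exact.
-/

namespace Vale.Agent.P195.Gamma.ExactB

open Model

/-- The symbol statements at every vertex. -/
theorem symExact : ∀ v : Fin 8, SymExact (obj v)
  | 0 => symExact_line (a := 0) (s := 0) (by norm_num)
  | 1 => symExact_line (a := 1) (s := 0) (by norm_num)
  | 2 => symExact_line (a := 2) (s := 0) (by norm_num)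
  | 3 => symExact_pair 1
  | 4 => symExact_pair 2
  | 5 => symExact_line (a := 0) (s := 1) (by norm_num)
  | 6 => symExact_pair 2
  | 7 => symExact_line (a := 1) (s := 0) (by norm_num)

/-- The cocones of maps into every column are exact. -/
theorem coconeAll (v : Fin 8) :
    Total.CoconeExact (K := Slot.LowCo v) (X := Slot.UpCo v) (Slot.coLow v) (Slot.coUp v)
      (Slot.coLink v) :=
  coconeExact (symMap v) (symExact v)

end Vale.Agent.P195.Gamma.ExactB
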