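import Vale.Agent.P195.Gamma.ExactB.Layer

/-!
The complexes of symbols dual to the resolving complexes, and their filtration by order.
-/

namespace Vale.Agent.P195.Gamma.ExactB

open MvPolynomial

/-- Degree one cochains: two rows at the line object and a pair at the second kernel object. -/
@[ext] structure Co1 where
  /-- The first line entry. -/
  u0 : S6
  /-- The second line entry. -/
  u1 : S6
  /-- The first entry at the kernel object. -/
  g0 : S6
  /-- The second entry at the kernel object. -/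
  g1 : S6

/-- Degree two cochains: two pairs at the first kernel object. -/
@[ext] structure Co2 where
  /-- The first entry of the first pair. -/
  a0 : S6
  /-- The second entry of the first pair. -/
  a1 : S6
  /-- The first entry of the second pair. -/
  b0 : S6
  /-- The second entry of the second pair. -/
  b1 : S6

noncomputable instance : Zero Co1 := ⟨⟨0, 0, 0, 0⟩⟩
noncomputable instance : Sub Co1 := ⟨fun x y => ⟨x.u0 - y.u0, x.u1 - y.u1, x.g0 - y.g0, x.g1 - y.g1⟩⟩
noncomputable instance : Zero Co2 := ⟨⟨0, 0, 0, 0⟩⟩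
noncomputable instance : Sub Co2 := ⟨fun x y => ⟨x.a0 - y.a0, x.a1 - y.a1, x.b0 - y.b0, x.b1 - y.b1⟩⟩

@[simp] theorem Co1.sub_u0 (x y : Co1) : (x - y).u0 = x.u0 - y.u0 := rfl
@[simp] theorem Co1.sub_u1 (x y : Co1) : (x - y).u1 = x.u1 - y.u1 := rfl
@[simp] theorem Co1.sub_g0 (x y : Co1) : (x - y).g0 = x.g0 - y.g0 := rfl
@[simp] theorem Co1.sub_g1 (x y : Co1) : (x - y).g1 = x.g1 - y.g1 := rfl
@[simp] theorem Co2.sub_a0 (x y : Co2) : (x - y).a0 = x.a0 - y.a0 := rfl
@[simp] theorem Co2.sub_a1 (x y : Co2) : (x - y).a1 = x.a1 - y.a1 := rfl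
@[simp] theorem Co2.sub_b0 (x y : Co2) : (x - y).b0 = x.b0 - y.b0 := rfl
@[simp] theorem Co2.sub_b1 (x y : Co2) : (x - y).b1 = x.b1 - y.b1 := rfl
@[simp] theorem Co1.zero_u0 : (0 : Co1).u0 = 0 := rfl
@[simp] theorem Co1.zero_u1 : (0 : Co1).u1 = 0 := rfl
@[simp] theorem Co1.zero_g0 : (0 : Co1).g0 = 0 := rfl
@[simp] theorem Co1.zero_g1 : (0 : Co1).g1 = 0 := rfl
@[simp] theorem Co2.zero_a0 : (0 : Co2).a0 = 0 := rfl
@[simp] theorem Co2.zero_a1 : (0 : Co2).a1 = 0 := rfl
@[simp] theorem Co2.zero_b0 : (0 : Co2).b0 = 0 := rfl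
@[simp] theorem Co2.zero_b1 : (0 : Co2).b1 = 0 := rfl

/-- The first component of the pair differential. -/
noncomputable def D0r (j : ℕ) (z G s : S6) : S6 := -(p0 * G) + cc j * (L0 (piv * G) - L0 (z * s))

/-- The second component of the pair differential. -/
noncomputable def D1r (j : ℕ) (z G s : S6) : S6 := -(p1 * G) + cc j * (L1 (piv * G) - L1 (z * s))

/-- The differential from degree zero. -/
noncomputable def d0 (j : ℕ) (f : S6) : Co1 where
  u0 := cc j * L1 (piv * f) - p1 * f
  u1 := -(cc j * L0 (piv * f) - p0 * f)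
  g0 := dp0 f - z0 * (cc j * (L0 (dp0 f) + L1 (dp1 f)))
  g1 := dp1 f - z1 * (cc j * (L0 (dp0 f) + L1 (dp1 f)))

/-- The differential from degree one. -/
noncomputable def d1 (j : ℕ) (x : Co1) : Co2 where
  a0 := dp0 x.u0 - z0 * (cc j * dp0 (L0 x.u0 + L1 x.u1)) - D1r j z0 x.g0 (p0 * x.g0 + p1 * x.g1)
  a1 := dp1 x.u0 - z1 * (cc j * dp0 (L0 x.u0 + L1 x.u1)) - D1r j z1 x.g1 (p0 * x.g0 + p1 * x.g1)
  b0 := dp0 x.u1 - z0 * (cc j * dp1 (L0 x.u0 + L1 x.u1)) + D0r j z0 x.g0 (p0 * x.g0 + p1 * x.g1)
  b1 := dp1 x.u1 - z1 * (cc j * dp1 (L0 x.u0 + L1 x.u1)) + D0r j z1 x.g1 (p0 * x.g0 + p1 * x.g1)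

/-- The differential from degree two. -/
noncomputable def d2 (j : ℕ) (x : Co2) : S6 :=
  cc j * (L0 (piv * (dp1 x.a0 - dp0 x.a1)) - ((j : S6) + 2) * (p0 * (dp1 x.a0 - dp0 x.a1)) -
      del (L0 (p0 * x.a0 + p1 * x.a1))) +
    cc j * (L1 (piv * (dp1 x.b0 - dp0 x.b1)) - ((j : S6) + 2) * (p1 * (dp1 x.b0 - dp0 x.b1)) -
      del (L1 (p0 * x.b0 + p1 * x.b1)))

theorem d0_sub (j : ℕ) (f g : S6) : d0 j (f - g) = d0 j f - d0 j g := by
  ext1 <;> simp only [d0, Co1.sub_u0, Co1.sub_u1, Co1.sub_g0, Co1.sub_g1] <;> ((simp only [del, eps, Om, L0, L1, piv, dz0, dz1, dx0, dx1, dp0, dp1,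
                                                                                z0, z1, x0, x1, p0, p1, Derivation.map_add, Derivation.map_sub,
                                                                                Derivation.map_neg, Derivation.map_intCast, Derivation.map_natCast,
                                                                                Derivation.map_one_eq_zero, map_zero, pderiv_mul, pderiv_C, pderiv_X_self, rules6]);
                                                                                try simp only [pderiv_cc, zero_mul, mul_zero, add_zero, zero_add, sub_zero, map_zero]) <;> ring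

theorem d1_sub (j : ℕ) (x y : Co1) : d1 j (x - y) = d1 j x - d1 j y := by
  ext1 <;>
    simp only [d1, D0r, D1r, Co1.sub_u0, Co1.sub_u1, Co1.sub_g0, Co1.sub_g1, Co2.sub_a0,
      Co2.sub_a1, Co2.sub_b0, Co2.sub_b1] <;> ((simp only [del, eps, Om, L0, L1, piv, dz0, dz1, dx0, dx1, dp0, dp1,
                                                z0, z1, x0, x1, p0, p1, Derivation.map_add, Derivation.map_sub,
                                                Derivation.map_neg, Derivation.map_intCast, Derivation.map_natCast,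
                                                Derivation.map_one_eq_zero, map_zero, pderiv_mul, pderiv_C, pderiv_X_self, rules6]);
                                                try simp only [pderiv_cc, zero_mul, mul_zero, add_zero, zero_add, sub_zero, map_zero]) <;> ring

theorem d2_sub (j : ℕ) (x y : Co2) : d2 j (x - y) = d2 j x - d2 j y := by
  simp only [d2, Co2.sub_a0, Co2.sub_a1, Co2.sub_b0, Co2.sub_b1]
  ((simp only [del, eps, Om, L0, L1, piv, dz0, dz1, dx0, dx1, dp0, dp1,
      z0, z1, x0, x1, p0, p1, Derivation.map_add, Derivation.map_sub,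
      Derivation.map_neg, Derivation.map_intCast, Derivation.map_natCast,
      Derivation.map_one_eq_zero, map_zero, pderiv_mul, pderiv_C, pderiv_X_self, rules6]);
      try simp only [pderiv_cc, zero_mul, mul_zero, add_zero, zero_add, sub_zero, map_zero])
  ring

/-- The determinant of two rows together with the dual Euler relation. -/
theorem piv_chi {q : ℤ} {P0 P1 : S6} (e0 : p0 * dp0 P0 + p1 * dp1 P0 = (q : S6) * P0)
    (e1 : p0 * dp0 P1 + p1 * dp1 P1 = (q : S6) * P1) :
    piv * (dp1 P0 - dp0 P1) - del (p0 * P0 + p1 * P1) = ((q : S6) + 1) * (z1 * P0 - z0 * P1) := by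
  revert e0 e1
  ((simp only [del, eps, Om, L0, L1, piv, dz0, dz1, dx0, dx1, dp0, dp1,
      z0, z1, x0, x1, p0, p1, Derivation.map_add, Derivation.map_sub,
      Derivation.map_neg, Derivation.map_intCast, Derivation.map_natCast,
      Derivation.map_one_eq_zero, map_zero, pderiv_mul, pderiv_C, pderiv_X_self, rules6]);
      try simp only [pderiv_cc, zero_mul, mul_zero, add_zero, zero_add, sub_zero, map_zero])
  intro e0 e1
  linear_combination z1 * e0 - z0 * e1

/-- The differential from degree one in coordinates. -/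
theorem d1_coord (j : ℕ) (u0 u1 P0 P1 Q : S6) :
    d1 j ⟨u0, u1, P0 - z0 * Q, P1 - z1 * Q⟩ =
      ⟨(dp0 u0 - D1r j z0 P0 (p0 * P0 + p1 * P1)) -
          z0 * (cc j * dp0 (L0 u0 + L1 u1) + p1 * Q),
        (dp1 u0 - D1r j z1 P1 (p0 * P0 + p1 * P1)) -
          z1 * (cc j * dp0 (L0 u0 + L1 u1) + p1 * Q),
        (dp0 u1 + D0r j z0 P0 (p0 * P0 + p1 * P1)) -
          z0 * (cc j * dp1 (L0 u0 + L1 u1) - p0 * Q),
        (dp1 u1 + D0r j z1 P1 (p0 * P0 + p1 * P1)) -
          z1 * (cc j * dp1 (L0 u0 + L1 u1) - p0 * Q)⟩ := by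
  ext1 <;> simp only [d1, D0r, D1r] <;> ((simp only [del, eps, Om, L0, L1, piv, dz0, dz1, dx0, dx1, dp0, dp1,
                                            z0, z1, x0, x1, p0, p1, Derivation.map_add, Derivation.map_sub,
                                            Derivation.map_neg, Derivation.map_intCast, Derivation.map_natCast,
                                            Derivation.map_one_eq_zero, map_zero, pderiv_mul, pderiv_C, pderiv_X_self, rules6]);
                                            try simp only [pderiv_cc, zero_mul, mul_zero, add_zero, zero_add, sub_zero, map_zero]) <;> ring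

/-- The differential from degree two on multiples of `z`. -/
theorem d2_zQ (j : ℕ) {Q0 Q1 : S6}
    (eQ0 : p0 * dp0 Q0 + p1 * dp1 Q0 = ((j : ℤ) : S6) * Q0)
    (eQ1 : p0 * dp0 Q1 + p1 * dp1 Q1 = ((j : ℤ) : S6) * Q1) :
    d2 j ⟨z0 * Q0, z1 * Q0, z0 * Q1, z1 * Q1⟩ = -del (p0 * Q0 + p1 * Q1) := by
  have hcc := cc_mul j
  revert eQ0 eQ1 hcc
  simp only [d2]
  ((simp only [del, eps, Om, L0, L1, piv, dz0, dz1, dx0, dx1, dp0, dp1,
      z0, z1, x0, x1, p0, p1, Derivation.map_add, Derivation.map_sub,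
      Derivation.map_neg, Derivation.map_intCast, Derivation.map_natCast,
      Derivation.map_one_eq_zero, map_zero, pderiv_mul, pderiv_C, pderiv_X_self, rules6]);
      try simp only [pderiv_cc, zero_mul, mul_zero, add_zero, zero_add, sub_zero, map_zero])
  push_cast
  intro eQ0 eQ1 hcc
  linear_combination cc j * z1 * eQ0 - cc j * z0 * eQ1 - (z0 * p0 * dp1 Q0 + z0 * p1 * dp1 Q1 +
    z0 * Q1 - z1 * p0 * dp0 Q0 - z1 * p1 * dp0 Q1 - z1 * Q0) * hcc

/-- The differential from degree two in coordinates. -/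
theorem d2_coord (j : ℕ) {A0 A1 B0 B1 Q0 Q1 : S6}
    (eA0 : p0 * dp0 A0 + p1 * dp1 A0 = ((j : ℤ) : S6) * A0)
    (eA1 : p0 * dp0 A1 + p1 * dp1 A1 = ((j : ℤ) : S6) * A1)
    (eB0 : p0 * dp0 B0 + p1 * dp1 B0 = ((j : ℤ) : S6) * B0)
    (eB1 : p0 * dp0 B1 + p1 * dp1 B1 = ((j : ℤ) : S6) * B1)
    (eQ0 : p0 * dp0 Q0 + p1 * dp1 Q0 = ((j : ℤ) : S6) * Q0)
    (eQ1 : p0 * dp0 Q1 + p1 * dp1 Q1 = ((j : ℤ) : S6) * Q1) :
    d2 j ⟨A0 - z0 * Q0, A1 - z1 * Q0, B0 - z0 * Q1, B1 - z1 * Q1⟩ =
      x0 * (z1 * A0 - z0 * A1) + x1 * (z1 * B0 - z0 * B1) + del (p0 * Q0 + p1 * Q1) +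
        cc j * (dz0 (piv * (dp1 A0 - dp0 A1)) - ((j : S6) + 2) * (p0 * (dp1 A0 - dp0 A1)) -
            del (dz0 (p0 * A0 + p1 * A1))) +
        cc j * (dz1 (piv * (dp1 B0 - dp0 B1)) - ((j : S6) + 2) * (p1 * (dp1 B0 - dp0 B1)) -
            del (dz1 (p0 * B0 + p1 * B1))) := by
  have hA := piv_chi eA0 eA1
  have hB := piv_chi eB0 eB1
  have hcc := cc_mul j
  have hd : ∀ F, del (x0 * F) = x0 * del F ∧ del (x1 * F) = x1 * del F := fun F => by
    constructor <;> (((simp only [del, eps, Om, L0, L1, piv, dz0, dz1, dx0, dx1, dp0, dp1,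
                         z0, z1, x0, x1, p0, p1, Derivation.map_add, Derivation.map_sub,
                         Derivation.map_neg, Derivation.map_intCast, Derivation.map_natCast,
                         Derivation.map_one_eq_zero, map_zero, pderiv_mul, pderiv_C, pderiv_X_self, rules6]);
                         try simp only [pderiv_cc, zero_mul, mul_zero, add_zero, zero_add, sub_zero, map_zero]); ring)
  have split : d2 j ⟨A0, A1, B0, B1⟩ =
      x0 * (z1 * A0 - z0 * A1) + x1 * (z1 * B0 - z0 * B1) +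
        cc j * (dz0 (piv * (dp1 A0 - dp0 A1)) - ((j : S6) + 2) * (p0 * (dp1 A0 - dp0 A1)) -
            del (dz0 (p0 * A0 + p1 * A1))) +
        cc j * (dz1 (piv * (dp1 B0 - dp0 B1)) - ((j : S6) + 2) * (p1 * (dp1 B0 - dp0 B1)) -
            del (dz1 (p0 * B0 + p1 * B1))) := by
    have hadd : ∀ F G, del (F + G) = del F + del G := fun F G => by ((simp only [del, eps, Om, L0, L1, piv, dz0, dz1, dx0, dx1, dp0, dp1,
                                                                      z0, z1, x0, x1, p0, p1, Derivation.map_add, Derivation.map_sub,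
                                                                      Derivation.map_neg, Derivation.map_intCast, Derivation.map_natCast,
                                                                      Derivation.map_one_eq_zero, map_zero, pderiv_mul, pderiv_C, pderiv_X_self, rules6]);
                                                                      try simp only [pderiv_cc, zero_mul, mul_zero, add_zero, zero_add, sub_zero, map_zero]); ring
    push_cast at hA hB
    simp only [d2, L0, L1, hadd, (hd _).1, (hd _).2] at hA hB ⊢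
    linear_combination cc j * x0 * hA + cc j * x1 * hB +
      (x0 * (z1 * A0 - z0 * A1) + x1 * (z1 * B0 - z0 * B1)) * hcc
  have hQ := d2_zQ j eQ0 eQ1
  have := d2_sub j ⟨A0, A1, B0, B1⟩ ⟨z0 * Q0, z1 * Q0, z0 * Q1, z1 * Q1⟩
  rw [split, hQ] at this
  refine this.trans ?_
  ring

theorem d1_d0 (j : ℕ) {f : S6} (e : p0 * dp0 f + p1 * dp1 f = ((j : ℤ) : S6) * f) :
    d1 j (d0 j f) = 0 := by
  have hcc := cc_mul j
  revert e hcc
  simp only [d0, d1, D0r, D1r]
  ((simp only [del, eps, Om, L0, L1, piv, dz0, dz1, dx0, dx1, dp0, dp1,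
      z0, z1, x0, x1, p0, p1, Derivation.map_add, Derivation.map_sub,
      Derivation.map_neg, Derivation.map_intCast, Derivation.map_natCast,
      Derivation.map_one_eq_zero, map_zero, pderiv_mul, pderiv_C, pderiv_X_self, rules6]);
      try simp only [pderiv_cc, zero_mul, mul_zero, add_zero, zero_add, sub_zero, map_zero])
  push_cast
  intro e hcc
  ext1 <;> simp only [Co2.zero_a0, Co2.zero_a1, Co2.zero_b0, Co2.zero_b1]
  all_goals ring_nf
  · linear_combination cc j * e + f * hcc
  · linear_combination -(cc j) * e - f * hcc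

theorem dp_L (F : S6) :
    dp0 (L0 F) = L0 (dp0 F) ∧ dp1 (L0 F) = L0 (dp1 F) ∧ dp0 (L1 F) = L1 (dp0 F) ∧
      dp1 (L1 F) = L1 (dp1 F) := by
  refine ⟨?_, ?_, ?_, ?_⟩ <;> ((simp only [del, eps, Om, L0, L1, piv, dz0, dz1, dx0, dx1, dp0, dp1,
                                  z0, z1, x0, x1, p0, p1, Derivation.map_add, Derivation.map_sub,
                                  Derivation.map_neg, Derivation.map_intCast, Derivation.map_natCast,
                                  Derivation.map_one_eq_zero, map_zero, pderiv_mul, pderiv_C, pderiv_X_self, rules6]);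
                                  try simp only [pderiv_cc, zero_mul, mul_zero, add_zero, zero_add, sub_zero, map_zero])

/-- The vanishing on the rows at the line objects. -/
theorem d2_d1_line (j : ℕ) {u0 u1 : S6}
    (e0 : p0 * dp0 u0 + p1 * dp1 u0 = ((j + 1 : ℤ) : S6) * u0)
    (e1 : p0 * dp0 u1 + p1 * dp1 u1 = ((j + 1 : ℤ) : S6) * u1) :
    d2 j (d1 j ⟨u0, u1, 0, 0⟩) = 0 := by
  have hcc := cc_mul j
  set Lu := L0 u0 + L1 u1 with hLu
  have eL : p0 * dp0 Lu + p1 * dp1 Lu = ((j + 1 : ℤ) : S6) * Lu := by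
    have h0 : L0 (p0 * dp0 u0 + p1 * dp1 u0) = L0 (((j + 1 : ℤ) : S6) * u0) := by rw [e0]
    have h1 : L1 (p0 * dp0 u1 + p1 * dp1 u1) = L1 (((j + 1 : ℤ) : S6) * u1) := by rw [e1]
    revert h0 h1
    rw [hLu]
    ((simp only [del, eps, Om, L0, L1, piv, dz0, dz1, dx0, dx1, dp0, dp1,
        z0, z1, x0, x1, p0, p1, Derivation.map_add, Derivation.map_sub,
        Derivation.map_neg, Derivation.map_intCast, Derivation.map_natCast,
        Derivation.map_one_eq_zero, map_zero, pderiv_mul, pderiv_C, pderiv_X_self, rules6]);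
        try simp only [pderiv_cc, zero_mul, mul_zero, add_zero, zero_add, sub_zero, map_zero])
    intro h0 h1
    linear_combination h0 + h1
  have dd : ∀ k : Fin 6, p0 * dp0 (pderiv k Lu) + p1 * dp1 (pderiv k Lu) =
      pderiv k (p0 * dp0 Lu + p1 * dp1 Lu) - (pderiv k p0 * dp0 Lu + pderiv k p1 * dp1 Lu) := by
    intro k
    simp only [dp0, dp1, map_add, pderiv_mul, pd_comm 4 k, pd_comm 5 k]
    ring
  have eq0 : p0 * dp0 (cc j * dp0 Lu) + p1 * dp1 (cc j * dp0 Lu) =
      ((j : ℤ) : S6) * (cc j * dp0 Lu) := by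
    have h := dd 4
    rw [eL] at h
    revert h
    ((simp only [del, eps, Om, L0, L1, piv, dz0, dz1, dx0, dx1, dp0, dp1,
        z0, z1, x0, x1, p0, p1, Derivation.map_add, Derivation.map_sub,
        Derivation.map_neg, Derivation.map_intCast, Derivation.map_natCast,
        Derivation.map_one_eq_zero, map_zero, pderiv_mul, pderiv_C, pderiv_X_self, rules6]);
        try simp only [pderiv_cc, zero_mul, mul_zero, add_zero, zero_add, sub_zero, map_zero])
    push_cast
    intro h
    linear_combination cc j * h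
  have eq1 : p0 * dp0 (cc j * dp1 Lu) + p1 * dp1 (cc j * dp1 Lu) =
      ((j : ℤ) : S6) * (cc j * dp1 Lu) := by
    have h := dd 5
    rw [eL] at h
    revert h
    ((simp only [del, eps, Om, L0, L1, piv, dz0, dz1, dx0, dx1, dp0, dp1,
        z0, z1, x0, x1, p0, p1, Derivation.map_add, Derivation.map_sub,
        Derivation.map_neg, Derivation.map_intCast, Derivation.map_natCast,
        Derivation.map_one_eq_zero, map_zero, pderiv_mul, pderiv_C, pderiv_X_self, rules6]);
        try simp only [pderiv_cc, zero_mul, mul_zero, add_zero, zero_add, sub_zero, map_zero])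
    push_cast
    intro h
    linear_combination cc j * h
  have hz := d2_zQ j eq0 eq1
  have hd : d1 j ⟨u0, u1, 0, 0⟩ = (⟨dp0 u0, dp1 u0, dp0 u1, dp1 u1⟩ : Co2) -
      ⟨z0 * (cc j * dp0 Lu), z1 * (cc j * dp0 Lu), z0 * (cc j * dp1 Lu),
        z1 * (cc j * dp1 Lu)⟩ := by
    ext1 <;> simp only [d1, D0r, D1r, Co2.sub_a0, Co2.sub_a1, Co2.sub_b0, Co2.sub_b1, hLu] <;>
      ((simp only [del, eps, Om, L0, L1, piv, dz0, dz1, dx0, dx1, dp0, dp1,
          z0, z1, x0, x1, p0, p1, Derivation.map_add, Derivation.map_sub,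
          Derivation.map_neg, Derivation.map_intCast, Derivation.map_natCast,
          Derivation.map_one_eq_zero, map_zero, pderiv_mul, pderiv_C, pderiv_X_self, rules6]);
          try simp only [pderiv_cc, zero_mul, mul_zero, add_zero, zero_add, sub_zero, map_zero]) <;> ring
  have hu : d2 j ⟨dp0 u0, dp1 u0, dp0 u1, dp1 u1⟩ = -del Lu := by
    rw [hLu]
    simp only [d2, e0, e1, dp1_dp0, sub_self, mul_zero]
    ((simp only [del, eps, Om, L0, L1, piv, dz0, dz1, dx0, dx1, dp0, dp1,
        z0, z1, x0, x1, p0, p1, Derivation.map_add, Derivation.map_sub,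
        Derivation.map_neg, Derivation.map_intCast, Derivation.map_natCast,
        Derivation.map_one_eq_zero, map_zero, pderiv_mul, pderiv_C, pderiv_X_self, rules6]);
        try simp only [pderiv_cc, zero_mul, mul_zero, add_zero, zero_add, sub_zero, map_zero])
    push_cast
    linear_combination -(z0 * (x0 * dp1 u0 + dz0 (dp1 u0) + x1 * dp1 u1 + dz1 (dp1 u1)) -
      z1 * (x0 * dp0 u0 + dz0 (dp0 u0) + x1 * dp0 u1 + dz1 (dp0 u1))) * hcc
  rw [hd, d2_sub, hu, hz, show p0 * (cc j * dp0 Lu) + p1 * (cc j * dp1 Lu) = Lu by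
    push_cast at eL
    linear_combination cc j * eL + Lu * hcc]
  ring

/-- The determinant of the pair differential. -/
theorem chi_D (j : ℕ) {G0 G1 : S6}
    (f0 : p0 * dp0 G0 + p1 * dp1 G0 = ((j - 1 : ℤ) : S6) * G0)
    (f1 : p0 * dp0 G1 + p1 * dp1 G1 = ((j - 1 : ℤ) : S6) * G1) :
    dp1 (D0r j z0 G0 (p0 * G0 + p1 * G1)) - dp0 (D0r j z1 G1 (p0 * G0 + p1 * G1)) =
        G1 - p0 * (dp1 G0 - dp0 G1) + L0 (z1 * G0 - z0 * G1) ∧
      dp1 (D1r j z0 G0 (p0 * G0 + p1 * G1)) - dp0 (D1r j z1 G1 (p0 * G0 + p1 * G1)) =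
        -G0 - p1 * (dp1 G0 - dp0 G1) + L1 (z1 * G0 - z0 * G1) := by
  have hcc := cc_mul j
  have h := piv_chi f0 f1
  have h0 := congrArg L0 h
  have h1 := congrArg L1 h
  revert h0 h1 hcc
  simp only [D0r, D1r]
  ((simp only [del, eps, Om, L0, L1, piv, dz0, dz1, dx0, dx1, dp0, dp1,
      z0, z1, x0, x1, p0, p1, Derivation.map_add, Derivation.map_sub,
      Derivation.map_neg, Derivation.map_intCast, Derivation.map_natCast,
      Derivation.map_one_eq_zero, map_zero, pderiv_mul, pderiv_C, pderiv_X_self, rules6]);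
      try simp only [pderiv_cc, zero_mul, mul_zero, add_zero, zero_add, sub_zero, map_zero])
  push_cast
  intro hcc h0 h1
  constructor
  · linear_combination cc j * h0 + (x0 * (z1 * G0 - z0 * G1) + (z1 * dz0 G0 - z0 * dz0 G1 - G1)) * hcc
  · linear_combination cc j * h1 + (x1 * (z1 * G0 - z0 * G1) + (z1 * dz1 G0 + G0 - z0 * dz1 G1)) * hcc

/-- The vanishing on the rows at the second kernel object. -/
theorem d2_d1_pair (j : ℕ) {G0 G1 : S6}
    (f0 : p0 * dp0 G0 + p1 * dp1 G0 = ((j - 1 : ℤ) : S6) * G0)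
    (f1 : p0 * dp0 G1 + p1 * dp1 G1 = ((j - 1 : ℤ) : S6) * G1) :
    d2 j (d1 j ⟨0, 0, G0, G1⟩) = 0 := by
  have hcc := cc_mul j
  obtain ⟨c0, c1⟩ := chi_D j f0 f1
  have hd : d1 j ⟨0, 0, G0, G1⟩ =
      ⟨-D1r j z0 G0 (p0 * G0 + p1 * G1), -D1r j z1 G1 (p0 * G0 + p1 * G1),
        D0r j z0 G0 (p0 * G0 + p1 * G1), D0r j z1 G1 (p0 * G0 + p1 * G1)⟩ := by
    ext1 <;> simp only [d1, D0r, D1r] <;> ((simp only [del, eps, Om, L0, L1, piv, dz0, dz1, dx0, dx1, dp0, dp1,
                                            z0, z1, x0, x1, p0, p1, Derivation.map_add, Derivation.map_sub,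
                                            Derivation.map_neg, Derivation.map_intCast, Derivation.map_natCast,
                                            Derivation.map_one_eq_zero, map_zero, pderiv_mul, pderiv_C, pderiv_X_self, rules6]);
                                            try simp only [pderiv_cc, zero_mul, mul_zero, add_zero, zero_add, sub_zero, map_zero]) <;> ring
  have s0 : p0 * D0r j z0 G0 (p0 * G0 + p1 * G1) + p1 * D0r j z1 G1 (p0 * G0 + p1 * G1) =
      -(p0 * (p0 * G0 + p1 * G1)) := by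
    simp only [D0r]; ((simp only [del, eps, Om, L0, L1, piv, dz0, dz1, dx0, dx1, dp0, dp1,
                         z0, z1, x0, x1, p0, p1, Derivation.map_add, Derivation.map_sub,
                         Derivation.map_neg, Derivation.map_intCast, Derivation.map_natCast,
                         Derivation.map_one_eq_zero, map_zero, pderiv_mul, pderiv_C, pderiv_X_self, rules6]);
                         try simp only [pderiv_cc, zero_mul, mul_zero, add_zero, zero_add, sub_zero, map_zero]); ring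
  have s1 : p0 * D1r j z0 G0 (p0 * G0 + p1 * G1) + p1 * D1r j z1 G1 (p0 * G0 + p1 * G1) =
      -(p1 * (p0 * G0 + p1 * G1)) := by
    simp only [D1r]; ((simp only [del, eps, Om, L0, L1, piv, dz0, dz1, dx0, dx1, dp0, dp1,
                         z0, z1, x0, x1, p0, p1, Derivation.map_add, Derivation.map_sub,
                         Derivation.map_neg, Derivation.map_intCast, Derivation.map_natCast,
                         Derivation.map_one_eq_zero, map_zero, pderiv_mul, pderiv_C, pderiv_X_self, rules6]);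
                         try simp only [pderiv_cc, zero_mul, mul_zero, add_zero, zero_add, sub_zero, map_zero]); ring
  have s1' : p0 * -D1r j z0 G0 (p0 * G0 + p1 * G1) + p1 * -D1r j z1 G1 (p0 * G0 + p1 * G1) =
      p1 * (p0 * G0 + p1 * G1) := by linear_combination -s1
  have c1' : dp1 (-D1r j z0 G0 (p0 * G0 + p1 * G1)) - dp0 (-D1r j z1 G1 (p0 * G0 + p1 * G1)) =
      -(-G0 - p1 * (dp1 G0 - dp0 G1) + L1 (z1 * G0 - z0 * G1)) := by
    simp only [dp0, dp1, Derivation.map_neg] at c1 ⊢
    linear_combination -c1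
  have h := piv_chi f0 f1
  have h0 := congrArg L0 h
  have h1 := congrArg L1 h
  rw [hd]
  simp only [d2, c0, c1', s0, s1']
  revert h h0 h1 hcc f0 f1
  ((simp only [del, eps, Om, L0, L1, piv, dz0, dz1, dx0, dx1, dp0, dp1,
      z0, z1, x0, x1, p0, p1, Derivation.map_add, Derivation.map_sub,
      Derivation.map_neg, Derivation.map_intCast, Derivation.map_natCast,
      Derivation.map_one_eq_zero, map_zero, pderiv_mul, pderiv_C, pderiv_X_self, rules6]);
      try simp only [pderiv_cc, zero_mul, mul_zero, add_zero, zero_add, sub_zero, map_zero])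
  push_cast
  intro f0 f1 hcc h h0 h1
  linear_combination cc j * (p1 * h0 - p0 * h1) + cc j * (p0 * f0 + p1 * f1)

theorem d2_d1 (j : ℕ) {x : Co1}
    (e0 : p0 * dp0 x.u0 + p1 * dp1 x.u0 = ((j + 1 : ℤ) : S6) * x.u0)
    (e1 : p0 * dp0 x.u1 + p1 * dp1 x.u1 = ((j + 1 : ℤ) : S6) * x.u1)
    (f0 : p0 * dp0 x.g0 + p1 * dp1 x.g0 = ((j - 1 : ℤ) : S6) * x.g0)
    (f1 : p0 * dp0 x.g1 + p1 * dp1 x.g1 = ((j - 1 : ℤ) : S6) * x.g1) :
    d2 j (d1 j x) = 0 := by
  have e : x = (⟨x.u0, x.u1, 0, 0⟩ : Co1) - ⟨0, 0, -x.g0, -x.g1⟩ := by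
    ext1 <;> simp
  have g0' : p0 * dp0 (-x.g0) + p1 * dp1 (-x.g0) = ((j - 1 : ℤ) : S6) * (-x.g0) := by
    simp only [dp0, dp1, Derivation.map_neg] at f0 ⊢
    linear_combination -f0
  have g1' : p0 * dp0 (-x.g1) + p1 * dp1 (-x.g1) = ((j - 1 : ℤ) : S6) * (-x.g1) := by
    simp only [dp0, dp1, Derivation.map_neg] at f1 ⊢
    linear_combination -f1
  rw [e, d1_sub, d2_sub, d2_d1_line j e0 e1, d2_d1_pair j g0' g1', sub_zero]

end Vale.Agent.P195.Gamma.ExactB
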