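import Vale.Agent.P195.Gamma.ExactB.Basic

/-!
The complexes of symbols homogeneous in the momenta are exact in every degree of positive momentum
degree.
-/

namespace Vale.Agent.P195.Gamma.ExactB

open MvPolynomial

/-- The scalar `1 / (j + 1)`. -/
noncomputable def cc (j : ℕ) : S6 := MvPolynomial.C (((j : ℚ) + 1)⁻¹)

theorem cc_mul (j : ℕ) : ((j : S6) + 1) * cc j = 1 := by
  have h : ((j : S6) + 1) = MvPolynomial.C ((j : ℚ) + 1) := by simp
  rw [h, cc, ← map_mul, mul_inv_cancel₀ (by positivity), map_one]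

theorem cc_ne_zero (j : ℕ) : cc j ≠ 0 := fun h => by
  simpa [h] using cc_mul j

theorem pderiv_cc (k : Fin 6) (j : ℕ) : pderiv k (cc j) = 0 := pderiv_C

theorem cc_mul_mem {C : ℤ → ℤ → ℤ → Prop} {F : S6} (j : ℕ) (hF : F ∈ Sup C) : cc j * F ∈ Sup C :=
  C_mul_mem _ hF

/-! ### Membership in layers -/

theorem Lay_cast {e m q e' m' q' : ℤ} {F : S6} (hF : F ∈ Lay e m q) (he : e = e') (hm : m = m')
    (hq : q = q') : F ∈ Lay e' m' q' := by
  subst he hm hq; exact hF

theorem X_mul_Lay {e m q : ℤ} {F : S6} (k : Fin 6) (hF : F ∈ Lay e m q) :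
    X k * F ∈ Lay (e + wx k) (m + wz k) (q + wp k) :=
  X_mul_mem k hF fun _ _ _ ⟨a, b, c⟩ => ⟨by omega, by omega, by omega⟩

theorem pderiv_Lay {e m q : ℤ} {F : S6} (k : Fin 6) (hF : F ∈ Lay e m q) :
    pderiv k F ∈ Lay (e - wx k) (m - wz k) (q - wp k) :=
  pderiv_mem k hF fun _ _ _ ⟨a, b, c⟩ => ⟨by omega, by omega, by omega⟩

theorem piv_Lay {e m q : ℤ} {F : S6} (hF : F ∈ Lay e m q) :
    piv * F ∈ Lay e (m + 1) (q + 1) := by
  rw [show piv * F = z0 * (p0 * F) + z1 * (p1 * F) by simp only [piv]; ring]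
  exact add_mem (Lay_cast (X_mul_Lay 0 (X_mul_Lay 4 hF)) (by simp [wx]) (by simp [wz]) (by simp [wp]))
    (Lay_cast (X_mul_Lay 1 (X_mul_Lay 5 hF)) (by simp [wx]) (by simp [wz]) (by simp [wp]))

theorem del_Lay {e m q : ℤ} {F : S6} (hF : F ∈ Lay e m q) : del F ∈ Lay e (m + 1) (q - 1) :=
  sub_mem (Lay_cast (X_mul_Lay 0 (pderiv_Lay 5 hF)) (by simp [wx]) (by simp [wz]) (by simp [wp]))
    (Lay_cast (X_mul_Lay 1 (pderiv_Lay 4 hF)) (by simp [wx]) (by simp [wz]) (by simp [wp]))

theorem eps_Lay {e m q : ℤ} {F : S6} (hF : F ∈ Lay e m q) : eps F ∈ Lay e (m - 1) (q + 1) :=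
  sub_mem (Lay_cast (X_mul_Lay 5 (pderiv_Lay 0 hF)) (by simp [wx]) (by simp [wz]) (by simp [wp]))
    (Lay_cast (X_mul_Lay 4 (pderiv_Lay 1 hF)) (by simp [wx]) (by simp [wz]) (by simp [wp]))

theorem Om_Lay {e m q : ℤ} {F : S6} (hF : F ∈ Lay e m q) : Om F ∈ Lay e (m - 1) (q - 1) :=
  add_mem (Lay_cast (pderiv_Lay 0 (pderiv_Lay 4 hF)) (by simp [wx]) (by simp [wz]) (by simp [wp]))
    (Lay_cast (pderiv_Lay 1 (pderiv_Lay 5 hF)) (by simp [wx]) (by simp [wz]) (by simp [wp]))

theorem del_int (n : ℤ) (F : S6) : del ((n : S6) * F) = (n : S6) * del F := by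
  rw [show (n : S6) = MvPolynomial.C (n : ℚ) from (map_intCast _ n).symm]
  (simp only [del, eps, Om, L0, L1, piv, dz0, dz1, dx0, dx1, dp0, dp1,
      z0, z1, x0, x1, p0, p1, Derivation.map_add, Derivation.map_sub,
      Derivation.map_neg, Derivation.map_intCast, Derivation.map_natCast,
      Derivation.map_one_eq_zero, map_zero, pderiv_mul, pderiv_C, pderiv_X_self, rules6]); ring

theorem del_cc (j : ℕ) (F : S6) : del (cc j * F) = cc j * del F := by
  simp only [cc]
  (simp only [del, eps, Om, L0, L1, piv, dz0, dz1, dx0, dx1, dp0, dp1,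
      z0, z1, x0, x1, p0, p1, Derivation.map_add, Derivation.map_sub,
      Derivation.map_neg, Derivation.map_intCast, Derivation.map_natCast,
      Derivation.map_one_eq_zero, map_zero, pderiv_mul, pderiv_C, pderiv_X_self, rules6]); ring

/-- The Laplace identity on one layer, first form. -/
theorem del_eps_Lay {e m q : ℤ} {F : S6} (hF : F ∈ Lay e m q) :
    del (eps F) + piv * Om F = ((m * (q + 1) : ℤ) : S6) * F := by
  obtain ⟨h1, -, h3⟩ := Lay_euler hF
  rw [del_eps, h1, show (m : S6) = MvPolynomial.C (m : ℚ) from (map_intCast _ m).symm]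
  simp only [dp0, dp1, pderiv_mul, pderiv_C]
  push_cast
  rw [show (m : S6) = MvPolynomial.C (m : ℚ) from (map_intCast _ m).symm]
  linear_combination (MvPolynomial.C (m : ℚ) : S6) * h3

/-- The Laplace identity on one layer, second form. -/
theorem eps_del_Lay {e m q : ℤ} {F : S6} (hF : F ∈ Lay e m q) :
    eps (del F) + piv * Om F = ((q * (m + 1) : ℤ) : S6) * F := by
  obtain ⟨h1, -, h3⟩ := Lay_euler hF
  rw [eps_del, h1, show (m : S6) = MvPolynomial.C (m : ℚ) from (map_intCast _ m).symm]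
  simp only [dp0, dp1, pderiv_mul, pderiv_C]
  push_cast
  rw [show (m : S6) = MvPolynomial.C (m : ℚ) from (map_intCast _ m).symm]
  linear_combination (1 + (MvPolynomial.C (m : ℚ) : S6)) * h3

/-! ### Koszul relations -/

/-- A relation between two layers against the momenta. -/
theorem x_koszul {e m q : ℤ} {A B : S6} (hA : A ∈ Lay e m q) (hB : B ∈ Lay e m q)
    (h : x0 * A + x1 * B = 0) :
    ((e + 1 : ℤ) : S6) * A = -(x1 * (dx0 B - dx1 A)) ∧
      ((e + 1 : ℤ) : S6) * B = x0 * (dx0 B - dx1 A) := by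
  have eA := (Lay_euler hA).2.1
  have eB := (Lay_euler hB).2.1
  have d0 : dx0 (x0 * A + x1 * B) = 0 := by rw [h]; exact map_zero _
  have d1 : dx1 (x0 * A + x1 * B) = 0 := by rw [h]; exact map_zero _
  revert d0 d1 eA eB
  (simp only [del, eps, Om, L0, L1, piv, dz0, dz1, dx0, dx1, dp0, dp1,
      z0, z1, x0, x1, p0, p1, Derivation.map_add, Derivation.map_sub,
      Derivation.map_neg, Derivation.map_intCast, Derivation.map_natCast,
      Derivation.map_one_eq_zero, map_zero, pderiv_mul, pderiv_C, pderiv_X_self, rules6])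
  intro eA eB d0 d1
  push_cast
  constructor
  · linear_combination d0 - eA
  · linear_combination d1 - eB

/-- Reduction of a pair of rows to the determinant. -/
theorem exists_rows {e m q : ℤ} {G : S6} (hG : G ∈ Lay e m q) (hm : m ≠ 0 ∨ G = 0) :
    ∃ P0 P1 : S6, P0 ∈ Lay e (m - 1) q ∧ P1 ∈ Lay e (m - 1) q ∧ z1 * P0 - z0 * P1 = G := by
  rcases hm with hm | rfl
  · obtain ⟨P0, h0, e0⟩ := exists_int_div hm (pderiv_Lay 1 hG)
    obtain ⟨P1, h1, e1⟩ := exists_int_div hm (neg_mem (pderiv_Lay 0 hG))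
    refine ⟨P0, P1, Lay_cast h0 (by simp [wx]) (by simp [wz]) (by simp [wp]),
      Lay_cast h1 (by simp [wx]) (by simp [wz]) (by simp [wp]), int_cancel hm ?_⟩
    have h := (Lay_euler hG).1
    simp only [dz0, dz1] at h
    linear_combination z1 * e0 - z0 * e1 + h
  · exact ⟨0, 0, zero_mem _, zero_mem _, by simp⟩

/-- Rows with vanishing determinant are multiples of `z`. -/
theorem rows_ker {e m q : ℤ} {P0 P1 : S6} (h0 : P0 ∈ Lay e m q) (h1 : P1 ∈ Lay e m q)
    (h : z1 * P0 - z0 * P1 = 0) :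
    ∃ R ∈ Lay e (m - 1) q, P0 = z0 * R ∧ P1 = z1 * R := by
  by_cases hm : m < 0
  · exact ⟨0, zero_mem _, by simp [Lay_zero_of_neg h0 (by omega)],
      by simp [Lay_zero_of_neg h1 (by omega)]⟩
  have hn : m + 1 ≠ 0 := by omega
  obtain ⟨R, hR, eR⟩ := exists_int_div hn
    (add_mem (Lay_cast (pderiv_Lay 0 h0) rfl (by simp [wz]) rfl)
      (Lay_cast (pderiv_Lay 1 h1) rfl (by simp [wz]) rfl) :
      dz0 P0 + dz1 P1 ∈ Lay (e - wx 0) (m - 1) (q - wp 0))
  have eA := (Lay_euler h0).1
  have eB := (Lay_euler h1).1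
  have d0 : dz0 (z1 * P0 - z0 * P1) = 0 := by rw [h]; exact map_zero _
  have d1 : dz1 (z1 * P0 - z0 * P1) = 0 := by rw [h]; exact map_zero _
  refine ⟨R, Lay_cast hR (by simp [wx]) rfl (by simp [wp]), int_cancel hn ?_, int_cancel hn ?_⟩
  all_goals
    revert d0 d1 eA eB eR
    (simp only [del, eps, Om, L0, L1, piv, dz0, dz1, dx0, dx1, dp0, dp1,
        z0, z1, x0, x1, p0, p1, Derivation.map_add, Derivation.map_sub,
        Derivation.map_neg, Derivation.map_intCast, Derivation.map_natCast,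
        Derivation.map_one_eq_zero, map_zero, pderiv_mul, pderiv_C, pderiv_X_self, rules6])
    intro eR eA eB d0 d1
    push_cast at eR ⊢
  · linear_combination d1 - eA - z0 * eR
  · linear_combination -d0 - eB - z1 * eR

/-! ### The four degrees -/

/-- Degree zero. -/
theorem layer_zero {φ : S6} (j : ℕ) (h : cc j * (x1 * (piv * φ)) = 0) : φ = 0 := by
  have hp : (piv : S6) ≠ 0 := fun h0 => by
    simpa [piv] using congrArg (eval (fun _ => (1 : ℚ))) h0
  simpa [cc_ne_zero, X_ne_zero, hp] using h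

/-- Degree one. -/
theorem layer_one {a s : ℤ} (j : ℕ) (ha : 1 ≤ a) (hs : 0 ≤ s) {ψ0 ψ1 ζ Q : S6}
    (h0 : ψ0 ∈ Lay (a - 1) (a + s - 1) (j + 1)) (h1 : ψ1 ∈ Lay (a - 1) (a + s - 1) (j + 1))
    (hζ : ζ ∈ Lay (a - 2) (a + s - 1) (j - 1))
    (eZ0 : -del ψ0 - cc j * (x1 * (piv * ζ)) = 0)
    (eQ0 : cc j * dp0 (x0 * ψ0 + x1 * ψ1) + p1 * Q = 0)
    (eQ1 : cc j * dp1 (x0 * ψ0 + x1 * ψ1) - p0 * Q = 0) :
    ∃ φ ∈ Lay (a - 2) (a + s - 2) j, ψ0 = cc j * (x1 * (piv * φ)) ∧
      ψ1 = -(cc j * (x0 * (piv * φ))) ∧ ζ = -del φ ∧ Q = 0 := by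
  have hp : (piv : S6) ≠ 0 := fun h0 => by
    simpa [piv] using congrArg (eval (fun _ => (1 : ℚ))) h0
  have hcc := cc_mul j
  have hw : x0 * ψ0 + x1 * ψ1 ∈ Lay a (a + s - 1) (j + 1) :=
    add_mem (Lay_cast (X_mul_Lay 2 h0) (by simp [wx]) (by simp [wz]) (by simp [wp]))
      (Lay_cast (X_mul_Lay 3 h1) (by simp [wx]) (by simp [wz]) (by simp [wp]))
  have hΛ : x0 * ψ0 + x1 * ψ1 = 0 := by
    have := (Lay_euler hw).2.2
    push_cast at this
    linear_combination p0 * eQ0 + p1 * eQ1 - cc j * this - (x0 * ψ0 + x1 * ψ1) * hcc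
  have hQ : Q = 0 := by
    rw [hΛ] at eQ0
    simpa [X_ne_zero, dp0] using eQ0
  obtain ⟨k0, k1⟩ := x_koszul h0 h1 hΛ
  set κ := dx0 ψ1 - dx1 ψ0
  have hκ : κ ∈ Lay (a - 2) (a + s - 1) (j + 1) :=
    sub_mem (Lay_cast (pderiv_Lay 2 h1) (by simp [wx]; ring) (by simp [wz]) (by simp [wp]))
      (Lay_cast (pderiv_Lay 3 h0) (by simp [wx]; ring) (by simp [wz]) (by simp [wp]))
  simp only [sub_add_cancel] at k0 k1
  have hδ : del κ = (a : S6) * cc j * (piv * ζ) := by
    refine mul_left_cancel₀ (a := x1) (X_ne_zero _) ?_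
    have e : del ((a : S6) * ψ0) = del (-(x1 * κ)) := by rw [k0]
    rw [del_int, show del (-(x1 * κ)) = -(x1 * del κ) by (simp only [del, eps, Om, L0, L1, piv, dz0, dz1, dx0, dx1, dp0, dp1,
                                                           z0, z1, x0, x1, p0, p1, Derivation.map_add, Derivation.map_sub,
                                                           Derivation.map_neg, Derivation.map_intCast, Derivation.map_natCast,
                                                           Derivation.map_one_eq_zero, map_zero, pderiv_mul, pderiv_C, pderiv_X_self, rules6]); ring] at e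
    linear_combination (a : S6) * eZ0 + e
  set R := eps ((a : S6) * cc j * ζ) + Om κ with hR'
  have hR : R ∈ Lay (a - 2) (a + s - 2) j := by
    have hz : (a : S6) * cc j * ζ ∈ Lay (a - 2) (a + s - 1) (j - 1) := by
      rw [mul_assoc]
      exact int_mul_mem a (cc_mul_mem j hζ)
    exact add_mem (Lay_cast (eps_Lay hz) rfl (by ring) (by ring))
      (Lay_cast (Om_Lay hκ) rfl (by ring) (by ring))
  have key : (((j + 1 : ℤ) * (a + s) : ℤ) : S6) * κ = piv * R := by
    have e := eps_del_Lay hκ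
    rw [show a + s - 1 + 1 = a + s by ring, hδ,
      show (a : S6) * cc j * (piv * ζ) = piv * ((a : S6) * cc j * ζ) by ring, eps_piv] at e
    rw [← e, hR']
    ring
  have hn : a * (a + s) ≠ 0 := mul_ne_zero (by omega) (by omega)
  obtain ⟨φ, hφ, eφ⟩ := exists_int_div hn (neg_mem hR)
  refine ⟨φ, hφ, ?_⟩
  have hN : ((j + 1 : ℤ) * (a + s)) * a ≠ 0 :=
    mul_ne_zero (mul_ne_zero (by omega) (by omega)) (by omega)
  have e0 : ψ0 = cc j * (x1 * (piv * φ)) := by
    refine int_cancel hN ?_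
    push_cast at key eφ ⊢
    linear_combination ((j : S6) + 1) * ((a : S6) + s) * k0 - x1 * key -
      ((j : S6) + 1) * cc j * x1 * piv * eφ + x1 * piv * R * hcc
  refine ⟨e0, ?_, ?_, hQ⟩
  · refine mul_left_cancel₀ (a := x1) (X_ne_zero _) ?_
    linear_combination hΛ - x0 * e0
  · refine mul_left_cancel₀ (a := cc j * (x1 * piv))
      (mul_ne_zero (cc_ne_zero j) (mul_ne_zero (X_ne_zero _) hp)) ?_
    have e : del ψ0 = cc j * (x1 * (piv * del φ)) := by
      rw [e0, del_cc, ← del_mul_piv]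
      (simp only [del, eps, Om, L0, L1, piv, dz0, dz1, dx0, dx1, dp0, dp1,
          z0, z1, x0, x1, p0, p1, Derivation.map_add, Derivation.map_sub,
          Derivation.map_neg, Derivation.map_intCast, Derivation.map_natCast,
          Derivation.map_one_eq_zero, map_zero, pderiv_mul, pderiv_C, pderiv_X_self, rules6]); ring
    linear_combination -eZ0 - e

/-- Degree two. -/
theorem layer_two {a s : ℤ} (j : ℕ) (ha : 1 ≤ a) (hs : 0 ≤ s) {ζ0 ζ1 Q0 Q1 : S6}
    (hz0 : ζ0 ∈ Lay (a - 1) (a + s) j) (hz1 : ζ1 ∈ Lay (a - 1) (a + s) j)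
    (hq0 : Q0 ∈ Lay a (a + s - 1) j) (hq1 : Q1 ∈ Lay a (a + s - 1) j)
    (h : x0 * ζ0 + x1 * ζ1 + del (p0 * Q0 + p1 * Q1) = 0) :
    ∃ ψ0 ψ1 ζ Q : S6, ψ0 ∈ Lay (a - 1) (a + s - 1) (j + 1) ∧
      ψ1 ∈ Lay (a - 1) (a + s - 1) (j + 1) ∧ ζ ∈ Lay (a - 2) (a + s - 1) (j - 1) ∧
      Q ∈ Lay a (a + s - 1) (j - 1) ∧ ζ0 = -del ψ0 - cc j * (x1 * (piv * ζ)) ∧
      ζ1 = -del ψ1 + cc j * (x0 * (piv * ζ)) ∧
      Q0 = cc j * dp0 (x0 * ψ0 + x1 * ψ1) + p1 * Q ∧
      Q1 = cc j * dp1 (x0 * ψ0 + x1 * ψ1) - p0 * Q := by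
  have hcc := cc_mul j
  set Λ := p0 * Q0 + p1 * Q1 with hΛ'
  have hΛ : Λ ∈ Lay a (a + s - 1) (j + 1) :=
    add_mem (Lay_cast (X_mul_Lay 4 hq0) (by simp [wx]) (by simp [wz]) (by simp [wp]))
      (Lay_cast (X_mul_Lay 5 hq1) (by simp [wx]) (by simp [wz]) (by simp [wp]))
  set ω := dp0 Q1 - dp1 Q0 with hω'
  have hω : ω ∈ Lay a (a + s - 1) (j - 1) :=
    sub_mem (Lay_cast (pderiv_Lay 4 hq1) (by simp [wx]) (by simp [wz]) (by simp [wp]))
      (Lay_cast (pderiv_Lay 5 hq0) (by simp [wx]) (by simp [wz]) (by simp [wp]))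
  have f0 : dp0 Λ = ((j : S6) + 1) * Q0 + p1 * ω := by
    have := (Lay_euler hq0).2.2
    push_cast at this
    rw [hΛ', hω']
    revert this
    (simp only [del, eps, Om, L0, L1, piv, dz0, dz1, dx0, dx1, dp0, dp1,
        z0, z1, x0, x1, p0, p1, Derivation.map_add, Derivation.map_sub,
        Derivation.map_neg, Derivation.map_intCast, Derivation.map_natCast,
        Derivation.map_one_eq_zero, map_zero, pderiv_mul, pderiv_C, pderiv_X_self, rules6])
    intro this
    linear_combination this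
  have f1 : dp1 Λ = ((j : S6) + 1) * Q1 - p0 * ω := by
    have := (Lay_euler hq1).2.2
    push_cast at this
    rw [hΛ', hω']
    revert this
    (simp only [del, eps, Om, L0, L1, piv, dz0, dz1, dx0, dx1, dp0, dp1,
        z0, z1, x0, x1, p0, p1, Derivation.map_add, Derivation.map_sub,
        Derivation.map_neg, Derivation.map_intCast, Derivation.map_natCast,
        Derivation.map_one_eq_zero, map_zero, pderiv_mul, pderiv_C, pderiv_X_self, rules6])
    intro this
    linear_combination this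
  have ha' : a ≠ 0 := by omega
  obtain ⟨u0, hu0, eu0⟩ := exists_int_div ha' (pderiv_Lay 2 hΛ)
  obtain ⟨u1, hu1, eu1⟩ := exists_int_div ha' (pderiv_Lay 3 hΛ)
  have hu0' : u0 ∈ Lay (a - 1) (a + s - 1) (j + 1) :=
    Lay_cast hu0 (by simp [wx]) (by simp [wz]) (by simp [wp])
  have hu1' : u1 ∈ Lay (a - 1) (a + s - 1) (j + 1) :=
    Lay_cast hu1 (by simp [wx]) (by simp [wz]) (by simp [wp])
  have hxu : x0 * u0 + x1 * u1 = Λ := by
    refine int_cancel ha' ?_
    linear_combination x0 * eu0 + x1 * eu1 + (Lay_euler hΛ).2.1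
  have hA : ζ0 + del u0 ∈ Lay (a - 1) (a + s) j :=
    add_mem hz0 (Lay_cast (del_Lay hu0') rfl (by ring) (by ring))
  have hB : ζ1 + del u1 ∈ Lay (a - 1) (a + s) j :=
    add_mem hz1 (Lay_cast (del_Lay hu1') rfl (by ring) (by ring))
  have hsum : x0 * (ζ0 + del u0) + x1 * (ζ1 + del u1) = 0 := by
    rw [← hxu, show del (x0 * u0 + x1 * u1) = x0 * del u0 + x1 * del u1 by (simp only [del, eps, Om, L0, L1, piv, dz0, dz1, dx0, dx1, dp0, dp1,
                                                                             z0, z1, x0, x1, p0, p1, Derivation.map_add, Derivation.map_sub,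
                                                                             Derivation.map_neg, Derivation.map_intCast, Derivation.map_natCast,
                                                                             Derivation.map_one_eq_zero, map_zero, pderiv_mul, pderiv_C, pderiv_X_self, rules6]); ring] at h
    linear_combination h
  obtain ⟨k0, k1⟩ := x_koszul hA hB hsum
  set κ := dx0 (ζ1 + del u1) - dx1 (ζ0 + del u0)
  have hκ : κ ∈ Lay (a - 2) (a + s) j :=
    sub_mem (Lay_cast (pderiv_Lay 2 hB) (by simp [wx]; ring) (by simp [wz]) (by simp [wp]))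
      (Lay_cast (pderiv_Lay 3 hA) (by simp [wx]; ring) (by simp [wz]) (by simp [wp]))
  simp only [sub_add_cancel] at k0 k1
  have hM : (a + s) * (j + 1 : ℤ) ≠ 0 := mul_ne_zero (by omega) (by omega)
  have hN : a * ((a + s) * (j + 1 : ℤ)) ≠ 0 := mul_ne_zero ha' hM
  obtain ⟨ν, hν, eν⟩ := exists_int_div hN (eps_Lay hκ)
  obtain ⟨ρ, hρ, eρ⟩ := exists_int_div hN (Om_Lay hκ)
  have hsplit : (a : S6) * (del ν + piv * ρ) = κ := by
    refine int_cancel hM ?_
    have e := del_eps_Lay hκ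
    rw [← eν, ← eρ, del_int] at e
    push_cast at e ⊢
    linear_combination e
  have g0 : ζ0 + del u0 = -(x1 * (del ν + piv * ρ)) := by
    refine int_cancel ha' ?_
    linear_combination k0 + x1 * hsplit
  have g1 : ζ1 + del u1 = x0 * (del ν + piv * ρ) := by
    refine int_cancel ha' ?_
    linear_combination k1 - x0 * hsplit
  refine ⟨u0 + x1 * ν, u1 - x0 * ν, ((j : S6) + 1) * ρ, -(cc j * ω),
    add_mem hu0' (Lay_cast (X_mul_Lay 3 hν) (by simp [wx]; ring) (by simp [wz]) (by simp [wp])),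
    sub_mem hu1' (Lay_cast (X_mul_Lay 2 hν) (by simp [wx]; ring) (by simp [wz]) (by simp [wp])),
    ?_, neg_mem (cc_mul_mem j hω), ?_, ?_, ?_, ?_⟩
  · rw [show ((j : S6) + 1) = ((j + 1 : ℤ) : S6) by push_cast; ring]
    exact int_mul_mem _ (Lay_cast hρ rfl rfl rfl)
  · rw [show del (u0 + x1 * ν) = del u0 + x1 * del ν by (simp only [del, eps, Om, L0, L1, piv, dz0, dz1, dx0, dx1, dp0, dp1,
                                                          z0, z1, x0, x1, p0, p1, Derivation.map_add, Derivation.map_sub,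
                                                          Derivation.map_neg, Derivation.map_intCast, Derivation.map_natCast,
                                                          Derivation.map_one_eq_zero, map_zero, pderiv_mul, pderiv_C, pderiv_X_self, rules6]); ring]
    linear_combination g0 + x1 * piv * ρ * hcc
  · rw [show del (u1 - x0 * ν) = del u1 - x0 * del ν by (simp only [del, eps, Om, L0, L1, piv, dz0, dz1, dx0, dx1, dp0, dp1,
                                                          z0, z1, x0, x1, p0, p1, Derivation.map_add, Derivation.map_sub,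
                                                          Derivation.map_neg, Derivation.map_intCast, Derivation.map_natCast,
                                                          Derivation.map_one_eq_zero, map_zero, pderiv_mul, pderiv_C, pderiv_X_self, rules6]); ring]
    linear_combination g1 - x0 * piv * ρ * hcc
  · rw [show x0 * (u0 + x1 * ν) + x1 * (u1 - x0 * ν) = Λ by linear_combination hxu, f0]
    linear_combination -Q0 * hcc
  · rw [show x0 * (u0 + x1 * ν) + x1 * (u1 - x0 * ν) = Λ by linear_combination hxu, f1]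
    linear_combination -Q1 * hcc

/-- Degree three. -/
theorem layer_three {a m q : ℤ} (ha : 1 ≤ a) {η : S6} (hη : η ∈ Lay a m q) :
    ∃ ζ0 ζ1 : S6, ζ0 ∈ Lay (a - 1) m q ∧ ζ1 ∈ Lay (a - 1) m q ∧ η = x0 * ζ0 + x1 * ζ1 := by
  have ha' : a ≠ 0 := by omega
  obtain ⟨u0, hu0, eu0⟩ := exists_int_div ha' (pderiv_Lay 2 hη)
  obtain ⟨u1, hu1, eu1⟩ := exists_int_div ha' (pderiv_Lay 3 hη)
  refine ⟨u0, u1, Lay_cast hu0 (by simp [wx]) (by simp [wz]) (by simp [wp]),
    Lay_cast hu1 (by simp [wx]) (by simp [wz]) (by simp [wp]), int_cancel ha' ?_⟩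
  linear_combination -(x0 * eu0) - x1 * eu1 - (Lay_euler hη).2.1

end Vale.Agent.P195.Gamma.ExactB
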