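import Vale.Agent.P195.Gamma.ExactB.Step

/-!
Every cochain is reduced to order zero.
-/

namespace Vale.Agent.P195.Gamma.ExactB

open MvPolynomial

/-- Degree one. -/
theorem step_one {a s : ℤ} (j : ℕ) (ha : 1 ≤ a) (hs : 0 ≤ s) {x : Co1} (hx : M1 a s j x)
    (hd : M2 (a - 1) s j (d1 j x)) : ∃ f, M0 a s j f ∧ M1 (a - 1) s j (x - d0 j f) := by
  obtain ⟨gu0, gu1, gg0, gg1⟩ := x
  obtain ⟨hu0, hu1, P0, P1, Q, h0, h1, hQ, rfl, rfl⟩ := hx
  obtain ⟨U0, tu0, V0, fu0, rfl⟩ := Fil_split hu0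
  obtain ⟨U1, tu1, V1, fu1, rfl⟩ := Fil_split hu1
  obtain ⟨T0, t0, F0, f0, rfl⟩ := Fil_split h0
  obtain ⟨T1, t1, F1, f1, rfl⟩ := Fil_split h1
  obtain ⟨TQ, tQ, FQ, fQ, rfl⟩ := Fil_split hQ
  have hζ : z1 * T0 - z0 * T1 ∈ Lay (a - 2) (a + s - 1) (j - 1) :=
    Lay_cast (rows_top t0 t1) rfl (by ring) rfl
  have hU0 : U0 ∈ Lay (a - 1) (a + s - 1) (j + 1) := Lay_cast tu0 rfl (by ring) rfl
  have hU1 : U1 ∈ Lay (a - 1) (a + s - 1) (j + 1) := Lay_cast tu1 rfl (by ring) rfl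
  have hσ : p0 * T0 + p1 * T1 ∈ Lay (a - 2) (a + s - 2) j :=
    add_mem (Lay_cast (X_mul_Lay 4 t0) (by simp [wx]) (by simp [wz]; ring) (by simp [wp]))
      (Lay_cast (X_mul_Lay 5 t1) (by simp [wx]) (by simp [wz]; ring) (by simp [wp]))
  have top : ∀ z x : Fin 6, wz z = 1 → wx z = 0 → wp z = 0 → wz x = 0 → wx x = 1 → wp x = 0 →
      ∀ G, G ∈ Lay (a - 2) (a - 2 + s) (j - 1) →
        cc j * (X x * (piv * G - X z * (p0 * T0 + p1 * T1))) ∈ Lay (a - 1) (a - 1 + s) j := by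
    intro z x z1' z2 z3 x1' x2 x3 G hG
    exact cc_mul_mem j (Lay_cast (X_mul_Lay x (sub_mem (Lay_cast (piv_Lay hG) rfl rfl (by ring) :
        piv * G ∈ Lay (a - 2) (a - 2 + s + 1) j)
      (Lay_cast (X_mul_Lay z hσ) (by omega) (by omega) (by omega)))) (by omega) (by omega) (by omega))
  have du : ∀ u, u ∈ Lay (a - 1) (a + s - 1) (j + 1) →
      dp0 u ∈ Lay (a - 1) (a - 1 + s) j ∧ dp1 u ∈ Lay (a - 1) (a - 1 + s) j := fun u hu =>
    ⟨Lay_cast (pderiv_Lay 4 hu) (by simp [wx]) (by simp [wz]; ring) (by simp [wp]),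
      Lay_cast (pderiv_Lay 5 hu) (by simp [wx]) (by simp [wz]; ring) (by simp [wp])⟩
  have hw : x0 * U0 + x1 * U1 ∈ Lay a (a + s - 1) (j + 1) :=
    add_mem (Lay_cast (X_mul_Lay 2 hU0) (by simp [wx]) (by simp [wz]) (by simp [wp]))
      (Lay_cast (X_mul_Lay 3 hU1) (by simp [wx]) (by simp [wz]) (by simp [wp]))
  have hF0 : F0 ∈ Fil (a - 2 - 1) s (j - 1) := f0
  -- the parts of smaller order
  have low : M2 (a - 1) s j (d1 j ⟨V0, V1, F0 - z0 * FQ, F1 - z1 * FQ⟩) :=
    d1_mem ⟨fu0, fu1, F0, F1, FQ, Fil_cast f0 (by omega) rfl rfl, Fil_cast f1 (by omega) rfl rfl,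
      fQ, rfl, rfl⟩
  have hT : M2 (a - 1) s j (d1 j ⟨U0, U1, T0 - z0 * TQ, T1 - z1 * TQ⟩) := by
    have e : (⟨U0, U1, T0 - z0 * TQ, T1 - z1 * TQ⟩ : Co1) =
        ⟨U0 + V0, U1 + V1, T0 + F0 - z0 * (TQ + FQ), T1 + F1 - z1 * (TQ + FQ)⟩ -
          ⟨V0, V1, F0 - z0 * FQ, F1 - z1 * FQ⟩ := by
      ext1 <;> simp only [Co1.sub_u0, Co1.sub_u1, Co1.sub_g0, Co1.sub_g1] <;> ring
    rw [e, d1_sub]
    exact hd.sub low
  have hdz : dz0 U0 + dz1 U1 ∈ Fil (a - 1) (s - 1) (j + 1) :=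
    add_mem (dz0_Fil (Lay_le_Fil tu0 le_rfl rfl)) (dz1_Fil (Lay_le_Fil tu1 le_rfl rfl))
  have hσF : p0 * T0 + p1 * T1 ∈ Fil (a - 2) s j := Lay_le_Fil hσ le_rfl (by ring)
  have lz : ∀ G, G ∈ Lay (a - 2) (a - 2 + s) (j - 1) → ∀ z,
      z * (p0 * T0 + p1 * T1) ∈ Fil (a - 2) (s + 1) j →
      (-(p1 * G) + cc j * dz1 (piv * G - z * (p0 * T0 + p1 * T1)) ∈ Fil (a - 1 - 1) s j ∧
        -(p0 * G) + cc j * dz0 (piv * G - z * (p0 * T0 + p1 * T1)) ∈ Fil (a - 1 - 1) s j) := by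
    intro G hG z hz
    have hG' : G ∈ Fil (a - 2) s (j - 1) := Lay_le_Fil hG le_rfl rfl
    have h : piv * G - z * (p0 * T0 + p1 * T1) ∈ Fil (a - 2) (s + 1) j :=
      sub_mem (Fil_cast (piv_Fil hG') le_rfl rfl (by ring)) hz
    exact ⟨add_mem (neg_mem (Fil_cast (p1_Fil hG') (by omega) rfl (by ring)))
        (cc_Fil j (Fil_cast (dz1_Fil h) (by omega) (by ring) rfl)),
      add_mem (neg_mem (Fil_cast (p0_Fil hG') (by omega) rfl (by ring)))
        (cc_Fil j (Fil_cast (dz0_Fil h) (by omega) (by ring) rfl))⟩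
  have l0 := lz T0 t0 z0 (z0_Fil hσF)
  have l1 := lz T1 t1 z1 (z1_Fil hσF)
  obtain ⟨hA, hB⟩ := hT
  have tA : ∀ x : Fin 6, ∀ u, u ∈ Lay (a - 1) (a + s - 1) (j + 1) → wz x = 0 → wx x = 1 → wp x = 0 →
      dp0 u - cc j * (X x * (piv * T0 - z0 * (p0 * T0 + p1 * T1))) ∈ Lay (a - 1) (a - 1 + s) j ∧
      dp1 u - cc j * (X x * (piv * T1 - z1 * (p0 * T0 + p1 * T1))) ∈ Lay (a - 1) (a - 1 + s) j :=
    fun x u hu a1 a2 a3 => ⟨sub_mem (du u hu).1 (top 0 x rfl rfl rfl a1 a2 a3 T0 t0),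
      sub_mem (du u hu).2 (top 1 x rfl rfl rfl a1 a2 a3 T1 t1)⟩
  have tB : ∀ x : Fin 6, ∀ u, u ∈ Lay (a - 1) (a + s - 1) (j + 1) → wz x = 0 → wx x = 1 → wp x = 0 →
      dp0 u + cc j * (X x * (piv * T0 - z0 * (p0 * T0 + p1 * T1))) ∈ Lay (a - 1) (a - 1 + s) j ∧
      dp1 u + cc j * (X x * (piv * T1 - z1 * (p0 * T0 + p1 * T1))) ∈ Lay (a - 1) (a - 1 + s) j :=
    fun x u hu a1 a2 a3 => ⟨add_mem (du u hu).1 (top 0 x rfl rfl rfl a1 a2 a3 T0 t0),
      add_mem (du u hu).2 (top 1 x rfl rfl rfl a1 a2 a3 T1 t1)⟩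
  have qtop : ∀ k : Fin 6, wz k = 0 → wx k = 0 → wp k = 1 →
      cc j * pderiv k (x0 * U0 + x1 * U1) ∈ Lay a (a + s - 1) j := fun k a1 a2 a3 =>
    cc_mul_mem j (Lay_cast (pderiv_Lay k hw) (by omega) (by omega) (by omega))
  have EA := GMem_top (n := 1) le_rfl (tA 3 U0 hU0 rfl rfl rfl).1 (tA 3 U0 hU0 rfl rfl rfl).2
    (add_mem (qtop 4 rfl rfl rfl)
      (Lay_cast (X_mul_Lay 5 tQ) (by simp [wx]) (by simp [wz]; ring) (by simp [wp]) :
        p1 * TQ ∈ Lay a (a + s - 1) j)) (by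
      have hrest : GMem 1 (a - 1) s j
          (-(-(p1 * T0) + cc j * dz1 (piv * T0 - z0 * (p0 * T0 + p1 * T1))) -
            z0 * (cc j * dp0 (dz0 U0 + dz1 U1)))
          (-(-(p1 * T1) + cc j * dz1 (piv * T1 - z1 * (p0 * T0 + p1 * T1))) -
            z1 * (cc j * dp0 (dz0 U0 + dz1 U1))) :=
        ⟨_, _, _, neg_mem l0.1, neg_mem l1.1,
          cc_Fil j (Fil_cast (dp0_Fil hdz) le_rfl rfl (by ring)), rfl, rfl⟩
      have := hA.sub hrest
      convert this using 1 <;> simp only [d1, D1r] <;> ((simp only [del, eps, Om, L0, L1, piv, dz0, dz1, dx0, dx1, dp0, dp1,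
                                                         z0, z1, x0, x1, p0, p1, Derivation.map_add, Derivation.map_sub,
                                                         Derivation.map_neg, Derivation.map_intCast, Derivation.map_natCast,
                                                         Derivation.map_one_eq_zero, map_zero, pderiv_mul, pderiv_C, pderiv_X_self, rules6]);
                                                         try simp only [pderiv_cc, zero_mul, mul_zero, add_zero, zero_add, sub_zero, map_zero]) <;> ring)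
  have EB := GMem_top (n := 1) le_rfl (tB 2 U1 hU1 rfl rfl rfl).1 (tB 2 U1 hU1 rfl rfl rfl).2
    (sub_mem (qtop 5 rfl rfl rfl)
      (Lay_cast (X_mul_Lay 4 tQ) (by simp [wx]) (by simp [wz]; ring) (by simp [wp]) :
        p0 * TQ ∈ Lay a (a + s - 1) j)) (by
      have hrest : GMem 1 (a - 1) s j
          (-(p0 * T0) + cc j * dz0 (piv * T0 - z0 * (p0 * T0 + p1 * T1)) -
            z0 * (cc j * dp1 (dz0 U0 + dz1 U1)))
          (-(p0 * T1) + cc j * dz0 (piv * T1 - z1 * (p0 * T0 + p1 * T1)) -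
            z1 * (cc j * dp1 (dz0 U0 + dz1 U1))) :=
        ⟨_, _, _, l0.2, l1.2, cc_Fil j (Fil_cast (dp1_Fil hdz) le_rfl rfl (by ring)), rfl, rfl⟩
      have := hB.sub hrest
      convert this using 1 <;> simp only [d1, D0r] <;> ((simp only [del, eps, Om, L0, L1, piv, dz0, dz1, dx0, dx1, dp0, dp1,
                                                         z0, z1, x0, x1, p0, p1, Derivation.map_add, Derivation.map_sub,
                                                         Derivation.map_neg, Derivation.map_intCast, Derivation.map_natCast,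
                                                         Derivation.map_one_eq_zero, map_zero, pderiv_mul, pderiv_C, pderiv_X_self, rules6]);
                                                         try simp only [pderiv_cc, zero_mul, mul_zero, add_zero, zero_add, sub_zero, map_zero]) <;> ring)
  obtain ⟨eA, eQA⟩ := EA
  obtain ⟨-, eQB⟩ := EB
  have eZ : -del U0 - cc j * (x1 * (piv * (z1 * T0 - z0 * T1))) = 0 := by
    revert eA
    ((simp only [del, eps, Om, L0, L1, piv, dz0, dz1, dx0, dx1, dp0, dp1,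
        z0, z1, x0, x1, p0, p1, Derivation.map_add, Derivation.map_sub,
        Derivation.map_neg, Derivation.map_intCast, Derivation.map_natCast,
        Derivation.map_one_eq_zero, map_zero, pderiv_mul, pderiv_C, pderiv_X_self, rules6]);
        try simp only [pderiv_cc, zero_mul, mul_zero, add_zero, zero_add, sub_zero, map_zero])
    intro eA
    linear_combination eA
  obtain ⟨φ, hφ, e0, e1, eζ, eQ⟩ := layer_one j ha hs hU0 hU1 hζ eZ eQA eQB
  have hφF : φ ∈ Fil (a - 2) s j := Lay_le_Fil hφ le_rfl (by ring)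
  obtain ⟨R, hR, eR0, eR1⟩ := rows_ker
    (sub_mem t0 (Lay_cast (pderiv_Lay 4 hφ) (by simp [wx]) (by simp [wz]; ring) (by simp [wp])) :
      T0 - dp0 φ ∈ Lay (a - 2) (a - 2 + s) (j - 1))
    (sub_mem t1 (Lay_cast (pderiv_Lay 5 hφ) (by simp [wx]) (by simp [wz]; ring) (by simp [wp])))
    (by revert eζ; (simp only [del, eps, Om, L0, L1, piv, dz0, dz1, dx0, dx1, dp0, dp1,
                       z0, z1, x0, x1, p0, p1, Derivation.map_add, Derivation.map_sub,
                       Derivation.map_neg, Derivation.map_intCast, Derivation.map_natCast,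
                       Derivation.map_one_eq_zero, map_zero, pderiv_mul, pderiv_C, pderiv_X_self, rules6]); intro eζ; linear_combination eζ)
  refine ⟨φ, hφF, ?_, ?_, F0, F1,
    FQ - cc j * (L0 (dp0 φ) + L1 (dp1 φ)) - R, Fil_cast f0 (by omega) rfl rfl,
    Fil_cast f1 (by omega) rfl rfl, ?_, ?_, ?_⟩
  · have e : ((⟨U0 + V0, U1 + V1, T0 + F0 - z0 * (TQ + FQ), T1 + F1 - z1 * (TQ + FQ)⟩ : Co1) -
        d0 j φ).u0 = V0 - (cc j * dz1 (piv * φ) - p1 * φ) := by
      simp only [Co1.sub_u0, d0, L1]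
      linear_combination e0
    rw [e]
    exact sub_mem fu0 (sub_mem (cc_Fil j (Fil_cast (dz1_Fil (piv_Fil hφF)) (by omega) (by ring) rfl))
      (Fil_cast (p1_Fil hφF) (by omega) rfl rfl))
  · have e : ((⟨U0 + V0, U1 + V1, T0 + F0 - z0 * (TQ + FQ), T1 + F1 - z1 * (TQ + FQ)⟩ : Co1) -
        d0 j φ).u1 = V1 - -(cc j * dz0 (piv * φ) - p0 * φ) := by
      simp only [Co1.sub_u1, d0, L0]
      linear_combination e1
    rw [e]
    exact sub_mem fu1 (neg_mem (sub_mem
      (cc_Fil j (Fil_cast (dz0_Fil (piv_Fil hφF)) (by omega) (by ring) rfl))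
      (Fil_cast (p0_Fil hφF) (by omega) rfl rfl)))
  · refine sub_mem (sub_mem fQ (cc_Fil j ?_)) (Lay_le_Fil hR (by omega) (by ring))
    exact add_mem (Fil_cast (L0_Fil (dp0_Fil hφF)) (by omega) rfl rfl)
      (Fil_cast (L1_Fil (dp1_Fil hφF)) (by omega) rfl rfl)
  · simp only [Co1.sub_g0, d0]
    linear_combination eR0 - z0 * eQ
  · simp only [Co1.sub_g1, d0]
    linear_combination eR1 - z1 * eQ

/-- Degree zero. -/
theorem step_zero {a s : ℤ} (j : ℕ) {f : S6} (hf : M0 a s j f) (hd : M1 (a - 1) s j (d0 j f)) :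
    M0 (a - 1) s j f := by
  obtain ⟨T, hT, F, hF, rfl⟩ := Fil_split hf
  have hTF : T ∈ Fil (a - 2) s j := Lay_le_Fil hT le_rfl rfl
  have hrest : cc j * (dz1 (piv * T)) - p1 * T + (cc j * L1 (piv * F) - p1 * F) ∈
      Fil (a - 1 - 1) s (j + 1) :=
    add_mem (sub_mem (cc_Fil j (Fil_cast (dz1_Fil (piv_Fil hTF)) (by omega) (by ring) rfl))
        (Fil_cast (p1_Fil hTF) (by omega) rfl rfl))
      (sub_mem (cc_Fil j (Fil_cast (L1_Fil (piv_Fil hF)) (by omega) (by ring) rfl))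
        (Fil_cast (p1_Fil hF) (by omega) rfl rfl))
  have h : cc j * (x1 * (piv * T)) = 0 := by
    refine Lay_Fil_disjoint (a := a - 2 + 1) (m := a - 2 + s + 1) (q := j + 1)
      (cc_mul_mem j (Lay_cast (X_mul_Lay 3 (piv_Lay hT)) (by simp [wx]) (by simp [wz])
        (by simp [wp]))) (a' := a - 1 - 1) (s := s) (q' := j + 1) ?_ (by omega)
    have := sub_mem hd.1 hrest
    convert this using 1
    simp only [d0]
    (simp only [del, eps, Om, L0, L1, piv, dz0, dz1, dx0, dx1, dp0, dp1,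
        z0, z1, x0, x1, p0, p1, Derivation.map_add, Derivation.map_sub,
        Derivation.map_neg, Derivation.map_intCast, Derivation.map_natCast,
        Derivation.map_one_eq_zero, map_zero, pderiv_mul, pderiv_C, pderiv_X_self, rules6])
    ring
  have e : T = 0 := layer_zero j h
  rw [e, zero_add]
  exact Fil_cast hF (by omega) rfl rfl

/-- Iterated reduction in degree three. -/
theorem reduce_three (j : ℕ) {s : ℤ} (hs : 0 ≤ s) (n : ℕ) {η : S6} (hη : η ∈ Fil n s j) :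
    ∃ x, M2 n s j x ∧ η - d2 j x ∈ Fil 0 s j := by
  induction n generalizing η with
  | zero =>
    refine ⟨0, M2.zero, ?_⟩
    rw [show d2 j 0 = 0 by simp [d2, del, L0, L1], sub_zero]
    exact hη
  | succ n ih =>
    obtain ⟨x, hx, he⟩ := step_three j (by omega) hs hη
    obtain ⟨x', hx', he'⟩ := ih (Fil_cast he (by simp) rfl rfl)
    have e : η - d2 j (x - ((0 : Co2) - x')) = η - d2 j x - d2 j x' := by
      have z : d2 j 0 = 0 := by simp [d2, del, L0, L1]
      rw [d2_sub, d2_sub, z]; ring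
    exact ⟨x - (0 - x'), hx.sub (M2.zero.sub (hx'.mono (by simp))), by rw [e]; exact he'⟩

theorem d1_zero (j : ℕ) : d1 j 0 = 0 := by
  ext1 <;> simp [d1, D0r, D1r, del, L0, L1]

theorem d0_zero (j : ℕ) : d0 j 0 = 0 := by
  ext1 <;> simp [d0, L0, L1]

/-- Iterated reduction in degree two. -/
theorem reduce_two (j : ℕ) {s : ℤ} (hs : 0 ≤ s) (n : ℕ) {x : Co2} (hx : M2 n s j x)
    (hd : d2 j x ∈ Fil 0 s j) : ∃ y, M1 n s j y ∧ M2 0 s j (x - d1 j y) := by
  induction n generalizing x with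
  | zero =>
    refine ⟨0, M1.zero, ?_⟩
    rw [d1_zero, show x - 0 = x by ext1 <;> simp]
    exact hx
  | succ n ih =>
    obtain ⟨y, hy, he⟩ := step_two j (by omega) hs hx (Fil_cast hd (by omega) rfl rfl)
    obtain ⟨y', hy', he'⟩ := ih (he.mono (by simp)) (by rw [d2_sub, d2_d1_mem hy, sub_zero]; exact hd)
    refine ⟨y - (0 - y'), hy.sub (M1.zero.sub (hy'.mono (by simp))), ?_⟩
    rw [d1_sub, d1_sub, d1_zero,
      show x - (d1 j y - (0 - d1 j y')) = x - d1 j y - d1 j y' by ext1 <;> simp <;> ring]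
    exact he'

/-- Iterated reduction in degree one. -/
theorem reduce_one (j : ℕ) {s : ℤ} (hs : 0 ≤ s) (n : ℕ) {x : Co1} (hx : M1 n s j x)
    (hd : M2 0 s j (d1 j x)) : ∃ f, M0 n s j f ∧ M1 0 s j (x - d0 j f) := by
  induction n generalizing x with
  | zero =>
    refine ⟨0, zero_mem _, ?_⟩
    rw [d0_zero, show x - 0 = x by ext1 <;> simp]
    exact hx
  | succ n ih =>
    obtain ⟨f, hf, he⟩ := step_one j (by omega) hs hx (hd.mono (by omega))
    obtain ⟨f', hf', he'⟩ := ih (he.mono (by simp))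
      (by rw [d1_sub, d1_d0_mem hf, show d1 j x - 0 = d1 j x by ext1 <;> simp]; exact hd)
    refine ⟨f - (0 - f'), sub_mem hf (sub_mem (zero_mem _) (Fil_cast hf' (by simp) rfl rfl)), ?_⟩
    rw [d0_sub, d0_sub, d0_zero,
      show x - (d0 j f - (0 - d0 j f')) = x - d0 j f - d0 j f' by ext1 <;> simp <;> ring]
    exact he'

/-- Iterated reduction in degree zero. -/
theorem reduce_zero (j : ℕ) {s : ℤ} (n : ℕ) {f : S6} (hf : M0 n s j f)
    (hd : M1 0 s j (d0 j f)) : f = 0 := by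
  induction n generalizing f with
  | zero => exact Fil_zero_of_neg hf (Or.inl (by simp))
  | succ n ih =>
    have := step_zero j hf (hd.mono (by omega))
    exact ih (Fil_cast this (by simp) rfl rfl) hd

end Vale.Agent.P195.Gamma.ExactB
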