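import Vale.Agent.P195.Gamma.ExactB.Filt

/-!
Lowering the order of cochains: every layer of positive order is exact.
-/

namespace Vale.Agent.P195.Gamma.ExactB

open MvPolynomial

theorem X_mul_lay0 {e m q : ℤ} {F : S6} (k : Fin 6) (hF : F ∈ Lay e m q) :
    X k * F ∈ Lay (e + wx k) (m + wz k) (q + wp k) := X_mul_Lay k hF

/-- A pair with homogeneous coordinates which has smaller order has no top data. -/
theorem GMem_top {n a s q : ℤ} (hn : 1 ≤ n) {P0 P1 Q : S6} (h0 : P0 ∈ Lay (a - n) (a - n + s) q)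
    (h1 : P1 ∈ Lay (a - n) (a - n + s) q) (hQ : Q ∈ Lay a (a + s - 1) q)
    (h : GMem n (a - 1) s q (P0 - z0 * Q) (P1 - z1 * Q)) :
    z1 * P0 - z0 * P1 = 0 ∧ Q = 0 := by
  obtain ⟨R0, R1, S, r0, r1, rS, e0, e1⟩ := h
  refine ⟨Lay_Fil_disjoint (a' := a - 1 - n) (s := s + 1) (q' := q)
    (sub_mem (Lay_cast (X_mul_Lay 1 h0) (by simp [wx]) (by simp [wz]) (by simp [wp]) :
        z1 * P0 ∈ Lay (a - n) (a - n + s + 1) q)
      (Lay_cast (X_mul_Lay 0 h1) (by simp [wx]) (by simp [wz]) (by simp [wp]))) ?_ (by omega), ?_⟩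
  · rw [show z1 * P0 - z0 * P1 = z1 * R0 - z0 * R1 by linear_combination z1 * e0 - z0 * e1]
    exact sub_mem (z1_Fil r0) (z0_Fil r1)
  · have hz : z0 * Q = 0 := by
      refine Lay_Fil_disjoint (X_mul_Lay 0 hQ) (?_ : z0 * Q ∈ Fil (a - 1) s q) (by simp [wx])
      rw [show z0 * Q = P0 - R0 + z0 * S by linear_combination -e0]
      exact add_mem (sub_mem (Lay_le_Fil h0 (by omega) rfl) (Fil_cast r0 (by omega) rfl rfl))
        (Fil_cast (z0_Fil rS) le_rfl (by ring) rfl)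
    simpa [X_ne_zero] using hz

theorem rows_top {e m q : ℤ} {P0 P1 : S6} (h0 : P0 ∈ Lay e m q) (h1 : P1 ∈ Lay e m q) :
    z1 * P0 - z0 * P1 ∈ Lay e (m + 1) q :=
  sub_mem (Lay_cast (X_mul_Lay 1 h0) (by simp [wx]) (by simp [wz]) (by simp [wp]))
    (Lay_cast (X_mul_Lay 0 h1) (by simp [wx]) (by simp [wz]) (by simp [wp]))

/-- Degree three: every symbol is congruent to a coboundary modulo smaller order. -/
theorem step_three {a s : ℤ} (j : ℕ) (ha : 1 ≤ a) (hs : 0 ≤ s) {η : S6} (hη : η ∈ Fil a s j) :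
    ∃ x, M2 a s j x ∧ η - d2 j x ∈ Fil (a - 1) s j := by
  obtain ⟨T, hT, η', hη', rfl⟩ := Fil_split hη
  obtain ⟨ζ0, ζ1, h0, h1, rfl⟩ := layer_three ha hT
  obtain ⟨A0, A1, a0, a1, eA⟩ := exists_rows h0 (Or.inl (by omega))
  obtain ⟨B0, B1, b0, b1, eB⟩ := exists_rows h1 (Or.inl (by omega))
  have hA0 : A0 ∈ Fil (a - 1) s j := Lay_le_Fil a0 le_rfl (by ring)
  have hA1 : A1 ∈ Fil (a - 1) s j := Lay_le_Fil a1 le_rfl (by ring)
  have hB0 : B0 ∈ Fil (a - 1) s j := Lay_le_Fil b0 le_rfl (by ring)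
  have hB1 : B1 ∈ Fil (a - 1) s j := Lay_le_Fil b1 le_rfl (by ring)
  refine ⟨⟨A0 - z0 * 0, A1 - z1 * 0, B0 - z0 * 0, B1 - z1 * 0⟩,
    ⟨⟨A0, A1, 0, hA0, hA1, zero_mem _, rfl, rfl⟩, ⟨B0, B1, 0, hB0, hB1, zero_mem _, rfl, rfl⟩⟩, ?_⟩
  rw [d2_coord' (a' := a) (s' := s) j hA0 hA1 hB0 hB1 (zero_mem _) (zero_mem _), eA, eB]
  have : x0 * ζ0 + x1 * ζ1 + η' - (x0 * ζ0 + x1 * ζ1 + del (p0 * 0 + p1 * 0) + low2 j A0 A1 B0 B1) =
      η' - low2 j A0 A1 B0 B1 := by (simp only [del, eps, Om, L0, L1, piv, dz0, dz1, dx0, dx1, dp0, dp1,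
                                        z0, z1, x0, x1, p0, p1, Derivation.map_add, Derivation.map_sub,
                                        Derivation.map_neg, Derivation.map_intCast, Derivation.map_natCast,
                                        Derivation.map_one_eq_zero, map_zero, pderiv_mul, pderiv_C, pderiv_X_self, rules6]); ring
  rw [this]
  exact sub_mem hη' (low2_mem hA0 hA1 hB0 hB1)

/-- Degree two. -/
theorem step_two {a s : ℤ} (j : ℕ) (ha : 1 ≤ a) (hs : 0 ≤ s) {x : Co2} (hx : M2 a s j x)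
    (hd : d2 j x ∈ Fil (a - 1) s j) : ∃ y, M1 a s j y ∧ M2 (a - 1) s j (x - d1 j y) := by
  obtain ⟨ga0, ga1, gb0, gb1⟩ := x
  obtain ⟨⟨A0, A1, Q0, hA0, hA1, hQ0, rfl, rfl⟩, ⟨B0, B1, Q1, hB0, hB1, hQ1, rfl, rfl⟩⟩ := hx
  obtain ⟨TA0, tA0, FA0, fA0, rfl⟩ := Fil_split hA0
  obtain ⟨TA1, tA1, FA1, fA1, rfl⟩ := Fil_split hA1
  obtain ⟨TB0, tB0, FB0, fB0, rfl⟩ := Fil_split hB0
  obtain ⟨TB1, tB1, FB1, fB1, rfl⟩ := Fil_split hB1
  obtain ⟨TQ0, tQ0, FQ0, fQ0, rfl⟩ := Fil_split hQ0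
  obtain ⟨TQ1, tQ1, FQ1, fQ1, rfl⟩ := Fil_split hQ1
  have hta := rows_top tA0 tA1
  have htb := rows_top tB0 tB1
  have e : x0 * (z1 * TA0 - z0 * TA1) + x1 * (z1 * TB0 - z0 * TB1) + del (p0 * TQ0 + p1 * TQ1) =
      0 := by
    refine Lay_Fil_disjoint (a' := a - 1) (s := s) (q' := j) (m := a + s) (q := j) (a := a)
      (add_mem (add_mem
        (Lay_cast (X_mul_Lay 2 hta) (by simp [wx]) (by simp [wz]; ring) (by simp [wp]))
        (Lay_cast (X_mul_Lay 3 htb) (by simp [wx]) (by simp [wz]; ring) (by simp [wp])))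
        (Lay_cast (del_Lay (add_mem
          (Lay_cast (X_mul_Lay 4 tQ0) (by simp [wx]) (by simp [wz]) (by simp [wp]) :
            p0 * TQ0 ∈ Lay a (a + (s - 1)) (j + 1))
          (Lay_cast (X_mul_Lay 5 tQ1) (by simp [wx]) (by simp [wz]) (by simp [wp]))))
          rfl (by ring) (by ring))) ?_ (by omega)
    rw [d2_coord' j hA0 hA1 hB0 hB1 hQ0 hQ1] at hd
    have h1 : x0 * (z1 * FA0 - z0 * FA1) + x1 * (z1 * FB0 - z0 * FB1) + del (p0 * FQ0 + p1 * FQ1) +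
        low2 j (TA0 + FA0) (TA1 + FA1) (TB0 + FB0) (TB1 + FB1) ∈ Fil (a - 1) s j := by
      refine add_mem (add_mem (add_mem ?_ ?_) ?_) (low2_mem hA0 hA1 hB0 hB1)
      · exact Fil_cast (X_mul_Fil 2 (sub_mem (z1_Fil fA0) (z0_Fil fA1))) (by simp [wx])
          (by simp [wx, wz]) (by simp [wp])
      · exact Fil_cast (X_mul_Fil 3 (sub_mem (z1_Fil fB0) (z0_Fil fB1))) (by simp [wx])
          (by simp [wx, wz]) (by simp [wp])
      · exact Fil_cast (del_Fil (add_mem (p0_Fil fQ0) (p1_Fil fQ1))) le_rfl (by ring) (by ring)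
    have h2 := sub_mem hd h1
    convert h2 using 1
    (simp only [del, eps, Om, L0, L1, piv, dz0, dz1, dx0, dx1, dp0, dp1,
        z0, z1, x0, x1, p0, p1, Derivation.map_add, Derivation.map_sub,
        Derivation.map_neg, Derivation.map_intCast, Derivation.map_natCast,
        Derivation.map_one_eq_zero, map_zero, pderiv_mul, pderiv_C, pderiv_X_self, rules6])
    ring
  have za : z1 * TA0 - z0 * TA1 ∈ Lay (a - 1) (a + s) j := Lay_cast hta rfl (by ring) rfl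
  have zb : z1 * TB0 - z0 * TB1 ∈ Lay (a - 1) (a + s) j := Lay_cast htb rfl (by ring) rfl
  obtain ⟨u0, u1, ζ, Q, hu0, hu1, hζ, hQ, e0, e1, f0, f1⟩ := layer_two j ha hs za zb
    (Lay_cast tQ0 rfl (by ring) rfl) (Lay_cast tQ1 rfl (by ring) rfl) e
  have hm : a + s - 1 ≠ 0 ∨ ζ = 0 := by
    by_cases h : a + s - 1 = 0
    · exact Or.inr (Lay_zero_of_neg hζ (Or.inl (by omega)))
    · exact Or.inl h
  obtain ⟨R0, R1, r0, r1, eR⟩ := exists_rows hζ hm
  have hR0 : R0 ∈ Fil (a - 2) s (j - 1) := Lay_le_Fil r0 le_rfl (by ring)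
  have hR1 : R1 ∈ Fil (a - 2) s (j - 1) := Lay_le_Fil r1 le_rfl (by ring)
  have hU0 : u0 ∈ Fil (a - 1) s (j + 1) := Lay_le_Fil hu0 le_rfl (by ring)
  have hU1 : u1 ∈ Fil (a - 1) s (j + 1) := Lay_le_Fil hu1 le_rfl (by ring)
  refine ⟨⟨u0, u1, R0 - z0 * Q, R1 - z1 * Q⟩,
    ⟨hU0, hU1, R0, R1, Q, hR0, hR1, Lay_le_Fil hQ le_rfl (by ring), rfl, rfl⟩, ?_⟩
  rw [d1_coord]
  set σ := p0 * R0 + p1 * R1 with hσ'
  have hσ : σ ∈ Lay (a - 2) (a + s - 2) j :=
    add_mem (Lay_cast (X_mul_Lay 4 r0) (by simp [wx]) (by simp [wz]; ring) (by simp [wp]))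
      (Lay_cast (X_mul_Lay 5 r1) (by simp [wx]) (by simp [wz]; ring) (by simp [wp]))
  have top : ∀ z : Fin 6, wz z = 1 → wx z = 0 → wp z = 0 → ∀ G, G ∈ Lay (a - 2) (a + s - 2) (j - 1) →
      ∀ x : Fin 6, wz x = 0 → wx x = 1 → wp x = 0 →
      cc j * (X x * (piv * G - X z * σ)) ∈ Lay (a - 1) (a + s - 1) j := by
    intro z z1' z2 z3 G hG x x1' x2 x3
    exact cc_mul_mem j (Lay_cast (X_mul_Lay x (sub_mem (Lay_cast (piv_Lay hG) rfl rfl (by ring) :
        piv * G ∈ Lay (a - 2) (a + s - 2 + 1) j)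
      (Lay_cast (X_mul_Lay z hσ) (by omega) (by omega) (by omega)))) (by omega) (by omega) (by omega))
  have hd0 : R0 ∈ Lay (a - 2) (a + s - 2) (j - 1) := Lay_cast r0 rfl (by ring) rfl
  have hd1 : R1 ∈ Lay (a - 2) (a + s - 2) (j - 1) := Lay_cast r1 rfl (by ring) rfl
  have du : ∀ u, u ∈ Lay (a - 1) (a + s - 1) (j + 1) →
      dp0 u ∈ Lay (a - 1) (a + s - 1) j ∧ dp1 u ∈ Lay (a - 1) (a + s - 1) j := fun u hu =>
    ⟨Lay_cast (pderiv_Lay 4 hu) (by simp [wx]) (by simp [wz]) (by simp [wp]),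
      Lay_cast (pderiv_Lay 5 hu) (by simp [wx]) (by simp [wz]) (by simp [wp])⟩
  have cast' : ∀ T, T ∈ Lay (a - 1) (a - 1 + s) j → T ∈ Lay (a - 1) (a + s - 1) j := fun T hT =>
    Lay_cast hT rfl (by ring) rfl
  obtain ⟨RA, hRA, eA0, eA1⟩ := rows_ker
    (sub_mem (cast' _ tA0) (sub_mem (du u0 hu0).1 (top 0 rfl rfl rfl R0 hd0 3 rfl rfl rfl)))
    (sub_mem (cast' _ tA1) (sub_mem (du u0 hu0).2 (top 1 rfl rfl rfl R1 hd1 3 rfl rfl rfl))) (by
      have key : z1 * (dp0 u0) - z0 * (dp1 u0) = -del u0 := by (simp only [del, eps, Om, L0, L1, piv, dz0, dz1, dx0, dx1, dp0, dp1,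
                                                                 z0, z1, x0, x1, p0, p1, Derivation.map_add, Derivation.map_sub,
                                                                 Derivation.map_neg, Derivation.map_intCast, Derivation.map_natCast,
                                                                 Derivation.map_one_eq_zero, map_zero, pderiv_mul, pderiv_C, pderiv_X_self, rules6]); ring
      linear_combination e0 - key + cc j * x1 * piv * eR)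
  obtain ⟨RB, hRB, eB0, eB1⟩ := rows_ker
    (sub_mem (cast' _ tB0) (add_mem (du u1 hu1).1 (top 0 rfl rfl rfl R0 hd0 2 rfl rfl rfl)))
    (sub_mem (cast' _ tB1) (add_mem (du u1 hu1).2 (top 1 rfl rfl rfl R1 hd1 2 rfl rfl rfl))) (by
      have key : z1 * (dp0 u1) - z0 * (dp1 u1) = -del u1 := by (simp only [del, eps, Om, L0, L1, piv, dz0, dz1, dx0, dx1, dp0, dp1,
                                                                 z0, z1, x0, x1, p0, p1, Derivation.map_add, Derivation.map_sub,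
                                                                 Derivation.map_neg, Derivation.map_intCast, Derivation.map_natCast,
                                                                 Derivation.map_one_eq_zero, map_zero, pderiv_mul, pderiv_C, pderiv_X_self, rules6]); ring
      linear_combination e1 - key - cc j * x0 * piv * eR)
  have hdz : dz0 u0 + dz1 u1 ∈ Fil (a - 1) (s - 1) (j + 1) := add_mem (dz0_Fil hU0) (dz1_Fil hU1)
  have hlow : ∀ G, G ∈ Fil (a - 2) s (j - 1) → ∀ z, z * σ ∈ Fil (a - 2) (s + 1) j →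
      (dz1 (piv * G - z * σ) ∈ Fil (a - 1) s j ∧ dz0 (piv * G - z * σ) ∈ Fil (a - 1) s j) ∧
        (p1 * G ∈ Fil (a - 1) s j ∧ p0 * G ∈ Fil (a - 1) s j) := fun G hG z hz => by
    have h : piv * G - z * σ ∈ Fil (a - 2) (s + 1) j :=
      sub_mem (Fil_cast (piv_Fil hG) le_rfl rfl (by ring)) hz
    exact ⟨⟨Fil_cast (dz1_Fil h) (by omega) (by ring) rfl,
      Fil_cast (dz0_Fil h) (by omega) (by ring) rfl⟩,
      ⟨Fil_cast (p1_Fil hG) (by omega) rfl (by ring), Fil_cast (p0_Fil hG) (by omega) rfl (by ring)⟩⟩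
  have hσF : σ ∈ Fil (a - 2) s j := Lay_le_Fil hσ le_rfl (by ring)
  have l0 := hlow R0 hR0 z0 (z0_Fil hσF)
  have l1 := hlow R1 hR1 z1 (z1_Fil hσF)
  have back : ∀ {n : ℤ} {F : S6}, F ∈ Fil (a - 1 - 1) s j → n = 1 → F ∈ Fil (a - 1 - n) s j :=
    fun h hn => Fil_cast h (by omega) rfl rfl
  have low1 : ∀ F, F ∈ Fil (a - 2) s j → F ∈ Fil (a - 1 - 1) s j := fun F h =>
    Fil_cast h (by omega) rfl rfl
  have lz : ∀ G, G ∈ Fil (a - 2) s (j - 1) → ∀ z, z * σ ∈ Fil (a - 2) (s + 1) j →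
      (p1 * G ∈ Fil (a - 2) s j ∧ p0 * G ∈ Fil (a - 2) s j) ∧
      (dz1 (piv * G - z * σ) ∈ Fil (a - 2) s j ∧ dz0 (piv * G - z * σ) ∈ Fil (a - 2) s j) := by
    intro G hG z hz
    have h : piv * G - z * σ ∈ Fil (a - 2) (s + 1) j :=
      sub_mem (Fil_cast (piv_Fil hG) le_rfl rfl (by ring)) hz
    exact ⟨⟨Fil_cast (p1_Fil hG) le_rfl rfl (by ring), Fil_cast (p0_Fil hG) le_rfl rfl (by ring)⟩,
      ⟨Fil_cast (dz1_Fil h) le_rfl (by ring) rfl, Fil_cast (dz0_Fil h) le_rfl (by ring) rfl⟩⟩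
  have m0 := lz R0 hR0 z0 (z0_Fil hσF)
  have m1 := lz R1 hR1 z1 (z1_Fil hσF)
  refine ⟨⟨FA0 - (p1 * R0 - cc j * dz1 (piv * R0 - z0 * σ)),
      FA1 - (p1 * R1 - cc j * dz1 (piv * R1 - z1 * σ)),
      FQ0 - cc j * dp0 (dz0 u0 + dz1 u1) - RA, ?_, ?_, ?_, ?_, ?_⟩,
    ⟨FB0 - (-(p0 * R0) + cc j * dz0 (piv * R0 - z0 * σ)),
      FB1 - (-(p0 * R1) + cc j * dz0 (piv * R1 - z1 * σ)),
      FQ1 - cc j * dp1 (dz0 u0 + dz1 u1) - RB, ?_, ?_, ?_, ?_, ?_⟩⟩
  · exact sub_mem fA0 (low1 _ (sub_mem m0.1.1 (cc_Fil j m0.2.1)))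
  · exact sub_mem fA1 (low1 _ (sub_mem m1.1.1 (cc_Fil j m1.2.1)))
  · exact sub_mem (sub_mem fQ0 (cc_Fil j (Fil_cast (dp0_Fil hdz) le_rfl rfl (by ring))))
      (Lay_le_Fil hRA le_rfl (by ring))
  rotate_left 2
  · exact sub_mem fB0 (low1 _ (add_mem (neg_mem m0.1.2) (cc_Fil j m0.2.2)))
  · exact sub_mem fB1 (low1 _ (add_mem (neg_mem m1.1.2) (cc_Fil j m1.2.2)))
  · exact sub_mem (sub_mem fQ1 (cc_Fil j (Fil_cast (dp1_Fil hdz) le_rfl rfl (by ring))))
      (Lay_le_Fil hRB le_rfl (by ring))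
  all_goals
    simp only [Co2.sub_a0, Co2.sub_a1, Co2.sub_b0, Co2.sub_b1, D0r, D1r]
    revert eA0 eA1 eB0 eB1 f0 f1
    rw [hσ']
    ((simp only [del, eps, Om, L0, L1, piv, dz0, dz1, dx0, dx1, dp0, dp1,
        z0, z1, x0, x1, p0, p1, Derivation.map_add, Derivation.map_sub,
        Derivation.map_neg, Derivation.map_intCast, Derivation.map_natCast,
        Derivation.map_one_eq_zero, map_zero, pderiv_mul, pderiv_C, pderiv_X_self, rules6]);
        try simp only [pderiv_cc, zero_mul, mul_zero, add_zero, zero_add, sub_zero, map_zero])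
    intro f0 f1 eA0 eA1 eB0 eB1
  · linear_combination eB0 - X 0 * f1
  · linear_combination eB1 - X 1 * f1
  · linear_combination eA0 - X 0 * f0
  · linear_combination eA1 - X 1 * f0

end Vale.Agent.P195.Gamma.ExactB
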